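import Crest.Agent.R217.Defs

set_option autoImplicit false
set_option linter.unusedSectionVars false
open Set Filter Topology

namespace Crest.Agent.R217

/-! Elementary algebraic identities and locality on tuples. -/

variable {X Y Z V V' V'' : Type*} [AddCommGroup V] [Module ℝ V] [AddCommGroup V'] [Module ℝ V']
  [AddCommGroup V''] [Module ℝ V'']

theorem Alg_dL_congr {l : List X} {f f' : List X → V}
    (h : ∀ k : List X, k.length + 1 = l.length → (∀ y ∈ k, y ∈ l) → f k = f' k) :
    dL l f = dL l f' := by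
  induction l generalizing f f' with
  | nil => rfl
  | cons y l ih =>
    rw [dL_cons, dL_cons, h l rfl fun z hz => List.mem_cons_of_mem _ hz]
    congr 1
    refine ih fun k hk hm => h _ (by simp [hk]) fun z hz => ?_
    rcases List.mem_cons.1 hz with rfl | hz
    · exact List.mem_cons_self
    · exact List.mem_cons_of_mem _ (hm z hz)

theorem Alg_dL_zero (l : List X) : dL l (fun _ => (0 : V)) = 0 := by
  induction l with
  | nil => rfl
  | cons y l ih => simp [ih]

theorem Alg_dL_sub (l : List X) (f f' : List X → V) :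
    dL l (fun k => f k - f' k) = dL l f - dL l f' := by
  induction l generalizing f f' with
  | nil => simp
  | cons y l ih => simp only [dL_cons, ih]; abel

theorem Alg_dL_pull (φ : Y → X) (l : List Y) (f : List X → V) :
    dL l (fun k => f (k.map φ)) = dL (l.map φ) f := by
  induction l generalizing f with
  | nil => rfl
  | cons y l ih => simp only [dL_cons, List.map_cons, ← ih]

theorem Alg_dL_dL (l : List X) (f : List X → V) : dL l (fun k => dL k f) = 0 := by
  induction l generalizing f with
  | nil => rfl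
  | cons y l ih => simp only [dL_cons, Alg_dL_sub, ih]; abel

theorem Alg_pairFun_congr {h : V →ₗ[ℝ] V →ₗ[ℝ] ℝ} {h' : V' →ₗ[ℝ] V' →ₗ[ℝ] ℝ} {c c' : Coch X V}
    {d d' : Coch X V'} (H : ∀ x l l', h (c x l) (c' x l') = h' (d x l) (d' x l')) :
    pair h c c' = pair h' d d' := by
  have : ∀ l x acc, pairFun h c c' x acc l = pairFun h' d d' x acc l := by
    intro l
    induction l with
    | nil => exact fun x acc => H _ _ _
    | cons y l ih => intro x acc; simp only [pairFun, ih, H]
  funext x l
  exact this l x []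

theorem Alg_pairFun_van {h : V →ₗ[ℝ] V →ₗ[ℝ] ℝ} {c c' : Coch X V} {N : Set X}
    (H : ∀ x ∈ N, ∀ l l' : List X, (∀ y ∈ l, y ∈ N) → (∀ y ∈ l', y ∈ N) →
      h (c x l) (c' x l') = 0) : VanOn (pair h c c') N := by
  have : ∀ (l : List X) (x : X) (acc : List X), x ∈ N → (∀ y ∈ acc, y ∈ N) → (∀ y ∈ l, y ∈ N) →
      pairFun h c c' x acc l = 0 := by
    intro l
    induction l with
    | nil => exact fun x acc hx ha hl => H x hx _ _ ha hl
    | cons y l ih =>
      intro x acc hx ha hl
      have hl' := List.forall_mem_cons.1 hl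
      rw [pairFun, H x hx _ _ ha hl, ih y _ hl'.1 (List.forall_mem_cons.2 ⟨hx, ha⟩) hl'.2, add_zero]
  exact fun x hx l hl => this l x [] hx (by simp) hl

theorem delta_pull (φ : Y → X) (g : Sys X V) (c : Coch X V) :
    delta (pullS φ g) (pull φ c) = pull φ (delta g c) := by
  funext x l
  cases l with
  | nil => rfl
  | cons y l =>
    rw [delta_cons, pull_apply φ (delta g c), List.map_cons, delta_cons, ← List.map_cons,
      ← Alg_dL_pull]
    rfl

theorem delta_one_pull (φ : Y → X) (c : Coch X V) :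
    delta 1 (pull φ c) = pull φ (delta 1 c) := by
  exact delta_pull φ 1 c

theorem delta_eps (g : Sys X V) (c : Coch X V) : delta g (eps c) = - eps (delta g c) := by
  funext x l
  cases l with
  | nil => simp [eps_apply]
  | cons y l =>
    have : dL (y :: l) (eps c x) = dL (y :: l) (fun k => ((-1 : ℝ) ^ l.length) • c x k) :=
      Alg_dL_congr fun k hk _ => by rw [eps_apply, show k.length = l.length by simpa using hk]
    rw [delta_cons, this, dL_smul, Pi.neg_apply, Pi.neg_apply, eps_apply, eps_apply, delta_cons,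
      map_smul, List.length_cons, pow_succ, ← smul_sub, ← neg_smul, mul_neg_one, neg_neg]

theorem eps_eps (c : Coch X V) : eps (eps c) = c := by
  funext x l
  rw [eps_apply, eps_apply, smul_smul, ← mul_pow]
  simp

theorem delta_proj (g : Sys X V) (k : ℕ) (c : Coch X V) :
    delta g (proj k c) = proj (k + 1) (delta g c) := by
  funext x l
  cases l with
  | nil => simp [proj_apply]
  | cons y l =>
    rw [delta_cons, proj_apply, proj_apply, delta_cons, List.length_cons]
    simp only [Nat.add_right_cancel_iff]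
    split_ifs with h
    · congr 1
      exact Alg_dL_congr fun m hm _ => if_pos (by simpa [h] using hm)
    · rw [map_zero, ← Alg_dL_zero (y :: l), sub_eq_iff_eq_add, Alg_dL_zero, zero_add,
        ← Alg_dL_zero (y :: l)]
      exact Alg_dL_congr fun m hm _ => (if_neg fun h' => h (by simpa [h'] using hm.symm)).symm

theorem proj_zero_delta (g : Sys X V) (c : Coch X V) : proj 0 (delta g c) = 0 := by
  funext x l
  cases l <;> simp [proj_apply]

theorem proj_proj (k m : ℕ) (c : Coch X V) :
    proj k (proj m c) = if k = m then proj k c else 0 := by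
  funext x l
  split_ifs with h
  · subst h
    simp only [proj_apply]
    split_ifs <;> rfl
  · simp only [proj_apply, Pi.zero_apply]
    split_ifs with h1 h2
    · exact absurd (h1.symm.trans h2) h
    all_goals rfl

theorem proj_cut (k : ℕ) (S : Set X) (c : Coch X V) : proj k (cut S c) = cut S (proj k c) := by
  funext x l
  by_cases h : x ∈ S <;> simp [proj_apply, cut_of_mem, cut_of_notMem, h]

theorem proj_pull (k : ℕ) (φ : Y → X) (c : Coch X V) : proj k (pull φ c) = pull φ (proj k c) := by
  funext x l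
  simp [proj_apply]

theorem eps_cut (S : Set X) (c : Coch X V) : eps (cut S c) = cut S (eps c) := by
  funext x l
  by_cases h : x ∈ S <;> simp [eps_apply, cut_of_mem, cut_of_notMem, h]

theorem eps_pull (φ : Y → X) (c : Coch X V) : eps (pull φ c) = pull φ (eps c) := by
  funext x l
  simp [eps_apply]

theorem eps_act (γ : X → V →ₗ[ℝ] V') (c : Coch X V) : eps (act γ c) = act γ (eps c) := by
  funext x l
  simp [eps_apply]

theorem pull_cut (φ : Y → X) (S : Set X) (c : Coch X V) :
    pull φ (cut S c) = cut (φ ⁻¹' S) (pull φ c) := by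
  funext x l
  by_cases h : φ x ∈ S <;> simp [cut_of_mem, cut_of_notMem, h]

theorem pull_pull (ψ : Z → Y) (φ : Y → X) (c : Coch X V) :
    pull ψ (pull φ c) = pull (φ ∘ ψ) c := by
  funext x l
  simp

theorem pull_id (c : Coch X V) : pull id c = c := by
  funext x l
  simp

theorem pull_act (φ : Y → X) (γ : X → V →ₗ[ℝ] V') (c : Coch X V) :
    pull φ (act γ c) = act (fun y => γ (φ y)) (pull φ c) := by
  rfl

theorem pull_sec (φ : Y → X) (s : X → V) : pull φ (sec s) = sec (fun y => s (φ y)) := by
  funext x l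
  cases l <;> rfl

theorem pull_pair (φ : Y → X) (h : V →ₗ[ℝ] V →ₗ[ℝ] ℝ) (c c' : Coch X V) :
    pull φ (pair h c c') = pair h (pull φ c) (pull φ c') := by
  have : ∀ (l : List Y) (x : Y) (acc : List Y), pairFun h c c' (φ x) (acc.map φ) (l.map φ) =
      pairFun h (pull φ c) (pull φ c') x acc l := by
    intro l
    induction l with
    | nil => exact fun x acc => rfl
    | cons y l ih => intro x acc; rw [pairFun, ← ih]; rfl
  funext x l
  exact this l x []

theorem act_act (γ' : X → V' →ₗ[ℝ] V'') (γ : X → V →ₗ[ℝ] V') (c : Coch X V) :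
    act γ' (act γ c) = act (fun x => γ' x ∘ₗ γ x) c := by
  rfl

theorem act_one (c : Coch X V) : act (fun _ => (1 : Module.End ℝ V)) c = c := by
  rfl

theorem act_cut (γ : X → V →ₗ[ℝ] V') (S : Set X) (c : Coch X V) :
    act γ (cut S c) = cut S (act γ c) := by
  funext x l
  by_cases h : x ∈ S <;> simp [cut_of_mem, cut_of_notMem, h]

theorem act_sec (γ : X → V →ₗ[ℝ] V') (s : X → V) : act γ (sec s) = sec (fun x => γ x (s x)) := by
  funext x l
  cases l <;> simp

/-- A constant endomorphism commuting with `g` commutes with the coboundary. -/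
theorem delta_act_const {g : Sys X V} {g' : Sys X V'} {a : V →ₗ[ℝ] V'}
    (ha : ∀ x y, g' x y ∘ₗ a = a ∘ₗ g x y) (c : Coch X V) :
    delta g' (act (fun _ => a) c) = act (fun _ => a) (delta g c) := by
  funext x l
  cases l with
  | nil => simp
  | cons y l =>
    rw [act_apply, delta_cons, delta_cons, map_sub, ← dL_map]
    exact congrArg (· - _) (LinearMap.congr_fun (ha x y) _)

theorem cut_univ (c : Coch X V) : cut univ c = c := by
  funext x l
  exact cut_of_mem (mem_univ x) c l

theorem cut_empty (c : Coch X V) : cut ∅ c = 0 := by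
  funext x l
  exact cut_of_notMem (notMem_empty x) c l

theorem cut_compl (S : Set X) (c : Coch X V) : cut Sᶜ c = c - cut S c := by
  funext x l
  by_cases h : x ∈ S <;> simp [cut_of_mem, cut_of_notMem, h]

theorem cut_cut (S S' : Set X) (c : Coch X V) : cut S (cut S' c) = cut (S ∩ S') c := by
  funext x l
  by_cases h : x ∈ S <;> by_cases h' : x ∈ S' <;> simp [cut_of_mem, cut_of_notMem, h, h']

theorem cut_union {S S' : Set X} (hd : Disjoint S S') (c : Coch X V) :
    cut (S ∪ S') c = cut S c + cut S' c := by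
  funext x l
  by_cases h : x ∈ S <;> by_cases h' : x ∈ S'
  · exact absurd h' (disjoint_left.1 hd h)
  all_goals simp [cut_of_mem, cut_of_notMem, h, h']

theorem pair_act_act {h : V →ₗ[ℝ] V →ₗ[ℝ] ℝ} {h' : V' →ₗ[ℝ] V' →ₗ[ℝ] ℝ} {γ : X → V →ₗ[ℝ] V'}
    (hγ : ∀ x u v, h' (γ x u) (γ x v) = h u v) (c c' : Coch X V) :
    pair h' (act γ c) (act γ c') = pair h c c' := by
  exact Alg_pairFun_congr fun x _ _ => hγ x _ _

theorem pair_act_adj {h : V →ₗ[ℝ] V →ₗ[ℝ] ℝ} {γ γ' : X → V →ₗ[ℝ] V}
    (hγ : ∀ x u v, h (γ x u) v = h u (γ' x v)) (c c' : Coch X V) :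
    pair h (act γ c) c' = pair h c (act γ' c') := by
  exact Alg_pairFun_congr fun x _ _ => hγ x _ _

theorem pair_compl₂ (h : V →ₗ[ℝ] V →ₗ[ℝ] ℝ) (a : V →ₗ[ℝ] V) (c c' : Coch X V) :
    pair (h.compl₂ a) c c' = pair h c (act (fun _ => a) c') := by
  exact Alg_pairFun_congr fun _ _ _ => rfl

theorem pair_sec_left (h : V →ₗ[ℝ] V →ₗ[ℝ] ℝ) (s : X → V) (c : Coch X V) :
    pair h (sec s) c = act (fun x => h (s x)) c := by
  have : ∀ (l : List X) (x y : X) (acc : List X), pairFun h (sec s) c x (y :: acc) l = 0 := by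
    intro l
    induction l with
    | nil => simp [pairFun]
    | cons z l ih => simp [pairFun, ih]
  funext x l
  cases l <;> simp [pair_apply, pairFun, this]

theorem pair_add_form (h h' : V →ₗ[ℝ] V →ₗ[ℝ] ℝ) (c c' : Coch X V) :
    pair (h + h') c c' = pair h c c' + pair h' c c' := by
  have : ∀ l x acc, pairFun (h + h') c c' x acc l =
      pairFun h c c' x acc l + pairFun h' c c' x acc l := by
    intro l
    induction l with
    | nil => exact fun x acc => rfl
    | cons y l ih => intro x acc; simp only [pairFun, ih, LinearMap.add_apply]; ring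
  funext x l
  exact this l x []

theorem pair_smul_form (a : ℝ) (h : V →ₗ[ℝ] V →ₗ[ℝ] ℝ) (c c' : Coch X V) :
    pair (a • h) c c' = a • pair h c c' := by
  rw [← LinearMap.smul_apply, ← map_smul]
  exact Alg_pairFun_congr fun _ _ _ => by simp

/-- General naturality of the pairing in the fibre. -/
theorem pair_compl₁₂ (h : V' →ₗ[ℝ] V' →ₗ[ℝ] ℝ) (a a' : V →ₗ[ℝ] V') (c c' : Coch X V) :
    pair (h.compl₁₂ a a') c c' = pair h (act (fun _ => a) c) (act (fun _ => a') c') := by
  exact Alg_pairFun_congr fun _ _ _ => rfl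

theorem VanOn.mono {c : Coch X V} {N N' : Set X} (hc : VanOn c N) (h : N' ⊆ N) : VanOn c N' := by
  exact fun x hx l hl => hc x (h hx) l fun y hy => h (hl y hy)

theorem CocOn.mono {g : Sys X V} {N N' : Set X} (hg : CocOn g N) (h : N' ⊆ N) : CocOn g N' := by
  exact ⟨fun x hx => hg.1 x (h hx), fun x hx y hy z hz => hg.2 x (h hx) y (h hy) z (h hz)⟩

theorem cocOn_one (N : Set X) : CocOn (1 : Sys X V) N := by
  exact ⟨fun _ _ => rfl, fun _ _ _ _ _ _ => mul_one _⟩

theorem VanOn.delta {c : Coch X V} {N : Set X} (hc : VanOn c N) (g : Sys X V) :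
    VanOn (delta g c) N := by
  intro x hx l hl
  cases l with
  | nil => rfl
  | cons y l =>
    have hl' := List.forall_mem_cons.1 hl
    rw [delta_cons, hc y hl'.1 l hl'.2, map_zero,
      Alg_dL_congr fun k _ hk => hc x hx k fun z hz => hl z (hk z hz), Alg_dL_zero, sub_zero]

theorem VanOn.rev {c : Coch X V} {N : Set X} (hc : VanOn c N) : VanOn (rev c) N := by
  have : ∀ (l : List X) (x : X) (acc : List X), x ∈ N → (∀ y ∈ acc, y ∈ N) → (∀ y ∈ l, y ∈ N) →
      revFun c x acc l = 0 := by
    intro l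
    induction l with
    | nil => exact fun x acc hx ha _ => hc x hx _ ha
    | cons y l ih =>
      intro x acc hx ha hl
      have hl' := List.forall_mem_cons.1 hl
      exact ih y _ hl'.1 (List.forall_mem_cons.2 ⟨hx, ha⟩) hl'.2
  exact fun x hx l hl => this l x [] hx (by simp) hl

theorem VanOn.pair_left {c : Coch X V} {N : Set X} (hc : VanOn c N) (h : V →ₗ[ℝ] V →ₗ[ℝ] ℝ)
    (c' : Coch X V) : VanOn (pair h c c') N := by
  exact Alg_pairFun_van fun x hx l _ hl _ => by simp [hc x hx l hl]

theorem VanOn.pair_right {c' : Coch X V} {N : Set X} (hc : VanOn c' N) (h : V →ₗ[ℝ] V →ₗ[ℝ] ℝ)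
    (c : Coch X V) : VanOn (pair h c c') N := by
  exact Alg_pairFun_van fun x hx _ l _ hl => by simp [hc x hx l hl]

theorem VanOn.pull {c : Coch X V} {N : Set X} (hc : VanOn c N) {φ : Y → X} {N' : Set Y}
    (hφ : MapsTo φ N' N) : VanOn (pull φ c) N' := by
  exact fun x hx l hl => hc _ (hφ hx) _ (List.forall_mem_map.2 fun y hy => hφ (hl y hy))

theorem VanOn.prism {c : Coch X V} {N : Set X} (hc : VanOn c N) {φ₀ φ₁ : Y → X} {N' : Set Y}
    (h₀ : MapsTo φ₀ N' N) (h₁ : MapsTo φ₁ N' N) : VanOn (prism φ₀ φ₁ c) N' := by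
  have : ∀ (l : List Y) (f : List X → V), (∀ y ∈ l, y ∈ N') →
      (∀ k : List X, (∀ y ∈ k, y ∈ N) → f k = 0) → prismL φ₀ φ₁ l f = 0 := by
    intro l
    induction l with
    | nil => exact fun _ _ _ => rfl
    | cons y l ih =>
      intro f hl hf
      have hl' := List.forall_mem_cons.1 hl
      rw [prismL, ih _ hl'.2 fun k hk => hf _ (List.forall_mem_cons.2 ⟨h₀ hl'.1, hk⟩), sub_zero]
      exact hf _ (List.forall_mem_cons.2 ⟨h₀ hl'.1, List.forall_mem_cons.2
        ⟨h₁ hl'.1, List.forall_mem_map.2 fun z hz => h₁ (hl'.2 z hz)⟩⟩)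
  intro x hx l hl
  rw [R217.prism, this l _ hl (hc _ (h₀ hx)), sub_zero]
  exact hc _ (h₀ hx) _ (List.forall_mem_cons.2
    ⟨h₁ hx, List.forall_mem_map.2 fun z hz => h₁ (hl z hz)⟩)

theorem vanOn_delta_act {γ : X → V →ₗ[ℝ] V'} {g : Sys X V} {g' : Sys X V'} {N : Set X}
    (hγ : IntOn γ g g' N) (c : Coch X V) :
    VanOn (delta g' (act γ c) - act γ (delta g c)) N := by
  intro x hx l hl
  cases l with
  | nil => simp
  | cons y l =>
    rw [Pi.sub_apply, Pi.sub_apply, act_apply, delta_cons, delta_cons, map_sub, ← dL_map,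
      sub_eq_zero]
    exact congrArg (· - _) (LinearMap.congr_fun (hγ x hx y (hl y List.mem_cons_self)) _)

theorem vanOn_delta_congr {g g' : Sys X V} {N : Set X} (hg : ∀ x ∈ N, ∀ y ∈ N, g x y = g' x y)
    (c : Coch X V) : VanOn (delta g c - delta g' c) N := by
  intro x hx l hl
  cases l with
  | nil => simp
  | cons y l =>
    rw [Pi.sub_apply, Pi.sub_apply, delta_cons, delta_cons, hg x hx y (hl y List.mem_cons_self),
      sub_self]

theorem delta_one_delta_one (c : Coch X V) : delta 1 (delta (1 : Sys X V) c) = 0 := by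
  let F : Coch X V → List X → V := fun c l => l.casesOn 0 c
  have h1 : ∀ (c : Coch X V) (x : X) (l : List X), delta 1 c x l = dL (x :: l) (F c) := by
    intro c x l
    cases l with
    | nil => exact (sub_zero _).symm
    | cons y l => rfl
  have h2 : F (delta 1 c) = fun k => dL k (F c) := by
    funext k
    cases k with
    | nil => rfl
    | cons y l => exact h1 c y l
  funext x l
  rw [h1, h2, Alg_dL_dL]
  rfl

/-- Hint: fix `b ∈ N` (the head), `γ x = g b x` intertwines `g` and `1` on `N` and is invertible. -/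
theorem vanOn_delta_delta {g : Sys X V} {N : Set X} (hg : CocOn g N) (c : Coch X V) :
    VanOn (delta g (delta g c)) N := by
  intro x hx l hl
  have hγ : IntOn (g x) g 1 N := fun y hy z hz => (hg.2 x hx y hy z hz).symm
  have h1 := (vanOn_delta_act hγ c).delta 1 x hx l hl
  have h2 := vanOn_delta_act hγ (delta g c) x hx l hl
  rw [map_sub, delta_one_delta_one, zero_sub, Pi.neg_apply, Pi.neg_apply, neg_eq_zero] at h1
  rwa [Pi.sub_apply, Pi.sub_apply, h1, zero_sub, neg_eq_zero, act_apply, hg.1 x hx] at h2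

/-- Cone contraction for trivial transports. -/
theorem cone_identity (a : X) (c : Coch X V) :
    c = delta 1 (fun x l => c a (x :: l)) + sec (fun _ => c a []) +
      (fun x l => delta 1 c a (x :: l)) := by
  funext x l
  cases l <;> simp [delta_cons]

/-- A flat section is a cocycle. -/
theorem vanOn_delta_sec {g : Sys X V} {N : Set X} {s : X → V}
    (hs : ∀ x ∈ N, ∀ y ∈ N, g x y (s y) = s x) : VanOn (delta g (sec s)) N := by
  intro x hx l hl
  rcases l with _ | ⟨y, _ | ⟨z, l⟩⟩
  · rfl
  · simp [delta_cons, hs x hx y (hl y List.mem_cons_self)]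
  · rw [delta_cons, sec_cons, map_zero, Alg_dL_congr (f' := fun _ => 0), Alg_dL_zero, sub_zero]
    intro k hk _
    cases k with
    | nil => simp at hk
    | cons _ _ => rfl

end Crest.Agent.R217
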