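import Crest.Agent.R217.Defs

set_option autoImplicit false
set_option linter.unusedSectionVars false
open Set Filter Topology

namespace Crest.Agent.R217

/-! Induction over finite unions of small convex sets. -/

variable {X V : Type*} [AddCommGroup V] [Module ℝ V]

/-- An open set inside a compact set on which `g` is a local system. -/
structure GoodPair [TopologicalSpace X] (g : Sys X V) (U A : Set X) : Prop where
  isOpen : IsOpen U
  cpt : IsCompact A
  sub : U ⊆ A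
  coc : ∀ x ∈ A, CocAt g x

variable [NormedAddCommGroup X] [NormedSpace ℝ X] [FiniteDimensional ℝ X]

/-- A small convex pair. -/
structure CvxPair (g : Sys X V) (U A : Set X) : Prop where
  isOpen : IsOpen U
  cpt : IsCompact A
  sub : U ⊆ A
  cvxU : Convex ℝ U
  cvxA : Convex ℝ A
  coc : ∃ N ∈ 𝓝ˢ A, CocOn g N

theorem CvxPair.goodPair {g : Sys X V} {U A : Set X} (h : CvxPair g U A) : GoodPair g U A := by
  refine ⟨h.isOpen, h.cpt, h.sub, fun x hx => ?_⟩
  obtain ⟨N, hN, hc⟩ := h.coc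
  exact ⟨N, mem_nhdsSet_iff_forall.1 hN x hx, hc⟩

theorem Cover_cocOn_mono {g : Sys X V} {N N' : Set X} (h : CocOn g N) (hN : N' ⊆ N) :
    CocOn g N' :=
  ⟨fun x hx => h.1 x (hN hx), fun x hx y hy z hz => h.2 x (hN hx) y (hN hy) z (hN hz)⟩

theorem Cover_cvxPair_inter {g : Sys X V} {U A U' A' : Set X} (h : CvxPair g U A)
    (h' : CvxPair g U' A') : CvxPair g (U ∩ U') (A ∩ A') := by
  refine ⟨h.isOpen.inter h'.isOpen, h.cpt.inter h'.cpt, inter_subset_inter h.sub h'.sub,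
    h.cvxU.inter h'.cvxU, h.cvxA.inter h'.cvxA, ?_⟩
  obtain ⟨N, hN, hc⟩ := h.coc
  exact ⟨N, nhdsSet_mono inter_subset_left hN, hc⟩

theorem Cover_goodPair_biUnion {g : Sys X V} {ι : Type*} (s : Finset ι) (U A : ι → Set X)
    (hc : ∀ i ∈ s, CvxPair g (U i) (A i)) : GoodPair g (⋃ i ∈ s, U i) (⋃ i ∈ s, A i) := by
  refine ⟨isOpen_biUnion fun i hi => (hc i hi).isOpen,
    s.isCompact_biUnion fun i hi => (hc i hi).cpt,
    iUnion₂_mono fun i hi => (hc i hi).sub, fun x hx => ?_⟩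
  obtain ⟨i, hi, hxi⟩ := mem_iUnion₂.1 hx
  exact (hc i hi).goodPair.coc x hxi

/-- Hint: induction on the cardinality, for all families at once:
`(⋃ i ∈ s, U i) ∩ U a = ⋃ i ∈ s, U i ∩ U a`. -/
theorem cvx_induction {g : Sys X V} (P : Set X → Set X → Prop) (h0 : P ∅ ∅)
    (h1 : ∀ U A, CvxPair g U A → U.Nonempty → P U A)
    (hMV : ∀ U₁ A₁ U₂ A₂, GoodPair g U₁ A₁ → GoodPair g U₂ A₂ → P U₁ A₁ → P U₂ A₂ →
      P (U₁ ∩ U₂) (A₁ ∩ A₂) → P (U₁ ∪ U₂) (A₁ ∪ A₂))
    {ι : Type*} (s : Finset ι) (U A : ι → Set X) (hc : ∀ i ∈ s, CvxPair g (U i) (A i))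
    (hn : ∀ t : Finset ι, t ⊆ s → t.Nonempty → (⋂ i ∈ t, A i).Nonempty →
      (⋂ i ∈ t, U i).Nonempty) :
    P (⋃ i ∈ s, U i) (⋃ i ∈ s, A i) := by
  classical
  induction s using Finset.induction_on generalizing U A with
  | empty => simpa using h0
  | insert a s ha ih =>
    have hca := hc a (Finset.mem_insert_self a s)
    have hcs : ∀ i ∈ s, CvxPair g (U i) (A i) := fun i hi => hc i (Finset.mem_insert_of_mem hi)
    have Ps : P (⋃ i ∈ s, U i) (⋃ i ∈ s, A i) :=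
      ih U A hcs fun t ht => hn t (ht.trans (Finset.subset_insert a s))
    have Pa : P (U a) (A a) := by
      rcases (A a).eq_empty_or_nonempty with hA | hA
      · have hU : U a = ∅ := subset_eq_empty hca.sub hA
        rw [hA, hU]
        exact h0
      · refine h1 _ _ hca ?_
        simpa using hn {a} (by simp) (by simp) (by simpa using hA)
    have Pi : P (⋃ i ∈ s, U a ∩ U i) (⋃ i ∈ s, A a ∩ A i) := by
      refine ih (fun i => U a ∩ U i) (fun i => A a ∩ A i)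
        (fun i hi => Cover_cvxPair_inter hca (hcs i hi)) fun t ht htn hne => ?_
      obtain ⟨x, hx⟩ := hne
      obtain ⟨i₀, hi₀⟩ := htn
      rw [mem_iInter₂] at hx
      obtain ⟨y, hy⟩ := hn (insert a t) (Finset.insert_subset_insert a ht)
        (Finset.insert_nonempty a t) ⟨x, mem_iInter₂.2 fun i hi => by
          rcases Finset.mem_insert.1 hi with rfl | hi
          · exact (hx i₀ hi₀).1
          · exact (hx i hi).2⟩
      rw [mem_iInter₂] at hy
      exact ⟨y, mem_iInter₂.2 fun i hi =>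
        ⟨hy a (Finset.mem_insert_self a t), hy i (Finset.mem_insert_of_mem hi)⟩⟩
    rw [Finset.set_biUnion_insert, Finset.set_biUnion_insert]
    refine hMV _ _ _ _ hca.goodPair (Cover_goodPair_biUnion s U A hcs) Pa Ps ?_
    rw [inter_iUnion₂, inter_iUnion₂]
    exact Pi

/-- Hint: Lebesgue number `δ`; a finite `δ/4`-net `s` of `K`; for `t ⊆ s` nonempty let `r_t` be the
minimum of `x ↦ max_{c ∈ t} dist x c`; pick `r ∈ (δ/4, δ/2)` different from all `r_t`; use
`ball c r` and `closedBall c r`. -/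
theorem exists_pair_of_induction {g : Sys X V} (P : Set X → Set X → Prop) (h0 : P ∅ ∅)
    (h1 : ∀ U A, CvxPair g U A → U.Nonempty → P U A)
    (hMV : ∀ U₁ A₁ U₂ A₂, GoodPair g U₁ A₁ → GoodPair g U₂ A₂ → P U₁ A₁ → P U₂ A₂ →
      P (U₁ ∩ U₂) (A₁ ∩ A₂) → P (U₁ ∪ U₂) (A₁ ∪ A₂))
    {K O : Set X} (hK : IsCompact K) (hO : IsOpen O) (hKO : K ⊆ O) (hg : ∀ x ∈ O, CocAt g x) :
    ∃ U A, GoodPair g U A ∧ K ⊆ U ∧ A ⊆ O ∧ P U A := by
  classical
  choose! N hN hNc using hg
  obtain ⟨δ, hδ, hleb⟩ := lebesgue_number_lemma_of_metric (ι := O) hK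
    (c := fun x => interior (N x.1) ∩ O) (fun x => isOpen_interior.inter hO)
    (fun x hx => mem_iUnion.2 ⟨⟨x, hKO hx⟩,
      mem_interior_iff_mem_nhds.2 (hN x (hKO hx)), hKO hx⟩)
  obtain ⟨s₀, hs₀K, hs₀f, hs₀⟩ := hK.finite_cover_balls (e := δ / 4) (by positivity)
  set s := hs₀f.toFinset with hs
  let S : Finset X → Set ℝ := fun t => {ρ | (⋂ c ∈ t, Metric.closedBall c ρ).Nonempty}
  obtain ⟨r, ⟨hr1, hr2⟩, hr⟩ := (Ioo_infinite (show δ / 4 < δ / 2 by linarith)).exists_notMem_finset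
    (s.powerset.image fun t => sInf (S t))
  have hsK : ∀ c ∈ s, c ∈ K := fun c hc => hs₀K (hs₀f.mem_toFinset.1 hc)
  have hball : ∀ c : X, Metric.closedBall c r ⊆ Metric.ball c δ := fun c =>
    Metric.closedBall_subset_ball (by linarith)
  have hcv : ∀ c ∈ s, CvxPair g (Metric.ball c r) (Metric.closedBall c r) := fun c hc => by
    obtain ⟨x, hx⟩ := hleb c (hsK c hc)
    refine ⟨Metric.isOpen_ball, isCompact_closedBall c r, Metric.ball_subset_closedBall,
      convex_ball c r, convex_closedBall c r, Metric.ball c δ,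
      Metric.isOpen_ball.mem_nhdsSet.2 (hball c), Cover_cocOn_mono (hNc x.1 x.2) ?_⟩
    exact fun y hy => interior_subset (hx hy).1
  refine ⟨⋃ c ∈ s, Metric.ball c r, ⋃ c ∈ s, Metric.closedBall c r,
    Cover_goodPair_biUnion s _ _ hcv, fun x hx => ?_, ?_, cvx_induction P h0 h1 hMV s _ _ hcv ?_⟩
  · obtain ⟨c, hc, hxc⟩ := mem_iUnion₂.1 (hs₀ hx)
    exact mem_iUnion₂.2 ⟨c, hs₀f.mem_toFinset.2 hc, Metric.ball_subset_ball hr1.le hxc⟩
  · refine iUnion₂_subset fun c hc => ?_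
    obtain ⟨x, hx⟩ := hleb c (hsK c hc)
    exact fun y hy => (hx (hball c hy)).2
  · intro t ht htn hne
    have hbdd : BddBelow (S t) := by
      obtain ⟨c, hc⟩ := htn
      refine ⟨0, fun ρ hρ => ?_⟩
      obtain ⟨x, hx⟩ := hρ
      exact dist_nonneg.trans (Metric.mem_closedBall.1 (mem_iInter₂.1 hx c hc))
    have hle : sInf (S t) ≤ r := csInf_le hbdd hne
    have hne' : sInf (S t) ≠ r := fun h =>
      hr (Finset.mem_image.2 ⟨t, Finset.mem_powerset.2 ht, h⟩)
    obtain ⟨ρ, ⟨x, hx⟩, hρ⟩ := exists_lt_of_csInf_lt ⟨r, hne⟩ (lt_of_le_of_ne hle hne')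
    exact ⟨x, mem_iInter₂.2 fun c hc =>
      Metric.closedBall_subset_ball hρ (mem_iInter₂.1 hx c hc)⟩

end Crest.Agent.R217
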