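import Crest.Agent.R217.Flux0

set_option autoImplicit false
set_option linter.unusedSectionVars false
open Set Filter Topology

namespace Crest.Agent.R217

/-! The flux functional. -/

variable {X V : Type*} [AddCommGroup V] [Module ℝ V] [TopologicalSpace X] [T2Space X]

variable {h : V →ₗ[ℝ] V →ₗ[ℝ] ℝ} {g : Sys X V}

theorem pair_mem_Zc {C : Set X} (hg : ∀ x ∈ C, CocAt g x) (ho : ∀ x y, IsOrth h (g x y))
    {x y : Coch X V} (hx : x ∈ Zc g C) (hy : y ∈ Zc g C) : pair h x y ∈ Zc 1 C := by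
  intro p hp
  have h1 := vanAt_leibniz (hg p hp) ho x y
  have h2 := (hx p hp).eps.pair_left h y
  have h3 := (hy p hp).pair_right h (eps x)
  convert (h1.add h2).add h3 using 1
  abel

/-- `⟨δ e, y⟩ ≡ - δ ⟨ε e, y⟩`. -/
theorem vanAt_pair_delta_left {x : X} (hg : CocAt g x) (ho : ∀ x y, IsOrth h (g x y))
    (e : Coch X V) {y : Coch X V} (hy : VanAt (delta g y) x) :
    VanAt (pair h (delta g e) y + delta 1 (pair h (eps e) y)) x := by
  have h1 := vanAt_leibniz hg ho (eps e) y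
  have h3 := hy.pair_right h (eps (eps e))
  rw [delta_eps, map_neg, eps_eps, map_neg, LinearMap.neg_apply] at h1
  convert h1.add h3 using 1
  abel

/-- `⟨y, δ e⟩ ≡ δ ⟨ε y, e⟩`. -/
theorem vanAt_pair_delta_right {x : X} (hg : CocAt g x) (ho : ∀ x y, IsOrth h (g x y))
    (e : Coch X V) {y : Coch X V} (hy : VanAt (delta g y) x) :
    VanAt (pair h y (delta g e) - delta 1 (pair h (eps y) e)) x := by
  have h1 := vanAt_leibniz hg ho (eps y) e
  have h3 := hy.pair_left h e
  rw [delta_eps, map_neg, eps_eps, map_neg, LinearMap.neg_apply, eps_eps] at h1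
  convert h3.sub h1 using 1
  abel

theorem form_Bd_left (o : Orient X) {C Θ : Set X} (hA : Adm C Θ) (hg : ∀ x ∈ C, CocAt g x)
    (ho : ∀ x y, IsOrth h (g x y)) {x y : Coch X V} (hx : x ∈ Bd g C) (hy : y ∈ Zc g C) :
    form o h C Θ x y = 0 := by
  obtain ⟨e, he⟩ := mem_Bd.1 hx
  refine flux_Bd o hA (mem_Bd.2 ⟨-pair h (eps e) y, fun p hp => ?_⟩)
  have h1 := vanAt_pair_delta_left (hg p hp) ho e (hy p hp)
  have h2 := (he p hp).pair_left h y
  rw [map_sub, LinearMap.sub_apply] at h2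
  rw [map_neg]
  convert h1.add h2 using 1
  abel

theorem form_Bd_right (o : Orient X) {C Θ : Set X} (hA : Adm C Θ) (hg : ∀ x ∈ C, CocAt g x)
    (ho : ∀ x y, IsOrth h (g x y)) {x y : Coch X V} (hx : x ∈ Zc g C) (hy : y ∈ Bd g C) :
    form o h C Θ x y = 0 := by
  obtain ⟨e, he⟩ := mem_Bd.1 hy
  refine flux_Bd o hA (mem_Bd.2 ⟨pair h (eps x) e, fun p hp => ?_⟩)
  have h1 := vanAt_pair_delta_right (hg p hp) ho e (hx p hp)
  have h2 := (he p hp).pair_right h x
  rw [map_sub] at h2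
  convert h1.add h2 using 1
  abel

theorem form_restrict (o : Orient X) {C C' Θ : Set X} (hC : IsClosed C) (hC' : IsClosed C')
    (hsub : C ⊆ C') (hfr : frontier Θ ∩ C' ⊆ interior C) (hg : ∀ x ∈ C', CocAt g x)
    (ho : ∀ x y, IsOrth h (g x y)) {x y : Coch X V} (hx : x ∈ Zc g C') (hy : y ∈ Zc g C') :
    form o h C' Θ x y = form o h C Θ x y := by
  have hu : C' ∪ C = C' := union_eq_self_of_subset_right hsub
  refine flux_restrict o hC' hC (by rw [hu]; exact pair_mem_Zc hg ho hx hy) ?_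
  rw [hu]
  exact fun p hp => ⟨interior_mono hsub (hfr ⟨hp.1.1, hp.2⟩), hfr ⟨hp.1.1, hp.2⟩⟩

/-- The link with the duality pairing. -/
theorem J_pair_eq_form (o : Orient X) {C Θ : Set X} (hA : Adm C Θ) (hg : ∀ x ∈ C, CocAt g x)
    (ho : ∀ x y, IsOrth h (g x y)) {x y : Coch X V} (hx : x ∈ Zc g C) (hy : y ∈ Zc g C) :
    o.J (pair h x (cut C (delta g (cut Θ y)))) = form o h C Θ (eps x) y := by
  have hC := hA.cpt.isClosed
  have e1 : o.J (pair h x (cut C (delta g (cut Θ y)))) =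
      o.J (cut C (pair h x (delta g (cut Θ y)))) := by
    refine o.J_congr fun p => ?_
    by_cases hp : p ∈ frontier C
    · have hpC : p ∈ C := hC.frontier_subset hp
      have hΘ : p ∉ frontier Θ := fun h' => hp.2 (hA.fr ⟨h', hpC⟩)
      have h1 := vanAt_delta_cut_of_cocycle hΘ (hy p hpC)
      exact ((h1.cut C).pair_right h x).sub ((h1.pair_right h x).cut C)
    · exact vanAt_pair_cut_right hp h x _
  have e2 : o.J (cut C (pair h x (delta g (cut Θ y)))) =
      o.J (cut C (delta 1 (pair h (eps x) (cut Θ y)))) :=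
    J_cut_congr o hC fun p hp => vanAt_pair_delta_right (hg p hp) ho _ (hx p hp)
  have e3 := J_cut_delta o hA.cpt (a := pair h (eps x) (cut Θ y) - cut Θ (pair h (eps x) y))
    fun p hp => hA.fr ⟨supp_subset_iff.2 (fun q hq => vanAt_pair_cut_right hq h _ _) hp.1, hp.2⟩
  rw [map_sub, map_sub, map_sub, sub_eq_zero] at e3
  rw [e1, e2, e3, form_apply, flux_apply]

end Crest.Agent.R217
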