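import Crest.Agent.R217.OrientCvx
import Crest.Agent.R217.Cover
import Crest.Agent.R217.Flux

set_option autoImplicit false
set_option linter.unusedSectionVars false
open Set Filter Topology

namespace Crest.Agent.R217

/-! Orientation preserving homeomorphisms. -/

variable {X : Type*} [NormedAddCommGroup X] [NormedSpace ℝ X] [FiniteDimensional ℝ X]

/-- cocycles that split along convex open subsets of `W` -/
def JInv1_Sp (W : Set X) : Submodule ℝ (Coch X ℝ) :=
  Submodule.span ℝ {z' : Coch X ℝ | IsZc z' ∧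
    ∃ U, IsOpen U ∧ Convex ℝ U ∧ U ⊆ W ∧ supp z' ⊆ U} ⊔ Van ℝ univ

theorem JInv1_Sp_mono {W W' : Set X} (h : W ⊆ W') : JInv1_Sp W ≤ JInv1_Sp W' := by
  refine sup_le_sup_right (Submodule.span_mono ?_) _
  rintro z ⟨hz, U, h1, h2, h3, h4⟩
  exact ⟨hz, U, h1, h2, h3.trans h, h4⟩

theorem JInv1_supp_proj (k : ℕ) (z : Coch X ℝ) : supp (proj k z) ⊆ supp z :=
  supp_subset_iff.2 fun _ hx => (notMem_supp.1 hx).proj k

theorem JInv1_isZc_proj (k : ℕ) {z : Coch X ℝ} (hz : IsZc z) : IsZc (proj k z) := by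
  refine ⟨hz.1.of_isClosed_subset (isClosed_supp _) (JInv1_supp_proj k z), fun x hx => ?_⟩
  rw [delta_proj]
  exact (hz.2 x hx).proj _

theorem JInv1_supp_add (c c' : Coch X ℝ) : supp (c + c') ⊆ supp c ∪ supp c' :=
  supp_subset_iff.2 fun _ hx =>
    (notMem_supp.1 fun h => hx (Or.inl h)).add (notMem_supp.1 fun h => hx (Or.inr h))

theorem JInv1_supp_smul (a : ℝ) (c : Coch X ℝ) : supp (a • c) ⊆ supp c :=
  supp_subset_iff.2 fun _ hx => (notMem_supp.1 hx).smul a

theorem JInv1_supp_zero : supp (0 : Coch X ℝ) = ∅ :=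
  subset_empty_iff.1 (supp_subset_iff.2 fun x _ => vanAt_zero x)

theorem JInv1_exact (o : Orient X) {W : Set X} {m : ℕ} (hm : o.n ≠ m) {v : Coch X ℝ}
    (hv : v ∈ JInv1_Sp W) :
    ∃ e : Coch X ℝ, IsCompact (supp e) ∧ supp e ⊆ W ∧ proj m v - delta 1 e ∈ Van ℝ univ := by
  obtain ⟨a, ha, b, hb, rfl⟩ := Submodule.mem_sup.1 hv
  have key : ∃ e : Coch X ℝ, IsCompact (supp e) ∧ supp e ⊆ W ∧
      proj m a - delta 1 e ∈ Van ℝ univ := by
    clear hv
    induction ha using Submodule.span_induction with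
    | mem z hz =>
      obtain ⟨hz, U, h1, h2, h3, h4⟩ := hz
      obtain ⟨e, he1, he2, he3⟩ := o.exact_convex h1 h2 (JInv1_isZc_proj m hz)
        ((JInv1_supp_proj m z).trans h4) (by rw [← o.J_proj, proj_proj, if_neg hm, map_zero])
      exact ⟨e, he1, he2.trans h3, he3⟩
    | zero =>
      refine ⟨0, ?_, ?_, ?_⟩
      · rw [JInv1_supp_zero]; exact isCompact_empty
      · rw [JInv1_supp_zero]; exact empty_subset _
      · simp
    | add z z' _ _ h h' =>
      obtain ⟨e, he1, he2, he3⟩ := h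
      obtain ⟨e', he1', he2', he3'⟩ := h'
      refine ⟨e + e', (he1.union he1').of_isClosed_subset (isClosed_supp _) (JInv1_supp_add _ _),
        (JInv1_supp_add _ _).trans (union_subset he2 he2'), ?_⟩
      convert add_mem he3 he3' using 1
      simp only [map_add]; abel
    | smul t z _ h =>
      obtain ⟨e, he1, he2, he3⟩ := h
      refine ⟨t • e, he1.of_isClosed_subset (isClosed_supp _) (JInv1_supp_smul _ _),
        (JInv1_supp_smul _ _).trans he2, ?_⟩
      convert Submodule.smul_mem _ t he3 using 1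
      simp only [map_smul, smul_sub]
  obtain ⟨e, he1, he2, he3⟩ := key
  refine ⟨e, he1, he2, ?_⟩
  have hb' : proj m b ∈ Van ℝ (univ : Set X) := fun x hx => (hb x hx).proj m
  convert add_mem he3 hb' using 1
  simp only [map_add]; abel

/-- Top degree compactly supported cocycles split along convex open sets.  Hint:
`exists_pair_of_induction` with `g = 1` and `P U A` the statement below for all degrees
`k ≥ o.n` and supports in `U` (convex pieces inside `U`).  In the Mayer-Vietoris step write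
`z = z₁ + z₂` (`Van_inter`, then `proj k`); `δ z₁` is a cocycle of degree `k + 1` supported in
`U₁ ∩ U₂`, a sum of convexly supported cocycles of degree `≠ n`, each exact by
`Orient.exact_convex`. -/
theorem exists_convex_split (o : Orient X) {W : Set X} (hW : IsOpen W) {z : Coch X ℝ}
    (hz : IsZc z) (hs : supp z ⊆ W) :
    proj o.n z ∈ Submodule.span ℝ {z' : Coch X ℝ | IsZc z' ∧
      ∃ U, IsOpen U ∧ Convex ℝ U ∧ U ⊆ W ∧ supp z' ⊆ U} ⊔ Van ℝ univ := by
  obtain ⟨U, A, hUA, h1, h2, h3⟩ := exists_pair_of_induction (g := (1 : Sys X ℝ))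
    (fun U _ => ∀ k, o.n ≤ k → ∀ z : Coch X ℝ, IsZc z → supp z ⊆ U → proj k z ∈ JInv1_Sp U)
    (fun k _ z _ hs => Submodule.mem_sup_right fun x _ =>
      (supp_subset_iff.1 hs x (notMem_empty x)).proj k)
    (fun U A hc _ k _ z hz hs => Submodule.mem_sup_left (Submodule.subset_span
      ⟨JInv1_isZc_proj k hz, U, hc.isOpen, hc.cvxU, subset_rfl, (JInv1_supp_proj k z).trans hs⟩))
    (fun U₁ A₁ U₂ A₂ g₁ g₂ p₁ p₂ p₃ k hk z hz hs => by
      have hz' : z ∈ Van ℝ (U₁ᶜ ∩ U₂ᶜ) := by rw [← compl_union]; exact mem_Van_compl.2 hs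
      rw [Van_inter g₁.isOpen.isClosed_compl g₂.isOpen.isClosed_compl] at hz'
      obtain ⟨z₁, hz₁, z₂, hz₂, rfl⟩ := Submodule.mem_sup.1 hz'
      have hd : ∀ x, VanAt (delta 1 z₁ + delta 1 z₂) x := fun x => by
        have := hz.2 x (mem_univ x)
        rwa [map_add] at this
      have hw1 : supp (delta 1 z₁) ⊆ U₁ ∩ U₂ := by
        refine supp_subset_iff.2 fun x hx => ?_
        by_cases h1 : x ∈ U₁
        · have h2 : x ∉ U₂ := fun h2 => hx ⟨h1, h2⟩
          have := (hd x).sub ((hz₂ x h2).delta 1)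
          rwa [add_sub_cancel_right] at this
        · exact (hz₁ x h1).delta 1
      have hw : IsZc (delta 1 z₁) :=
        ⟨g₁.cpt.of_isClosed_subset (isClosed_supp _) (hw1.trans (inter_subset_left.trans g₁.sub)),
          by rw [delta_one_delta_one]; exact zero_mem _⟩
      obtain ⟨e, -, he2, he3⟩ := JInv1_exact o (m := k + 1) (by omega)
        (p₃ (k + 1) (by omega) _ hw hw1)
      rw [proj_proj, if_pos rfl] at he3
      have s₁ : supp (proj k z₁ - e) ⊆ U₁ := supp_subset_iff.2 fun x hx =>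
        ((hz₁ x hx).proj k).sub (supp_subset_iff.1 he2 x fun h => hx h.1)
      have s₂ : supp (proj k z₂ + e) ⊆ U₂ := supp_subset_iff.2 fun x hx =>
        ((hz₂ x hx).proj k).add (supp_subset_iff.1 he2 x fun h => hx h.2)
      have c₁ : IsZc (proj k z₁ - e) :=
        ⟨g₁.cpt.of_isClosed_subset (isClosed_supp _) (s₁.trans g₁.sub), by
          rw [map_sub, delta_proj]; exact he3⟩
      have c₂ : IsZc (proj k z₂ + e) :=
        ⟨g₂.cpt.of_isClosed_subset (isClosed_supp _) (s₂.trans g₂.sub), fun x hx => by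
          have := ((hd x).proj (k + 1)).sub (he3 x hx)
          convert this using 1
          simp only [map_add, delta_proj]; abel⟩
      have := add_mem (JInv1_Sp_mono subset_union_left (p₁ k hk _ c₁ s₁))
        (JInv1_Sp_mono subset_union_right (p₂ k hk _ c₂ s₂))
      convert this using 1
      simp only [map_add, map_sub, proj_proj, if_true]; abel)
    hz.1 hW hs (fun x _ => cocAt_one x)
  exact JInv1_Sp_mono (hUA.sub.trans h2) (h3 o.n le_rfl z hz h1)

end Crest.Agent.R217
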