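import Crest.Agent.R217.JInv0
import Crest.Agent.R217.JInv1

set_option autoImplicit false
set_option linter.unusedSectionVars false
open Set Filter Topology

namespace Crest.Agent.R217

/-! Orientation preserving homeomorphisms. -/

variable {X : Type*} [NormedAddCommGroup X] [NormedSpace ℝ X] [FiniteDimensional ℝ X]

/-- `c'` is a compactly supported representative of `pull T c` on `W`. -/
def JInv_R (W : Set X) (T : X → X) (c c' : Coch X ℝ) : Prop :=
  IsCompact (supp c') ∧ supp c' ⊆ W ∧ ∀ x ∈ W, VanAt (c' - pull T c) x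

theorem JInv_exists {W : Set X} {T Tinv : X → X} (hW : IsOpen W) (hT : ContinuousOn T W)
    (hT' : ContinuousOn Tinv W) (hm' : MapsTo Tinv W W) (hl : ∀ x ∈ W, Tinv (T x) = x)
    {c : Coch X ℝ} (hc : IsCompact (supp c)) (hs : supp c ⊆ W) : ∃ c', JInv_R W T c c' := by
  haveI : ProperSpace X := FiniteDimensional.proper_real X
  obtain ⟨N, hN, hN1, hN2⟩ := exists_compact_between hc hW hs
  have hK : IsCompact (Tinv '' N) := hN.image_of_continuousOn (hT'.mono hN2)
  have hv : ∀ x, x ∉ Tinv '' N → VanAt (cut (Tinv '' N) (pull T c)) x := fun x hx =>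
    vanAt_cut_of_compl_mem (hK.isClosed.isOpen_compl.mem_nhds hx) _
  refine ⟨cut (Tinv '' N) (pull T c), isCompact_supp_of_subset hK hv,
    (supp_subset_iff.2 hv).trans ?_, fun x hx => ?_⟩
  · rintro _ ⟨y, hy, rfl⟩
    exact hm' (hN2 hy)
  · have hca : ContinuousAt T x := hT.continuousAt (hW.mem_nhds hx)
    by_cases h : T x ∈ supp c
    · refine vanAt_cut_sub ?_ _
      filter_upwards [hW.mem_nhds hx, hca (mem_interior_iff_mem_nhds.1 (hN1 h))] with y hy hy'
      exact ⟨T y, hy', hl y hy⟩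
    · have := (notMem_supp.1 h).pull hca
      exact (this.cut _).sub this

theorem JInv_uniq (o : Orient X) {W : Set X} {T : X → X} (hW : IsOpen W) (hT : ContinuousOn T W)
    {c c' d d' : Coch X ℝ} (h : JInv_R W T c c') (h' : JInv_R W T d d')
    (hcd : ∀ x, VanAt (c - d) x) : o.J c' = o.J d' := by
  refine o.J_congr fun x => ?_
  by_cases hx : x ∈ W
  · have h1 := ((h.2.2 x hx).sub (h'.2.2 x hx)).add
      ((hcd (T x)).pull (hT.continuousAt (hW.mem_nhds hx)))
    convert h1 using 1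
    simp only [map_sub]; abel
  · exact (supp_subset_iff.1 h.2.1 x hx).sub (supp_subset_iff.1 h'.2.1 x hx)

theorem JInv_R.add {W : Set X} {T : X → X} {c c' d d' : Coch X ℝ} (h : JInv_R W T c c')
    (h' : JInv_R W T d d') : JInv_R W T (c + d) (c' + d') := by
  have hv : ∀ x, x ∉ supp c' ∪ supp d' → VanAt (c' + d') x := fun x hx =>
    (notMem_supp.1 fun h => hx (Or.inl h)).add (notMem_supp.1 fun h => hx (Or.inr h))
  refine ⟨isCompact_supp_of_subset (h.1.union h'.1) hv,
    (supp_subset_iff.2 hv).trans (union_subset h.2.1 h'.2.1), fun x hx => ?_⟩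
  convert (h.2.2 x hx).add (h'.2.2 x hx) using 1
  simp only [map_add]; abel

theorem JInv_R.map {W : Set X} {T : X → X} {c c' : Coch X ℝ} (h : JInv_R W T c c')
    (L : Coch X ℝ →ₗ[ℝ] Coch X ℝ) (hL : ∀ a x, VanAt a x → VanAt (L a) x)
    (hL' : L (pull T c) = pull T (L c)) : JInv_R W T (L c) (L c') := by
  have hv : ∀ x, x ∉ supp c' → VanAt (L c') x := fun x hx => hL _ _ (notMem_supp.1 hx)
  refine ⟨isCompact_supp_of_subset h.1 hv, (supp_subset_iff.2 hv).trans h.2.1, fun x hx => ?_⟩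
  rw [← hL', ← map_sub]
  exact hL _ _ (h.2.2 x hx)

theorem JInv_R.smul {W : Set X} {T : X → X} {c c' : Coch X ℝ} (h : JInv_R W T c c') (a : ℝ) :
    JInv_R W T (a • c) (a • c') :=
  h.map (a • LinearMap.id) (fun _ _ h => h.smul a) (by simp)

theorem JInv_R_zero (W : Set X) (T : X → X) : JInv_R W T 0 0 := by
  have hv : ∀ x, x ∉ (∅ : Set X) → VanAt (0 : Coch X ℝ) x := fun x _ => vanAt_zero x
  refine ⟨isCompact_supp_of_subset isCompact_empty hv,
    (supp_subset_iff.2 hv).trans (empty_subset _), fun x _ => ?_⟩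
  rw [map_zero, sub_zero]
  exact vanAt_zero x

/-- `J` is preserved on cocycles supported in `U`. -/
def JInv_Good (o : Orient X) (W : Set X) (T : X → X) (U : Set X) : Prop :=
  ∀ z z', IsZc z → supp z ⊆ U → JInv_R W T z z' → o.J z' = o.J z

theorem JInv_Good.mono {o : Orient X} {W : Set X} {T : X → X} {U U' : Set X}
    (h : JInv_Good o W T U) (hU : U' ⊆ U) : JInv_Good o W T U' :=
  fun z z' hz hs => h z z' hz (hs.trans hU)

theorem JInv_Good.up {o : Orient X} {W : Set X} {T Tinv : X → X} (hW : IsOpen W)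
    (hT : ContinuousOn T W) (hT' : ContinuousOn Tinv W) (hm' : MapsTo Tinv W W)
    (hl : ∀ x ∈ W, Tinv (T x) = x) {U U' : Set X} (h : JInv_Good o W T U') (hU' : IsOpen U')
    (hU : IsOpen U) (hc : Convex ℝ U) (hUW : U ⊆ W) (hne : (U ∩ U').Nonempty) :
    JInv_Good o W T U := by
  intro z z' hz hs hR
  obtain ⟨u, hu, hus, hu1⟩ := o.exists_gen_subset (hU.inter hU') hne
  obtain ⟨u', hu'⟩ := JInv_exists hW hT hT' hm' hl hu.1 (hus.trans (inter_subset_left.trans hUW))
  have h1 := h u u' hu (hus.trans inter_subset_right) hu'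
  obtain ⟨e, he, hes, hev⟩ := o.exact_convex hU hc (hz.add (hu.smul (-o.J z)))
    (supp_subset_iff.2 fun x hx => (supp_subset_iff.1 hs x hx).add
      ((supp_subset_iff.1 hus x fun h => hx h.1).smul _))
    (by rw [map_add, map_smul, hu1]; simp)
  obtain ⟨e', he'⟩ := JInv_exists hW hT hT' hm' hl he (hes.trans hUW)
  have h2 := JInv_uniq o hW hT (hR.add (hu'.smul (-o.J z)))
    (he'.map (delta 1) (fun _ _ h => h.delta 1) (delta_one_pull T e)) fun x => hev x (mem_univ x)
  rw [o.J_delta _ he'.1, map_add, map_smul, h1, hu1] at h2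
  simp only [smul_eq_mul, mul_one] at h2
  linarith

/-- For a compactly supported cocycle `z` in `W` there is `z'` as in `JInv` (cut `pull T z` to the
compact set `Tinv '' N`, `N` a compact neighbourhood of `supp z` in `W`), `J z'` is well defined,
linear in `z`, vanishes when `z ≡ δ e` with `supp e` compact in `W`, and commutes with `proj n`.
On a convex open `U ⊆ W` it is `t_U * J z`; `t_U = t_{U'}` for nonempty convex `U' ⊆ U`, so
`x ↦ t_{small ball}` is locally constant on `W`, and is `1` where `T = id`. -/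
theorem jinv_of_connected (o : Orient X) {W : Set X} {T Tinv : X → X} (hW : IsOpen W)
    (hc : IsPreconnected W) (hT : ContinuousOn T W) (hT' : ContinuousOn Tinv W)
    (hm : MapsTo T W W) (hm' : MapsTo Tinv W W) (hl : ∀ x ∈ W, Tinv (T x) = x)
    (hr : ∀ x ∈ W, T (Tinv x) = x) {U₀ : Set X} (hU : IsOpen U₀) (hne : U₀.Nonempty)
    (hUW : U₀ ⊆ W) (hid : ∀ x ∈ U₀, T x = x) : JInv o W T := by
  have h0 : JInv_Good o W T U₀ := by
    intro z z' hz hs hR
    refine JInv_uniq o hW hT hR ⟨hz.1, hs.trans hUW, fun x hx => ?_⟩ fun x => by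
      rw [sub_self]; exact vanAt_zero x
    by_cases h : x ∈ U₀
    · have := vanAt_pull_sub_pull (φ := id) (φ' := T) (y := x)
        (by filter_upwards [hU.mem_nhds h] with y hy using (hid y hy).symm) z
      rwa [pull_id] at this
    · have h' : T x ∉ U₀ := fun h' => h (by
        have e : T x = x := by rw [← hl _ (hm hx), hid _ h', hl _ hx]
        rwa [e] at h')
      exact (supp_subset_iff.1 hs x h).sub
        ((supp_subset_iff.1 hs _ h').pull (hT.continuousAt (hW.mem_nhds hx)))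
  let S : X → Prop := fun x => ∃ U, IsOpen U ∧ x ∈ U ∧ JInv_Good o W T U
  have hS : ∀ U, IsOpen U → Convex ℝ U → U ⊆ W → ∀ y ∈ U, (S y ↔ JInv_Good o W T U) :=
    fun U h1 h2 h3 y hy => ⟨fun ⟨U', a1, a2, a3⟩ => a3.up hW hT hT' hm' hl a1 h1 h2 h3 ⟨y, hy, a2⟩,
      fun h => ⟨U, h1, hy, h⟩⟩
  obtain ⟨x₀, hx₀⟩ := hne
  have hall : ∀ y ∈ W, S y := fun y hy => by
    refine (hc.induction₂' (fun a b => (S a ↔ S b)) (fun x hx => ?_)
      (fun _ _ _ _ _ _ h h' => h.trans h') (hUW hx₀) hy).1 ⟨U₀, hU, hx₀, h0⟩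
    obtain ⟨r, hr, hb⟩ := Metric.isOpen_iff.1 hW x hx
    have h := hS _ Metric.isOpen_ball (convex_ball x r) hb
    filter_upwards [mem_nhdsWithin_of_mem_nhds (Metric.ball_mem_nhds x hr)] with b hb'
    have e := (h x (Metric.mem_ball_self hr)).trans (h b hb').symm
    exact ⟨e, e.symm⟩
  have hgood : ∀ U, IsOpen U → Convex ℝ U → U ⊆ W → JInv_Good o W T U := fun U h1 h2 h3 => by
    rcases U.eq_empty_or_nonempty with rfl | ⟨y, hy⟩
    · exact h0.mono (empty_subset _)
    · exact (hS U h1 h2 h3 y hy).1 (hall y (h3 hy))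
  intro z z' hz hs hz' hs' hv
  have hR : JInv_R W T z z' := ⟨hz'.1, hs', hv⟩
  obtain ⟨c, hc1, v, hv1, e⟩ := Submodule.mem_sup.1 (exists_convex_split o hW hz hs)
  have hP : ∃ c', JInv_R W T c c' ∧ o.J c' = o.J c := by
    clear e
    induction hc1 using Submodule.span_induction with
    | mem a ha =>
      obtain ⟨h1, U, h2, h3, h4, h5⟩ := ha
      obtain ⟨a', ha'⟩ := JInv_exists hW hT hT' hm' hl h1.1 (h5.trans h4)
      exact ⟨a', ha', hgood U h2 h3 h4 a a' h1 h5 ha'⟩
    | zero => exact ⟨0, JInv_R_zero W T, rfl⟩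
    | add a b _ _ ha hb =>
      obtain ⟨a', h1, h2⟩ := ha
      obtain ⟨b', h3, h4⟩ := hb
      exact ⟨a' + b', h1.add h3, by rw [map_add, map_add, h2, h4]⟩
    | smul t a _ ha =>
      obtain ⟨a', h1, h2⟩ := ha
      exact ⟨t • a', h1.smul t, by rw [map_smul, map_smul, h2]⟩
  obtain ⟨c', h1, h2⟩ := hP
  have h3 := JInv_uniq o hW hT (hR.map (proj o.n) (fun _ _ h => h.proj _) (proj_pull _ T z)) h1
    fun x => by rw [← e, add_sub_cancel_left]; exact hv1 x (mem_univ x)
  rw [← o.J_proj z', h3, h2, ← o.J_proj z, ← e, map_add, o.J_van v hv1, add_zero]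

end Crest.Agent.R217
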