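import Crest.Agent.R217.LocAct0

set_option autoImplicit false
set_option linter.unusedSectionVars false
open Set Filter Topology

namespace Crest.Agent.R217

/-! Local actions of compact groups. -/

variable {K X : Type*} [Group K] [TopologicalSpace K] [IsTopologicalGroup K] [CompactSpace K]
  [T2Space K] [SecondCountableTopology K]

theorem LocAct1_commute {κ : K} (m : ℕ) {k : K}
    (hk : k ∈ (Subgroup.zpowers (κ ^ m)).topologicalClosure) : Commute κ k := by
  have hc : IsClosed {g : K | κ * g = g * κ} :=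
    isClosed_eq (continuous_const.mul continuous_id) (continuous_id.mul continuous_const)
  have hsub : ((Subgroup.zpowers (κ ^ m) : Subgroup K) : Set K) ⊆ {g : K | κ * g = g * κ} := by
    rintro g ⟨n, rfl⟩
    exact ((Commute.self_pow κ m).zpow_right n).eq
  exact closure_minimal hsub hc hk

/-- Elements of the closure of the powers of `κ ^ q` modulo the closure of the powers of
`κ ^ m`. -/
theorem LocAct1_decomp {κ : K} (q m : ℕ) (hm : 0 < m) {k : K}
    (hk : k ∈ closure (range fun n : ℤ => (κ ^ q) ^ n)) :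
    ∃ b : ℤ, ∃ k₀ ∈ (Subgroup.zpowers (κ ^ m)).topologicalClosure, k = κ ^ ((q : ℤ) * b) * k₀ := by
  have hc : IsClosed (⋃ b ∈ Finset.range m, (fun g => κ ^ ((q : ℤ) * (b : ℤ)) * g) ''
      ((Subgroup.zpowers (κ ^ m)).topologicalClosure : Set K)) := by
    refine isClosed_biUnion_finset fun b _ => ?_
    exact ((Subgroup.isClosed_topologicalClosure _).isCompact.image
      (continuous_const.mul continuous_id)).isClosed
  have hsub : (range fun n : ℤ => (κ ^ q) ^ n) ⊆ ⋃ b ∈ Finset.range m,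
      (fun g => κ ^ ((q : ℤ) * (b : ℤ)) * g) ''
      ((Subgroup.zpowers (κ ^ m)).topologicalClosure : Set K) := by
    rintro g ⟨n, rfl⟩
    have hm' : (0 : ℤ) < m := by exact_mod_cast hm
    have h0 : 0 ≤ n % m := Int.emod_nonneg _ hm'.ne'
    have h1 : n % m < m := Int.emod_lt_of_pos _ hm'
    refine mem_iUnion₂.2 ⟨(n % m).toNat, Finset.mem_range.2 (by omega), (κ ^ m) ^ (q * (n / m)),
      Subgroup.le_topologicalClosure _ ⟨_, rfl⟩, ?_⟩
    simp only
    rw [Int.toNat_of_nonneg h0, ← zpow_natCast κ m, ← zpow_natCast κ q, ← zpow_mul, ← zpow_mul,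
      ← zpow_add]
    congr 1
    have := Int.emod_add_mul_ediv n m
    calc (q : ℤ) * (n % m) + m * (q * (n / m)) = q * (n % m + m * (n / m)) := by ring
      _ = q * n := by rw [this]
  obtain ⟨b, -, k₀, hk₀, rfl⟩ := mem_iUnion₂.1 (closure_minimal hsub hc hk)
  exact ⟨b, k₀, hk₀, rfl⟩

section Metric

variable [MetricSpace X] (L : LocAct K X)

/-- If `κ ^ i * k'` with `p ∤ i` and `k'` in the closure of the powers of `κ ^ p` lies in a closed
subgroup, so does `κ`.  Hint: modulo `K_e = closure ⟨κ ^ (p ^ e)⟩` (of finite index, contained in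
`closure N`), `κ ^ i * k' ≡ κ ^ (i + p b)` and `i + p b` is invertible modulo `p ^ e`. -/
theorem mem_of_pow_mul_mem {κ : K} {p : ℕ} (hpp : p.Prime) (hp : PP κ p) {i : ℤ}
    (hi : ¬ (p : ℤ) ∣ i) {k' : K} (hk : k' ∈ (Subgroup.zpowers (κ ^ p)).topologicalClosure)
    {H : Subgroup K} (hH : IsClosed (H : Set K)) (hm : κ ^ i * k' ∈ H) : κ ∈ H := by
  have key : κ ∈ closure (H : Set K) := by
    rw [mem_closure_iff_nhds]
    intro N hN
    have hN1 : (fun g => κ * g) ⁻¹' N ∈ 𝓝 (1 : K) :=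
      (continuous_const.mul continuous_id).continuousAt.preimage_mem_nhds (by simpa using hN)
    obtain ⟨N', hN', hcl, hsub⟩ := exists_mem_nhds_isClosed_subset hN1
    obtain ⟨e, he⟩ := hp N' hN'
    have hKe : ((Subgroup.zpowers (κ ^ p ^ e)).topologicalClosure : Set K) ⊆ N' := by
      have h1 : ((Subgroup.zpowers (κ ^ p ^ e)).topologicalClosure : Set K) =
          closure (range fun n : ℤ => (κ ^ p ^ e) ^ n) := rfl
      rw [h1, closure_range_zpow_eq_pow]
      refine closure_minimal ?_ hcl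
      rintro g ⟨m, rfl⟩
      simpa [pow_mul] using he m
    obtain ⟨b, k₀, hk₀, rfl⟩ := LocAct1_decomp p (p ^ e) (pow_pos hpp.pos e) hk
    have hcop : IsCoprime (i + p * b) ((p : ℤ) ^ e) := by
      refine IsCoprime.pow_right ?_
      have hpi : Prime (p : ℤ) := Nat.prime_iff_prime_int.1 hpp
      have : IsCoprime (p : ℤ) i := (hpi.irreducible.coprime_iff_not_dvd).2 hi
      exact this.symm.add_mul_left_left b
    obtain ⟨c, d, hcd⟩ := hcop
    have hcomm : Commute κ k₀ := LocAct1_commute _ hk₀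
    have hmem : (κ ^ i * (κ ^ ((p : ℤ) * b) * k₀)) ^ c ∈ H := H.zpow_mem hm c
    refine ⟨_, ?_, hmem⟩
    have h2 : (κ ^ i * (κ ^ ((p : ℤ) * b) * k₀)) ^ c = κ * ((κ ^ p ^ e) ^ (-d) * k₀ ^ c) := by
      rw [← mul_assoc, ← zpow_add, (hcomm.zpow_left _).mul_zpow, ← zpow_mul,
        ← zpow_natCast κ (p ^ e), ← zpow_mul, ← mul_assoc, ← zpow_one_add]
      congr 2
      push_cast
      linear_combination hcd
    rw [h2]
    refine hsub (hKe ?_)
    exact Subgroup.mul_mem _ (Subgroup.le_topologicalClosure _ ⟨_, rfl⟩) (Subgroup.zpow_mem _ hk₀ c)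
  rwa [hH.closure_eq] at key

/-- Let `K' = closure ⟨κ ^ p⟩`.  The compact sets `O_i = act (κ ^ i K') x`, `i < p`, are pairwise
disjoint (`mem_of_pow_mul_mem` for the stabiliser of `x`).  Take disjoint open `V_i ⊇ O_i` in `W`,
`V` the open set of `y ∈ W` with `act (κ ^ i k) y ∈ V_i` for all `i < p`, `k ∈ K'`, and
`U_i = act (κ ^ i K') V`, `u = i` on `U_i`. -/
theorem LocAct.triv {κ : K} {p : ℕ} (hpp : p.Prime) (hκ : DenseRange (fun n : ℤ => κ ^ n))
    (hp : PP κ p) {x : X} (hx : x ∈ L.W) (hne : L.act κ x ≠ x) :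
    ∃ (U : Set X) (u : X → ZMod p), IsOpen U ∧ x ∈ U ∧ U ⊆ L.W ∧ InvS L.W (L.act κ) U ∧
      (∀ y ∈ U, ∀ᶠ z in 𝓝 y, u z = u y) ∧ ∀ y ∈ U, u (L.act κ y) = u y + 1 := by
  classical
  have : NeZero p := ⟨hpp.ne_zero⟩
  set K' : Subgroup K := (Subgroup.zpowers (κ ^ p)).topologicalClosure with hK'
  let C : ZMod p → Set K := fun a => (fun g => κ ^ (a.val : ℤ) * g) '' (K' : Set K)
  have hCc : ∀ a, IsCompact (C a) := fun a =>
    (Subgroup.isClosed_topologicalClosure _).isCompact.image (continuous_const.mul continuous_id)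
  have hCmem : ∀ (n : ℤ), ∀ k ∈ K', κ ^ n * k ∈ C (n : ZMod p) := by
    intro n k hk
    have h1 : (p : ℤ) ∣ n - ((n : ZMod p).val : ℤ) := by
      rw [← ZMod.intCast_zmod_eq_zero_iff_dvd]
      simp
    obtain ⟨t, ht⟩ := h1
    refine ⟨(κ ^ p) ^ t * k, K'.mul_mem (Subgroup.le_topologicalClosure _ ⟨_, rfl⟩) hk, ?_⟩
    simp only
    rw [← mul_assoc, ← zpow_natCast κ p, ← zpow_mul, ← zpow_add, ← ht]
    congr 2
    ring
  have hall : ∀ g : K, ∃ n : ℤ, ∃ k ∈ K', g = κ ^ n * k := by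
    intro g
    have hg : g ∈ closure (range fun n : ℤ => (κ ^ 1) ^ n) := by
      simpa using hκ g
    obtain ⟨b, k₀, hk₀, rfl⟩ := LocAct1_decomp 1 p hpp.pos hg
    exact ⟨_, k₀, hk₀, rfl⟩
  have hcx : Continuous fun g : K => L.act g x :=
    L.cont.comp_continuous (f := fun g : K => (g, x)) (continuous_id.prodMk continuous_const)
      fun g => ⟨mem_univ _, hx⟩
  let H : Subgroup K :=
    { carrier := {g | L.act g x = x}
      mul_mem' := fun {a b} ha hb => by
        simp only [mem_ofPred_eq] at ha hb ⊢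
        rw [L.act_mul _ _ _ hx, hb, ha]
      one_mem' := L.act_one x hx
      inv_mem' := fun {a} ha => by
        simp only [mem_ofPred_eq] at ha ⊢
        conv_lhs => rw [← ha]
        rw [← L.act_mul _ _ _ hx, inv_mul_cancel, L.act_one x hx] }
  have hH : IsClosed (H : Set K) := isClosed_eq hcx continuous_const
  let O : ZMod p → Set X := fun a => (fun g => L.act g x) '' C a
  have hOc : ∀ a, IsCompact (O a) := fun a => (hCc a).image hcx
  have hOd : Pairwise (Function.onFun Disjoint O) := by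
    intro a b hab
    refine Set.disjoint_left.2 ?_
    rintro _ ⟨_, ⟨k, hk, rfl⟩, rfl⟩ ⟨_, ⟨k', hk', rfl⟩, h⟩
    simp only at h
    apply hne
    have hnd : ¬ (p : ℤ) ∣ (a.val : ℤ) - b.val := by
      rw [← ZMod.intCast_zmod_eq_zero_iff_dvd]
      simpa [sub_eq_zero] using hab
    refine mem_of_pow_mul_mem (H := H) hpp hp hnd (K'.mul_mem (K'.inv_mem hk') hk) hH ?_
    have hc : Commute κ k'⁻¹ := LocAct1_commute p (K'.inv_mem hk')
    have h1 : κ ^ ((a.val : ℤ) - b.val) * (k'⁻¹ * k) =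
        (κ ^ (b.val : ℤ) * k')⁻¹ * (κ ^ (a.val : ℤ) * k) := by
      rw [← mul_assoc, (hc.zpow_left _).eq, mul_inv_rev, ← zpow_neg, sub_eq_neg_add, zpow_add]
      simp only [mul_assoc]
    change L.act _ x = x
    rw [h1, L.act_mul _ _ _ hx, ← h, ← L.act_mul _ _ _ hx, inv_mul_cancel, L.act_one x hx]
  have hOd' : Pairwise (Function.onFun Disjoint fun a => 𝓝ˢ (O a)) := fun a b hab =>
    (SeparatedNhds.of_isCompact_isCompact (hOc a) (hOc b) (hOd hab)).disjoint_nhdsSet
  obtain ⟨S, hS, hSd⟩ := hOd'.exists_mem_filter_of_disjoint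
  have hev : ∀ a, ∀ᶠ y in 𝓝 x, ∀ g ∈ C a, L.act g y ∈ interior (S a) := by
    intro a
    refine (hCc a).eventually_forall_of_forall_eventually
      (P := fun y g => L.act g y ∈ interior (S a)) fun g hg => ?_
    have h1 : ContinuousAt (fun q : K × X => L.act q.1 q.2) (g, x) :=
      L.cont.continuousAt (prod_mem_nhds univ_mem (L.isOpen_W.mem_nhds hx))
    have h2 : ContinuousAt (fun q : X × K => L.act q.2 q.1) (x, g) :=
      ContinuousAt.comp (f := fun q : X × K => (q.2, q.1)) (x := (x, g)) h1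
        continuous_swap.continuousAt
    exact h2.eventually (isOpen_interior.mem_nhds
      (subset_interior_iff_mem_nhdsSet.2 (hS a) ⟨g, hg, rfl⟩))
  obtain ⟨V, hVs, hVo, hxV⟩ := eventually_nhds_iff.1
    ((eventually_all.2 hev).and (L.isOpen_W.mem_nhds hx))
  have hVW : V ⊆ L.W := fun y hy => (hVs y hy).2
  let u : X → ZMod p := fun z => if h : ∃ a, z ∈ S a then h.choose else 0
  have hu : ∀ a, ∀ z ∈ S a, u z = a := by
    intro a z hz
    have h : ∃ a, z ∈ S a := ⟨a, hz⟩
    simp only [u, dif_pos h]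
    by_contra hne'
    exact Set.disjoint_left.1 (hSd hne') h.choose_spec hz
  refine ⟨L.sat V, u, L.isOpen_sat hVW hVo, L.subset_sat hVW hxV, L.sat_subset hVW,
    fun y hy => ⟨L.mem_sat_of_act_mem hVW hy, fun h => L.mapsTo_sat hVW κ h⟩, ?_, ?_⟩
  · intro y hy
    obtain ⟨g, y₀, hy₀, rfl⟩ := mem_iUnion.1 hy
    obtain ⟨n, k, hk, rfl⟩ := hall g
    have h1 := (hVs y₀ hy₀).1 _ _ (hCmem n k hk)
    filter_upwards [isOpen_interior.mem_nhds h1] with z hz
    rw [hu _ _ (interior_subset hz), hu _ _ (interior_subset h1)]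
  · intro y hy
    obtain ⟨g, y₀, hy₀, rfl⟩ := mem_iUnion.1 hy
    obtain ⟨n, k, hk, rfl⟩ := hall g
    have h1 := (hVs y₀ hy₀).1 _ _ (hCmem n k hk)
    have h2 := (hVs y₀ hy₀).1 _ _ (hCmem (1 + n) k hk)
    rw [← L.act_mul _ _ _ (hVW hy₀), ← mul_assoc, ← zpow_one_add, hu _ _ (interior_subset h2),
      hu _ _ (interior_subset h1)]
    push_cast
    ring

theorem LocAct.exists_dyn [ProperSpace X] {o : Orient X} {κ : K} {p : ℕ} (hpp : p.Prime)
    (hκ : DenseRange (fun n : ℤ => κ ^ n)) (hp : PP κ p) (hJ : JInv o L.W (L.act κ)) :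
    ∃ D : Dyn o p, D.W = L.W ∧ D.T = L.act κ :=
  ⟨{ W := L.W
     T := L.act κ
     Tinv := L.act κ⁻¹
     isOpen_W := L.isOpen_W
     mapsTo := L.mapsTo κ
     mapsTo_inv := L.mapsTo κ⁻¹
     cont := L.continuousOn_act κ
     cont_inv := L.continuousOn_act κ⁻¹
     left_inv := fun x hx => by rw [← L.act_mul _ _ _ hx, inv_mul_cancel, L.act_one x hx]
     right_inv := fun x hx => by rw [← L.act_mul _ _ _ hx, mul_inv_cancel, L.act_one x hx]
     recur := fun _ hC hCW _ hη => L.recur hp hC hCW hη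
     nbhd := fun _ _ hY hYW hi hU hYU => L.nbhd hκ hY hYW hi hU hYU
     triv := fun _ hx hne => L.triv hpp hκ hp hx hne
     jinv := hJ }, rfl, rfl⟩

end Metric

end Crest.Agent.R217
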