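import Crest.Agent.R217.LocAct0

set_option autoImplicit false
set_option linter.unusedSectionVars false
open Set Filter Topology

namespace Crest.Agent.R217

/-! Local actions of compact groups. -/

variable {K X : Type*} [Group K] [TopologicalSpace K] [IsTopologicalGroup K] [CompactSpace K]
  [T2Space K] [SecondCountableTopology K]

section Metric

variable [MetricSpace X] (L : LocAct K X)

end Metric

/-- Averaging: `f x = ∫ φ (act k⁻¹ x) dk` for the normalised left Haar measure. -/
theorem LocAct.exists_average [NormedAddCommGroup X] [NormedSpace ℝ X] [FiniteDimensional ℝ X]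
    (L : LocAct K X) {φ : X → X} (hφ : ContinuousOn φ L.W) :
    ∃ f : X → X, ContinuousOn f L.W ∧ (∀ k, ∀ x ∈ L.W, f (L.act k x) = f x) ∧
      (∀ x ∈ L.W, ∀ S : Set X, IsClosed S → Convex ℝ S → (∀ k, φ (L.act k x) ∈ S) → f x ∈ S) ∧
      ∀ x ∈ L.W, ∀ (ℓ : X →L[ℝ] ℝ) (m : ℝ), (∀ k, ℓ (φ (L.act k x)) ≤ m) → ℓ (f x) = m →
        ℓ (φ x) = m := by
  borelize K
  let μ : MeasureTheory.Measure K := MeasureTheory.Measure.haarMeasure ⊤
  haveI : MeasureTheory.IsProbabilityMeasure μ :=
    ⟨by simpa using MeasureTheory.Measure.haarMeasure_self (K₀ := (⊤ : TopologicalSpace.PositiveCompacts K))⟩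
  have hc : ContinuousOn (Function.uncurry fun (x : X) (k : K) => φ (L.act k⁻¹ x))
      (L.W ×ˢ univ) := by
    have h1 : ContinuousOn (fun q : X × K => L.act q.2⁻¹ q.1) (L.W ×ˢ univ) :=
      L.cont.comp (f := fun q : X × K => (q.2⁻¹, q.1)) (by fun_prop) fun q hq => ⟨mem_univ _, hq.1⟩
    exact hφ.comp h1 fun q hq => L.mapsTo _ hq.1
  have hc' : ∀ x ∈ L.W, Continuous fun k : K => φ (L.act k⁻¹ x) := fun x hx =>
    hc.comp_continuous (f := fun k : K => (x, k)) (by fun_prop) fun k => ⟨hx, mem_univ _⟩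
  have hi : ∀ x ∈ L.W, MeasureTheory.Integrable (fun k : K => φ (L.act k⁻¹ x)) μ := fun x hx =>
    (hc' x hx).integrable_of_hasCompactSupport (HasCompactSupport.of_compactSpace _)
  refine ⟨fun x => ∫ k, φ (L.act k⁻¹ x) ∂μ,
    continuousOn_integral_of_compact_support isCompact_univ hc fun _ _ _ h => absurd (mem_univ _) h,
    fun g x hx => ?_, fun x hx S hS hS' h => ?_, fun x hx ℓ m h hm => ?_⟩
  · beta_reduce
    rw [← MeasureTheory.integral_mul_left_eq_self (fun k => φ (L.act k⁻¹ x)) g⁻¹]
    congr 1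
    funext k
    rw [← L.act_mul _ _ x hx, mul_inv_rev, inv_inv]
  · exact hS'.integral_mem hS (Eventually.of_forall fun k => h _) (hi x hx)
  · have hcont : Continuous fun k : K => m - ℓ (φ (L.act k⁻¹ x)) :=
      continuous_const.sub (ℓ.continuous.comp (hc' x hx))
    have h0 : ∫ k, (m - ℓ (φ (L.act k⁻¹ x))) ∂μ = 0 := by
      rw [MeasureTheory.integral_sub (MeasureTheory.integrable_const _) (ℓ.integrable_comp (hi x hx)),
        ℓ.integral_comp_comm (hi x hx), hm]
      simp
    rw [MeasureTheory.integral_eq_zero_iff_of_nonneg (fun k => sub_nonneg.2 (h _))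
      (hcont.integrable_of_hasCompactSupport (HasCompactSupport.of_compactSpace _)),
      hcont.ae_eq_iff_eq μ continuous_zero] at h0
    have h1 := congrFun h0 1
    simp only [inv_one, L.act_one x hx, Pi.zero_apply] at h1
    linarith

end Crest.Agent.R217
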