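import Crest.Agent.R217.Core
import Crest.Agent.R217.JInv
import Crest.Agent.R217.LocAct1
import Crest.Agent.R217.LocAct2

set_option autoImplicit false
set_option linter.unusedSectionVars false
open Set Filter Topology

namespace Crest.Agent.R217

/-! The two local fixed point theorems. -/

universe u

variable {X : Type*}

theorem CaseA_dist [NormedAddCommGroup X] [NormedSpace ℝ X] (c : X) {ρ : ℝ} (hρ : 0 < ρ)
    (f g : X → X) (x y : X) : dist (scl c ρ f x) (scl c ρ g y) = ρ⁻¹ * dist (f x) (g y) := by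
  simp only [scl, dist_eq_norm]
  rw [← smul_sub, norm_smul, sub_sub_sub_cancel_right, Real.norm_eq_abs, abs_of_pos (inv_pos.2 hρ)]

theorem CaseA_mem [NormedAddCommGroup X] [NormedSpace ℝ X] {c : X} {ρ R : ℝ} (hρ : 0 < ρ)
    {f : X → X} {x : X} (h : scl c ρ f x ∈ Metric.closedBall (0 : X) R) : dist (f x) c ≤ ρ * R := by
  rw [mem_closedBall_zero_iff, scl, norm_smul, Real.norm_eq_abs, abs_of_pos (inv_pos.2 hρ),
    inv_mul_le_iff₀ hρ] at h
  rwa [dist_eq_norm]

theorem CaseA_cont [NormedAddCommGroup X] [NormedSpace ℝ X] (c : X) (ρ : ℝ) {f : X → X} {S : Set X}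
    (hf : ContinuousOn f S) : ContinuousOn (scl c ρ f) S :=
  (hf.sub continuousOn_const).const_smul ρ⁻¹

/-- Case A: small actions are trivial.  Take the model, `R > 0` with `CP ⊆ closedBall 0 R`,
`(Q, η)` from `exists_eta`, `ε = min (1/10) (η / (10 R))`.  `W₀ = sat (ball c (3/2 r))`,
`Ch = sat (closedBall c (3/2 r))`, `f` the average of `id` (`‖f x - x‖ ≤ ε r` on
`closedBall c (2 r)`), `D` from `exists_dyn` for the restriction to `W₀` (`jinv_of_close`).  Apply
`core` with `c₀ = c`, `ρ₀ = r / (2 R)`: `hT` is `form_pull_sub_of_close`, and `hs` follows from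
`sig0_close` (compare `scl c ρ₀ f` with `scl c ρ₀ id` on `W₀`) and `sig0_affine`. -/
theorem caseA [NormedAddCommGroup X] [NormedSpace ℝ X] [FiniteDimensional ℝ X] (hX : HasModel X) :
    ∃ ε : ℝ, 0 < ε ∧ ∀ (K : Type u) [Group K] [TopologicalSpace K] [IsTopologicalGroup K]
      [CompactSpace K] [T2Space K] [SecondCountableTopology K] (κ : K) (p : ℕ), p.Prime →
      DenseRange (fun n : ℤ => κ ^ n) → PP κ p → ∀ (L : LocAct K X) (c : X) (r : ℝ), 0 < r →
      Metric.closedBall c (2 * r) ⊆ L.W →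
      (∀ k, ∀ x ∈ Metric.closedBall c (2 * r), dist (L.act k x) x ≤ ε * r) →
      ∀ x ∈ Metric.ball c r, L.act κ x = x := by
  obtain ⟨o, V, _, _, _, h, I, G, CP, ΘP, hM⟩ := hX
  have : ProperSpace X := FiniteDimensional.proper_real X
  obtain ⟨R, hR0, hR⟩ := hM.adm.cpt.isBounded.subset_closedBall_lt 0 (0 : X)
  obtain ⟨Q, η, he⟩ := exists_eta hM.adm hM.coc
  have hη := he.pos
  refine ⟨min (1 / 10) (η / (10 * R)), lt_min (by norm_num) (by positivity), ?_⟩
  intro K _ _ _ _ _ _ κ p hp hκ hpp L c r hr hB hd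
  set ε := min (1 / 10) (η / (10 * R)) with hε
  have hε0 : 0 < ε := lt_min (by norm_num) (by positivity)
  have hε1 : ε * r ≤ r / 10 := by
    have : ε ≤ 1 / 10 := min_le_left _ _
    nlinarith
  have hε2 : ε * (10 * R) ≤ η := (le_div_iff₀ (by positivity)).1 (min_le_right _ _)
  have hsub : Metric.closedBall c (3 / 2 * r) ⊆ Metric.closedBall c (2 * r) :=
    Metric.closedBall_subset_closedBall (by linarith)
  have hB1 : Metric.closedBall c (3 / 2 * r) ⊆ L.W := hsub.trans hB
  have hB0 : Metric.ball c (3 / 2 * r) ⊆ L.W := Metric.ball_subset_closedBall.trans hB1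
  set W₀ := L.sat (Metric.ball c (3 / 2 * r)) with hW₀
  set Ch := L.sat (Metric.closedBall c (3 / 2 * r)) with hCh
  have hWo : IsOpen W₀ := L.isOpen_sat hB0 Metric.isOpen_ball
  have hChc : IsCompact Ch := L.isCompact_sat hB1 (isCompact_closedBall _ _)
  have hWCh : W₀ ⊆ Ch := iUnion_mono fun k => image_mono Metric.ball_subset_closedBall
  have hChW : Ch ⊆ L.W := L.sat_subset hB1
  have hWW : W₀ ⊆ L.W := hWCh.trans hChW
  have hChd : ∀ x ∈ Ch, dist x c ≤ 16 / 10 * r := by
    intro x hx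
    obtain ⟨k, y, hy, rfl⟩ := mem_iUnion.1 hx
    have h1 := hd k y (hsub hy)
    have h2 := Metric.mem_closedBall.1 hy
    linarith [dist_triangle (L.act k y) y c]
  have hCh2 : Ch ⊆ Metric.closedBall c (2 * r) := fun x hx =>
    Metric.mem_closedBall.2 (by linarith [hChd x hx])
  have hin0 : ∀ x, dist x c < 3 / 2 * r → x ∈ W₀ := fun x hx => L.subset_sat hB0 hx
  obtain ⟨f, hf, hfi, hfc, -⟩ := L.exists_average (φ := id) continuousOn_id
  have hfd : ∀ x ∈ Metric.closedBall c (2 * r), dist (f x) x ≤ ε * r := fun x hx =>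
    hfc x (hB hx) (Metric.closedBall x (ε * r)) Metric.isClosed_closedBall (convex_closedBall _ _)
      fun k => hd k x hx
  have hJ : JInv o W₀ (L.act κ) :=
    jinv_of_close o hr L.isOpen_W (L.continuousOn_act κ) hB (fun x hx => (hd κ x hx).trans hε1)
      (fun x hx => Metric.mem_ball.2 (by linarith [hChd x (hWCh hx)]))
      fun x hx h => L.mem_sat_of_act_mem hB0 (hB hx) h
  obtain ⟨D, hDW, hDT⟩ := (L.restrict W₀ hWo hWW (L.mapsTo_sat hB0)).exists_dyn hp hκ hpp hJ
  replace hDW : D.W = W₀ := hDW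
  replace hDT : D.T = L.act κ := hDT
  have hρ : 0 < r / (2 * R) := by positivity
  have hρR : r / (2 * R) * R = r / 2 := by field_simp
  have hmem : ∀ (g : X → X) (x : X), scl c (r / (2 * R)) g x ∈ CP → dist (g x) c ≤ r / 2 :=
    fun g x hx => hρR ▸ CaseA_mem hρ (hR hx)
  have hout : ∀ x ∈ Ch, f x ∈ Metric.ball c r → x ∈ W₀ := fun x hx hfx => hin0 x (by
    have h1 := hfd x (hCh2 hx)
    have h2 := Metric.mem_ball.1 hfx
    linarith [dist_triangle_left x c (f x)])
  have hsmall : ∀ d : ℝ, d ≤ 3 * (ε * r) → (r / (2 * R))⁻¹ * d < η := fun d hd => by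
    rw [inv_mul_lt_iff₀ hρ]
    calc d ≤ 3 * (ε * r) := hd
      _ = r / (2 * R) * (6 / 10 * (ε * (10 * R))) := by field_simp; ring
      _ < r / (2 * R) * η := mul_lt_mul_of_pos_left (by linarith) hρ
  have hF : ContinuousOn (scl c (r / (2 * R)) f) L.W := CaseA_cont _ _ hf
  have hC : IsCompact (W₀ ∩ scl c (r / (2 * R)) f ⁻¹' CP) := by
    have h1 : W₀ ∩ scl c (r / (2 * R)) f ⁻¹' CP = Ch ∩ scl c (r / (2 * R)) f ⁻¹' CP :=
      Subset.antisymm (inter_subset_inter_left _ hWCh) fun x hx =>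
        ⟨hout x hx.1 (Metric.mem_ball.2 (by linarith [hmem f x hx.2])), hx.2⟩
    rw [h1]
    exact hChc.of_isClosed_subset ((hF.mono hChW).preimage_isClosed_of_isClosed hChc.isClosed
      hM.adm.cpt.isClosed) inter_subset_left
  have hfix : ∀ x ∈ W₀, L.act κ x = x → f x = x := fun x hx h =>
    hfc x (hWW hx) {x} isClosed_singleton (convex_singleton x)
      fun k => L.act_eq_of_fixed hκ (hWW hx) h k
  have hid : W₀ ∩ scl c (r / (2 * R)) id ⁻¹' CP = scl c (r / (2 * R)) id ⁻¹' CP :=
    inter_eq_right.2 fun x hx => hin0 x (by linarith [show dist x c ≤ r / 2 from hmem id x hx])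
  have hs : sig0 o h (pullS (scl c (r / (2 * R)) f) G) (W₀ ∩ scl c (r / (2 * R)) f ⁻¹' CP)
      (scl c (r / (2 * R)) f ⁻¹' ΘP) ≠ 0 := by
    rw [sig0_close o hM.form hM.orth hM.adm he hWo (F₀ := scl c (r / (2 * R)) id)
      (CaseA_cont _ _ continuousOn_id) (hF.mono hWW) ?_ hC ?_, hid,
      sig0_affine o hM.form hM.orth hM.adm hM.coc c hρ]
    · exact hM.sig_ne
    · rw [hid]
      refine (isCompact_closedBall c (r / 2)).of_isClosed_subset ?_ fun x hx => hmem id x hx
      exact hM.adm.cpt.isClosed.preimage (continuousOn_univ.1 (CaseA_cont _ _ continuousOn_id))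
    · intro x hx
      rw [CaseA_dist c hρ]
      refine hsmall _ ?_
      have h1 := hfd x (hCh2 (hWCh hx))
      have h2 : 0 < ε * r := by positivity
      rw [dist_comm, id]
      linarith
  have hT := form_pull_sub_of_close o hM.orth hM.adm he hWo (hF.mono hWW)
    ((L.continuousOn_act κ).mono hWW) (L.mapsTo_sat hB0 κ)
    (fun x hx => by simp only [scl, hfi κ x (hWW hx)]) hC (fun x hx hQ t ht => by
      have h1 := hmem f x (interior_subset (he.sub _ hQ (Metric.mem_ball_self hη)))
      have hx2 := hCh2 (hWCh hx)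
      have h2 := hfd x hx2
      have h3 : dist (x + t • (L.act κ x - x)) x ≤ ε * r := by
        rw [dist_eq_norm, add_sub_cancel_left, norm_smul, Real.norm_eq_abs, abs_of_nonneg ht.1,
          ← dist_eq_norm]
        exact (mul_le_of_le_one_left dist_nonneg ht.2).trans (hd κ x hx2)
      have h4 : dist (x + t • (L.act κ x - x)) c < 3 / 2 * r := by
        linarith [dist_triangle (x + t • (L.act κ x - x)) x c, dist_triangle_left x c (f x)]
      have h5 := hfd (x + t • (L.act κ x - x)) (Metric.mem_closedBall.2 (by linarith))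
      refine ⟨hin0 _ h4, ?_⟩
      rw [CaseA_dist c hρ]
      refine hsmall _ ?_
      have h6 := dist_triangle4 (f (x + t • (L.act κ x - x))) (x + t • (L.act κ x - x)) x (f x)
      rw [dist_comm x (f x)] at h6
      linarith)
  have key := core hM hR0 hR hp D hChc (hDW ▸ hWCh) (hf.mono hChW)
    (by rw [hDW, hDT]; exact fun x hx => hfi κ x (hWW hx)) (by rw [hDW, hDT]; exact hfix)
    (c := c) (r := r) (by rw [hDW]; exact hout) (c₀ := c) hρ
    (by rw [hρR]; exact Metric.closedBall_subset_ball (by linarith))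
    (by rw [hDW, hDT]; exact hT) (by rw [hDW]; exact hs)
  intro x hx
  rw [← hDT]
  exact (key x hx).2

variable [NormedAddCommGroup X] [InnerProductSpace ℝ X] [FiniteDimensional ℝ X]
  {K : Type*} [Group K] [TopologicalSpace K] [IsTopologicalGroup K] [CompactSpace K] [T2Space K]
  [SecondCountableTopology K]

end Crest.Agent.R217
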