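import Crest.Agent.R217.LocAct2

set_option autoImplicit false
set_option linter.unusedSectionVars false
open Set Filter Topology

namespace Crest.Agent.R217

/-! The two local fixed point theorems. -/

universe u

variable {X : Type*}

variable [NormedAddCommGroup X] [InnerProductSpace ℝ X] [FiniteDimensional ℝ X]
  {K : Type*} [Group K] [TopologicalSpace K] [IsTopologicalGroup K] [CompactSpace K] [T2Space K]
  [SecondCountableTopology K]

/-- The invariant map of case B.  Let `ι = EuclideanGeometry.inversion y d`, `f₀` the average of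
`ι` for the action restricted to `W \ {y}`, `W₁ = {x ∈ W \ {y} | f₀ x ≠ y}` and `f = ι ∘ f₀`.
Orbits of points outside `ball y d` stay outside (points of the ball are fixed by all of `K`), so
`ι` maps them into `closedBall y d`; use `ℓ = innerSL ℝ (x₁ - y)` for the last claim. -/
theorem exists_caseB_map (L : LocAct K X) {y x₁ : X} {d : ℝ} (hd : 0 < d)
    (hb : Metric.ball y d ⊆ L.W) (hfix : ∀ k, ∀ x ∈ Metric.ball y d, L.act k x = x)
    (hx₁ : x₁ ∈ L.W) (hs : dist x₁ y = d) :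
    ∃ (W₁ : Set X) (f : X → X), IsOpen W₁ ∧ x₁ ∈ W₁ ∧ W₁ ⊆ L.W ∧
      (∀ k, MapsTo (L.act k) W₁ W₁) ∧ ContinuousOn f W₁ ∧ (∀ k, ∀ x ∈ W₁, f (L.act k x) = f x) ∧
      (∀ x ∈ W₁, (∀ k, L.act k x = x) → f x = x) ∧
      (∀ x ∈ W₁, f x ∈ Metric.ball y d → x ∈ Metric.ball y d) ∧
      ∀ x ∈ W₁, f x = x₁ → x = x₁ := by
  set ι : X → X := EuclideanGeometry.inversion y d with hι
  have hιι : ∀ x, ι (ι x) = x := EuclideanGeometry.inversion_inversion y hd.ne'
  have hι₁ : ι x₁ = x₁ := EuclideanGeometry.inversion_of_mem_sphere hs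
  have hout : ∀ k, ∀ x ∈ L.W, L.act k x ∈ Metric.ball y d → L.act k x = x := fun k x hx h => by
    rw [← hfix k⁻¹ _ h, ← L.act_mul _ _ _ hx, inv_mul_cancel, L.act_one _ hx]
  have hm : ∀ k, MapsTo (L.act k) (L.W \ {y}) (L.W \ {y}) := fun k x hx =>
    ⟨L.mapsTo k hx.1, fun h => hx.2 (by
      have h1 : L.act k x = y := h
      have h2 := hout k x hx.1 (h1 ▸ Metric.mem_ball_self hd)
      exact h2.symm.trans h1)⟩
  have ho : IsOpen (L.W \ {y}) := L.isOpen_W.sdiff isClosed_singleton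
  have hιc : ContinuousOn ι {y}ᶜ :=
    ContinuousOn.inversion continuousOn_const continuousOn_const continuousOn_id fun a ha => ha
  obtain ⟨f₀, hf, hfi, hfc, hfl⟩ := (L.restrict (L.W \ {y}) ho sdiff_subset hm).exists_average
    (φ := ι) (hιc.mono fun x hx => hx.2)
  replace hf : ContinuousOn f₀ (L.W \ {y}) := hf
  replace hfi : ∀ k, ∀ x ∈ L.W \ {y}, f₀ (L.act k x) = f₀ x := hfi
  replace hfc : ∀ x ∈ L.W \ {y}, ∀ S : Set X, IsClosed S → Convex ℝ S →
    (∀ k, ι (L.act k x) ∈ S) → f₀ x ∈ S := hfc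
  replace hfl : ∀ x ∈ L.W \ {y}, ∀ (ℓ : X →L[ℝ] ℝ) (m : ℝ), (∀ k, ℓ (ι (L.act k x)) ≤ m) →
    ℓ (f₀ x) = m → ℓ (ι x) = m := hfl
  have hfx : ∀ x ∈ L.W \ {y}, (∀ k, L.act k x = x) → f₀ x = ι x := fun x hx h =>
    hfc x hx {ι x} isClosed_singleton (convex_singleton _) fun k => by rw [h k]; rfl
  have hx₁y : x₁ ≠ y := fun h => hd.ne' (by rw [← hs, h, dist_self])
  have hx₁f : ∀ k, L.act k x₁ = x₁ := fun k => by
    have h1 : x₁ ∈ closure (Metric.ball y d) := by
      rw [closure_ball y hd.ne']; exact hs.le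
    have h2 : ContinuousWithinAt (L.act k) (Metric.ball y d) x₁ :=
      (L.continuousOn_act k x₁ hx₁).mono hb
    have h3 : ContinuousWithinAt (fun x : X => x) (Metric.ball y d) x₁ := continuousWithinAt_id
    have : (𝓝[Metric.ball y d] x₁).NeBot := mem_closure_iff_nhdsWithin_neBot.1 h1
    exact tendsto_nhds_unique_of_eventuallyEq h2 h3
      (eventually_nhdsWithin_of_forall fun x hx => hfix k x hx)
  have hcl : ∀ z, z ∉ Metric.ball y d → ι z ∈ Metric.closedBall y d := fun z hz => by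
    have h1 : d ≤ dist z y := not_lt.1 hz
    rw [Metric.mem_closedBall, hι, EuclideanGeometry.dist_inversion_center,
      div_le_iff₀ (hd.trans_le h1), sq]
    exact mul_le_mul_of_nonneg_left h1 hd.le
  have hcl' : ∀ x ∈ L.W, x ∉ Metric.ball y d → ∀ k, ι (L.act k x) ∈ Metric.closedBall y d :=
    fun x hx h k => hcl _ fun h' => h (hout k x hx h' ▸ h')
  have hf₁ : ∀ x ∈ L.W \ {y}, (∀ k, L.act k x = x) → ι (f₀ x) = x := fun x hx h => by
    rw [hfx x hx h, hιι]
  refine ⟨(L.W \ {y}) ∩ f₀ ⁻¹' {y}ᶜ, fun x => ι (f₀ x),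
    hf.isOpen_inter_preimage ho isOpen_compl_singleton, ⟨⟨hx₁, hx₁y⟩, ?_⟩, fun x hx => hx.1.1,
    fun k x hx => ⟨hm k hx.1, ?_⟩, hιc.comp (hf.mono inter_subset_left) fun x hx => hx.2,
    fun k x hx => congrArg ι (hfi k x hx.1), fun x hx h => hf₁ x hx.1 h, fun x hx h => ?_,
    fun x hx h => ?_⟩
  · show f₀ x₁ ≠ y
    rw [hfx x₁ ⟨hx₁, hx₁y⟩ hx₁f, hι₁]
    exact hx₁y
  · show f₀ (L.act k x) ≠ y
    rw [hfi k x hx.1]
    exact hx.2
  · by_contra hx'
    have h1 : dist (f₀ x) y ≤ d := hfc x hx.1 _ Metric.isClosed_closedBall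
      (convex_closedBall _ _) (hcl' x hx.1.1 hx')
    have h2 : 0 < dist (f₀ x) y := dist_pos.2 hx.2
    rw [Metric.mem_ball, hι, EuclideanGeometry.dist_inversion_center, div_lt_iff₀ h2, sq] at h
    exact absurd (mul_le_mul_of_nonneg_left h1 hd.le) (not_le.2 h)
  · by_cases hx' : x ∈ Metric.ball y d
    · exact (hf₁ x hx.1 fun k => hfix k x hx').symm.trans h
    · have h0 : f₀ x = x₁ := by rw [← hιι (f₀ x), show ι (f₀ x) = x₁ from h, hι₁]
      have hn : ‖x₁ - y‖ = d := by rw [← dist_eq_norm, hs]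
      have hb' : ∀ z ∈ Metric.closedBall y d, ‖z - y‖ ≤ d := fun z hz => by
        rw [← dist_eq_norm]; exact hz
      have h1 := hfl x hx.1 (innerSL ℝ (x₁ - y)) (inner ℝ (x₁ - y) y + d * d) (fun k => by
        have h2 := real_inner_le_norm (x₁ - y) (ι (L.act k x) - y)
        have h3 := mul_le_mul_of_nonneg_left (hb' _ (hcl' x hx.1.1 hx' k)) hd.le
        rw [inner_sub_right, hn] at h2
        rw [innerSL_apply_apply]
        linarith) (by
        have h2 := real_inner_self_eq_norm_mul_norm (x₁ - y)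
        rw [inner_sub_right, hn] at h2
        rw [innerSL_apply_apply, h0]
        linarith)
      rw [innerSL_apply_apply] at h1
      have h2 := hb' _ (hcl x hx')
      have h3 := norm_sub_sq_real (x₁ - y) (ι x - y)
      rw [inner_sub_right, hn, sub_sub_sub_cancel_right] at h3
      have h4 : ‖ι x - y‖ ^ 2 ≤ d ^ 2 := pow_le_pow_left₀ (norm_nonneg _) h2 2
      have h5 : ‖x₁ - ι x‖ ^ 2 ≤ 0 := by nlinarith
      have h6 : x₁ = ι x := sub_eq_zero.1 (norm_eq_zero.1 (pow_eq_zero_iff (n := 2) (by norm_num) |>.1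
        (le_antisymm h5 (by positivity))))
      rw [← hιι x, ← h6, hι₁]

end Crest.Agent.R217
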