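import Crest.Agent.R217.CaseA
import Crest.Agent.R217.CaseBMap

set_option autoImplicit false
set_option linter.unusedSectionVars false
open Set Filter Topology

namespace Crest.Agent.R217

/-! The two local fixed point theorems. -/

universe u

variable {X : Type*}

variable [NormedAddCommGroup X] [InnerProductSpace ℝ X] [FiniteDimensional ℝ X]
  {K : Type*} [Group K] [TopologicalSpace K] [IsTopologicalGroup K] [CompactSpace K] [T2Space K]
  [SecondCountableTopology K]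

/-- Case B (Newman): the fixed set contains a neighbourhood of every point on the boundary of a
fixed ball.  With `W₁, f` from `exists_caseB_map`, `closedBall x₁ δ ⊆ W₁`, `W₀ = sat (ball x₁ δ)`
(connected: every translate contains the fixed point `x₁`), `Ch = sat (closedBall x₁ δ)`, `r > 0`
with `f (Ch \ W₀)` disjoint from `ball x₁ r`.  Choose `c₀, ρ₀` with
`closedBall c₀ (ρ₀ R) ⊆ ball x₁ r ∩ ball x₁ δ ∩ ball y d`; there `T = id` and `f = id` near the
pulled back hypersurface (`vanAt_pull_sub_pull`, `Zc_congr`, `flux_move`), `sig0_affine`;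
`jinv_of_connected`, `core`. -/
theorem caseB (hX : HasModel X) {κ : K} {p : ℕ} (hpp : p.Prime)
    (hκ : DenseRange (fun n : ℤ => κ ^ n)) (hp : PP κ p) (L : LocAct K X) {y x₁ : X} {d : ℝ}
    (hd : 0 < d) (hb : Metric.ball y d ⊆ L.W) (hfix : ∀ x ∈ Metric.ball y d, L.act κ x = x)
    (hx₁ : x₁ ∈ L.W) (hs : dist x₁ y = d) : ∀ᶠ x in 𝓝 x₁, L.act κ x = x := by
  obtain ⟨o, V, _, _, _, h, I, G, CP, ΘP, hM⟩ := hX
  obtain ⟨R, hR0, hR⟩ := hM.adm.cpt.isBounded.subset_closedBall_lt 0 (0 : X)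
  have hfixK : ∀ k, ∀ x ∈ Metric.ball y d, L.act k x = x := fun k x hx =>
    L.act_eq_of_fixed hκ (hb hx) (hfix x hx) k
  obtain ⟨W₁, f, hW₁o, hxW₁, hW₁, hm₁, hfc, hfinv, hffix, hfball, hfx₁⟩ :=
    exists_caseB_map L hd hb hfixK hx₁ hs
  obtain ⟨δ, hδ, hδW⟩ := Metric.nhds_basis_closedBall.mem_iff.1 (hW₁o.mem_nhds hxW₁)
  have hcl : x₁ ∈ closure (Metric.ball y d) := by
    rw [closure_ball y hd.ne']; exact le_of_eq hs
  have hx₁fix : ∀ k, L.act k x₁ = x₁ := fun k => by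
    have : EqOn (L.act k) id (insert x₁ (Metric.ball y d)) :=
      Set.EqOn.of_subset_closure (s := Metric.ball y d) (fun x hx => hfixK k x hx)
        ((L.continuousOn_act k).mono (insert_subset hx₁ hb)) continuousOn_id (subset_insert _ _)
        (insert_subset hcl subset_closure)
    exact this (mem_insert _ _)
  have hcbW : Metric.closedBall x₁ δ ⊆ L.W := hδW.trans hW₁
  have hbW : Metric.ball x₁ δ ⊆ L.W := Metric.ball_subset_closedBall.trans hcbW
  set W₀ := L.sat (Metric.ball x₁ δ) with hW₀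
  set Ch := L.sat (Metric.closedBall x₁ δ) with hCh
  have hW₀o : IsOpen W₀ := L.isOpen_sat hbW Metric.isOpen_ball
  have hChc : IsCompact Ch := L.isCompact_sat hcbW (isCompact_closedBall _ _)
  have hW₀Ch : W₀ ⊆ Ch := iUnion_mono fun k => image_mono Metric.ball_subset_closedBall
  have hChW₁ : Ch ⊆ W₁ := by
    rintro _ ⟨_, ⟨k, rfl⟩, x, hx, rfl⟩
    exact hm₁ k (hδW hx)
  have hW₀W : W₀ ⊆ L.W := L.sat_subset hbW
  have hbW₀ : Metric.ball x₁ δ ⊆ W₀ := L.subset_sat hbW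
  have hconn : IsPreconnected W₀ := by
    refine isPreconnected_iUnion ⟨x₁, mem_iInter.2 fun k => ⟨x₁, Metric.mem_ball_self hδ, hx₁fix k⟩⟩
      fun k => ?_
    exact (convex_ball x₁ δ).isPreconnected.image _ ((L.continuousOn_act k).mono hbW)
  have hK0 : IsCompact (f '' (Ch \ W₀)) :=
    (hChc.diff hW₀o).image_of_continuousOn (hfc.mono (sdiff_subset.trans hChW₁))
  have hxK0 : x₁ ∈ (f '' (Ch \ W₀))ᶜ := by
    rintro ⟨x, hx, hxe⟩
    have := hfx₁ x (hChW₁ hx.1) hxe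
    exact hx.2 (this ▸ hbW₀ (Metric.mem_ball_self hδ))
  obtain ⟨r, hr, hrK⟩ := Metric.isOpen_iff.1 hK0.isClosed.isOpen_compl x₁ hxK0
  have hU₀o : IsOpen (Metric.ball x₁ r ∩ Metric.ball x₁ δ ∩ Metric.ball y d) :=
    (Metric.isOpen_ball.inter Metric.isOpen_ball).inter Metric.isOpen_ball
  obtain ⟨c₀, hc₀⟩ : (Metric.ball x₁ r ∩ Metric.ball x₁ δ ∩ Metric.ball y d).Nonempty :=
    mem_closure_iff.1 hcl _ (Metric.isOpen_ball.inter Metric.isOpen_ball)
      ⟨Metric.mem_ball_self hr, Metric.mem_ball_self hδ⟩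
  obtain ⟨s, hs0, hsU⟩ := Metric.nhds_basis_closedBall.mem_iff.1 (hU₀o.mem_nhds hc₀)
  let L₀ := L.restrict W₀ hW₀o hW₀W (L.mapsTo_sat hbW)
  have hJ : JInv o L₀.W (L₀.act κ) := by
    refine jinv_of_connected o (Tinv := L.act κ⁻¹) hW₀o hconn ((L.continuousOn_act κ).mono hW₀W)
      ((L.continuousOn_act κ⁻¹).mono hW₀W) (L.mapsTo_sat hbW κ) (L.mapsTo_sat hbW κ⁻¹)
      (fun x hx => ?_) (fun x hx => ?_) hU₀o ⟨c₀, hc₀⟩ (fun x hx => hbW₀ hx.1.2)
      (fun x hx => hfix x hx.2)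
    · change L.act κ⁻¹ (L.act κ x) = x
      rw [← L.act_mul _ _ x (hW₀W hx), inv_mul_cancel, L.act_one x (hW₀W hx)]
    · change L.act κ (L.act κ⁻¹ x) = x
      rw [← L.act_mul _ _ x (hW₀W hx), mul_inv_cancel, L.act_one x (hW₀W hx)]
  obtain ⟨D, hDW, hDT⟩ := L₀.exists_dyn hpp hκ hp hJ
  have hDW' : D.W = W₀ := hDW
  have hDT' : D.T = L.act κ := hDT
  set ρ₀ := s / R with hρ₀
  have hρ : 0 < ρ₀ := div_pos hs0 hR0
  have hρR : ρ₀ * R = s := div_mul_cancel₀ s hR0.ne'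
  have hscl : ∀ (g : X → X) (x : X), scl c₀ ρ₀ g x ∈ CP → g x ∈ Metric.closedBall c₀ s := by
    intro g x hx
    have h1 := hR hx
    rw [mem_closedBall_zero_iff, scl, norm_smul, norm_inv, Real.norm_of_nonneg hρ.le,
      inv_mul_le_iff₀ hρ, hρR] at h1
    rw [mem_closedBall_iff_norm]; exact h1
  have hfid : ∀ x ∈ Metric.ball y d ∩ W₁, f x = x := fun x hx =>
    hffix x hx.2 fun k => hfixK k x hx.1
  have hBo : IsOpen (Metric.ball y d ∩ W₁) := Metric.isOpen_ball.inter hW₁o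
  have hC : D.W ∩ scl c₀ ρ₀ f ⁻¹' CP = scl c₀ ρ₀ id ⁻¹' CP := by
    rw [hDW']
    ext x
    constructor
    · rintro ⟨hx, hx'⟩
      have h1 : x ∈ W₁ := hChW₁ (hW₀Ch hx)
      have h2 : f x = x := hfid x ⟨hfball x h1 (hsU (hscl f x hx')).2, h1⟩
      change scl c₀ ρ₀ id x ∈ CP
      have : scl c₀ ρ₀ id x = scl c₀ ρ₀ f x := by simp [scl, h2]
      rw [this]; exact hx'
    · intro hx
      have h1 := hsU (hscl id x hx)
      have h0 : x ∈ W₀ := hbW₀ h1.1.2
      have h2 : f x = x := hfid x ⟨h1.2, hChW₁ (hW₀Ch h0)⟩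
      refine ⟨h0, ?_⟩
      change scl c₀ ρ₀ f x ∈ CP
      have : scl c₀ ρ₀ f x = scl c₀ ρ₀ id x := by simp [scl, h2]
      rw [this]; exact hx
  have hCB : ∀ x ∈ scl c₀ ρ₀ id ⁻¹' CP, Metric.ball y d ∩ W₁ ∈ 𝓝 x := fun x hx => by
    have h1 := hsU (hscl id x hx)
    exact hBo.mem_nhds ⟨h1.2, hChW₁ (hW₀Ch (hbW₀ h1.1.2))⟩
  have hCcl : IsClosed (scl c₀ ρ₀ id ⁻¹' CP) := by
    refine hM.adm.cpt.isClosed.preimage ?_
    unfold scl
    fun_prop
  have hCc : IsCompact (scl c₀ ρ₀ id ⁻¹' CP) :=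
    (isCompact_closedBall c₀ s).of_isClosed_subset hCcl fun x hx => hscl id x hx
  have hsc : ∀ x ∈ Metric.ball y d ∩ W₁, scl c₀ ρ₀ f x = scl c₀ ρ₀ id x := fun x hx => by
    simp [scl, hfid x hx]
  have key := core hM hR0 hR hpp D hChc (hDW' ▸ hW₀Ch) (hfc.mono hChW₁)
    (fun x hx => by
      rw [hDT']; exact hfinv κ x (hChW₁ (hW₀Ch (hDW' ▸ hx))))
    (fun x hx hT => by
      have hx' : x ∈ W₀ := hDW' ▸ hx
      rw [hDT'] at hT
      exact hffix x (hChW₁ (hW₀Ch hx')) (L.act_eq_of_fixed hκ (hW₀W hx') hT))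
    (c := x₁) (r := r)
    (fun x hx hfx => by
      rw [hDW']
      by_contra hn
      exact hrK hfx ⟨x, ⟨hx, hn⟩, rfl⟩)
    (c₀ := c₀) hρ (by rw [hρR]; exact fun x hx => (hsU hx).1.1)
    (by
      rw [hC]
      intro x _ z _
      rw [form_apply, flux_congr o hCcl _ (w' := 0), map_zero]
      intro w hw
      rw [sub_zero]
      refine VanAt.pair_left ?_ h z
      have h1 : D.T =ᶠ[𝓝 w] id := by
        filter_upwards [hCB w hw] with u hu
        rw [hDT']; exact hfix u hu.1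
      have h2 := vanAt_pull_sub_pull h1 x
      have h3 : pull id x = x := by funext a l; simp
      rwa [h3] at h2)
    (by
      rw [hC]
      have h1 : sig0 o h (pullS (scl c₀ ρ₀ f) G) (scl c₀ ρ₀ id ⁻¹' CP) (scl c₀ ρ₀ f ⁻¹' ΘP) =
          sig0 o h (pullS (scl c₀ ρ₀ id) G) (scl c₀ ρ₀ id ⁻¹' CP) (scl c₀ ρ₀ id ⁻¹' ΘP) := by
        unfold sig0
        rw [Zc_congr (g' := pullS (scl c₀ ρ₀ id) G) fun x hx =>
          ⟨_, hCB x hx, fun a ha b hb => by rw [pullS_apply, pullS_apply, hsc a ha, hsc b hb]⟩]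
        refine sig_congr fun x _ => ?_
        rw [form_apply, form_apply]
        refine flux_move o hCc fun w hw _ => vanAt_cut_sub_cut ?_ _
        filter_upwards [hCB w hw] with u hu
        rw [mem_preimage, mem_preimage, hsc u hu]
      rw [h1, sig0_affine o hM.form hM.orth hM.adm hM.coc c₀ hρ]
      exact hM.sig_ne)
  filter_upwards [Metric.ball_mem_nhds x₁ hr] with x hx
  have := (key x hx).2
  rwa [hDT'] at this

/-- Hint: take `y` in the interior of the fixed set close to `x₀`, `d` its distance to the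
complement of that interior, `x₁` a nearest point; `caseB` puts `x₁` in the interior. -/
theorem fixed_nhds_of_mem_closure (hX : HasModel X) {κ : K} {p : ℕ} (hpp : p.Prime)
    (hκ : DenseRange (fun n : ℤ => κ ^ n)) (hp : PP κ p) (L : LocAct K X) {x₀ : X}
    (hx₀ : x₀ ∈ L.W) (hcl : x₀ ∈ closure (interior {x | x ∈ L.W ∧ L.act κ x = x})) :
    x₀ ∈ interior {x | x ∈ L.W ∧ L.act κ x = x} := by
  by_contra hn
  set O := interior {x | x ∈ L.W ∧ L.act κ x = x} with hO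
  obtain ⟨ε, hε, hεW⟩ := Metric.isOpen_iff.1 L.isOpen_W x₀ hx₀
  obtain ⟨y, hyO, hy⟩ := Metric.mem_closure_iff.1 hcl (ε / 2) (half_pos hε)
  have hcl' : IsClosed Oᶜ := isOpen_interior.isClosed_compl
  obtain ⟨x₁, hx₁, hd⟩ := hcl'.exists_infDist_eq_dist ⟨x₀, hn⟩ y
  have hpos : 0 < dist y x₁ := dist_pos.2 fun e => hx₁ (e ▸ hyO)
  have hle : dist y x₁ ≤ dist y x₀ := hd ▸ Metric.infDist_le_dist_of_mem hn
  have hball : Metric.ball y (dist y x₁) ⊆ O := fun z hz => by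
    by_contra hz'
    have := Metric.infDist_le_dist_of_mem (x := y) (s := Oᶜ) hz'
    rw [hd, dist_comm y z] at this
    exact absurd (Metric.mem_ball.1 hz) (not_lt.2 this)
  have hx₁W : x₁ ∈ L.W := hεW (by
    rw [Metric.mem_ball]
    have := dist_triangle x₁ y x₀
    rw [dist_comm x₁ y] at this
    rw [dist_comm x₀ y] at hy
    linarith)
  have := caseB hX hpp hκ hp L hpos (fun z hz => (interior_subset (hball hz)).1)
    (fun z hz => (interior_subset (hball hz)).2) hx₁W (dist_comm _ _)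
  refine hx₁ (mem_interior_iff_mem_nhds.2 ?_)
  filter_upwards [this, L.isOpen_W.mem_nhds hx₁W] with z h1 h2
  exact ⟨h2, h1⟩

end Crest.Agent.R217
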