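import Mathlib

set_option autoImplicit false

namespace Crest.Agent.R217

open MeasureTheory
open scoped InnerProductSpace

/-- Gelfand step: a character of the bicommutant of a unitary representation that does not kill
`(π a - 1) T`. -/
theorem chars_cstar {A : Type*} [CommGroup A] [TopologicalSpace A] {B : Type*} [CStarAlgebra B]
    (π : A →* B) (hstar : ∀ b, star (π b) = π b⁻¹) (T : B)
    (hT : ∀ X : B, (∀ b, π b * X = X * π b) → X * T = T * X)
    (hc : Continuous fun b => π b * T) {a : A} (ha : π a * T ≠ T) :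
    ∃ χ : A →* Circle, Continuous χ ∧ χ a ≠ 1 := by
  set S : Set B := Set.range π with hS
  have hSS : S ∪ star S = S := by
    refine Set.union_eq_left.2 fun x hx => ?_
    obtain ⟨b, hb⟩ : star x ∈ S := hx
    exact ⟨b⁻¹, by rw [← hstar, hb, star_star]⟩
  set 𝒜 : StarSubalgebra ℂ B := StarSubalgebra.centralizer ℂ (StarSubalgebra.centralizer ℂ S : Set B) with h𝒜
  have hcoe : (𝒜 : Set B) = S.centralizer.centralizer := by
    rw [h𝒜, StarSubalgebra.coe_centralizer_centralizer, hSS]
  have hcomm : ∀ x ∈ S, ∀ y ∈ S, x * y = y * x := by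
    rintro _ ⟨b, rfl⟩ _ ⟨c, rfl⟩
    rw [← map_mul, ← map_mul, mul_comm]
  have hcl : IsClosed (𝒜 : Set B) := by rw [hcoe]; exact Set.isClosed_centralizer _
  have hπ : ∀ b, π b ∈ 𝒜 := fun b => by
    rw [← SetLike.mem_coe, hcoe]
    exact Set.subset_centralizer_centralizer ⟨b, rfl⟩
  have hT' : T ∈ 𝒜 := by
    rw [← SetLike.mem_coe, hcoe]
    exact fun X hX => hT X fun b => hX _ ⟨b, rfl⟩
  let _ : CommCStarAlgebra 𝒜 :=
    { (StarSubalgebra.cstarAlgebra 𝒜 : CStarAlgebra 𝒜) with
      mul_comm := fun x y => Subtype.ext (Set.centralizer_centralizer_comm_of_comm hcomm _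
        (by rw [← hcoe]; exact x.2) _ (by rw [← hcoe]; exact y.2)) }
  let p : A → 𝒜 := fun b => ⟨π b, hπ b⟩
  let t : 𝒜 := ⟨T, hT'⟩
  have hne : p a * t ≠ t := fun h => ha (congrArg Subtype.val h)
  have hne2 : WeakDual.gelfandTransform ℂ 𝒜 (p a * t) ≠ WeakDual.gelfandTransform ℂ 𝒜 t :=
    fun h => hne ((gelfandTransform_isometry 𝒜).injective h)
  obtain ⟨ω, hω⟩ : ∃ ω, WeakDual.gelfandTransform ℂ 𝒜 (p a * t) ω ≠ WeakDual.gelfandTransform ℂ 𝒜 t ω := by
    by_contra h
    push Not at h
    exact hne2 (ContinuousMap.ext h)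
  have hω' : ω (p a) * ω t ≠ ω t := by
    rw [← map_mul]
    exact hω
  have ht0 : ω t ≠ 0 := fun h => hω' (by rw [h, mul_zero])
  have hp1 : p 1 = 1 := Subtype.ext (map_one π)
  have hpm : ∀ b c, p (b * c) = p b * p c := fun b c => Subtype.ext (map_mul π b c)
  have hps : ∀ b, star (p b) = p b⁻¹ := fun b => Subtype.ext (hstar b)
  have hnorm : ∀ b, ‖ω (p b)‖ = 1 := by
    intro b
    have h1 : ω (p b) * star (ω (p b)) = 1 := by
      rw [← map_star, ← map_mul, hps, ← hpm, mul_inv_cancel, hp1, map_one]
    have h2 := congrArg norm h1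
    rw [norm_mul, norm_star, norm_one] at h2
    nlinarith [norm_nonneg (ω (p b))]
  have hcont : Continuous fun b => ω (p b) := by
    have h1 : Continuous fun b => p b * t := Continuous.subtype_mk hc _
    have h2 : Continuous fun b => ω (p b * t) / ω t := ((map_continuous ω).comp h1).div_const _
    refine h2.congr fun b => ?_
    rw [map_mul, mul_div_cancel_right₀ _ ht0]
  refine ⟨{ toFun := fun b => ⟨ω (p b), by simp [Submonoid.unitSphere, hnorm b]⟩
            map_one' := Circle.ext (by simp [hp1])
            map_mul' := fun b c => Circle.ext (by simp [hpm]) }, ?_, ?_⟩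
  · exact Continuous.subtype_mk hcont _
  · intro h
    have h1 : ω (p a) = 1 := congrArg Subtype.val h
    exact hω' (by rw [h1, one_mul])

/-- Every non-trivial value of a strongly continuous unitary representation is detected by a
continuous character. -/
theorem chars_rep {A : Type*} [CommGroup A] [TopologicalSpace A] [IsTopologicalGroup A]
    [CompactSpace A] [T2Space A] [SecondCountableTopology A] [MeasurableSpace A] [BorelSpace A]
    (μ : Measure A) [μ.IsHaarMeasure] {H : Type*} [NormedAddCommGroup H] [InnerProductSpace ℂ H]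
    [CompleteSpace H] (π : A →* (H →L[ℂ] H)) (hn : ∀ b u, ‖π b u‖ = ‖u‖)
    (hc : ∀ u, Continuous fun b => π b u) {a : A} {u : H} (ha : π a u ≠ u) :
    ∃ χ : A →* Circle, Continuous χ ∧ χ a ≠ 1 := by
  have hmul : ∀ b c v, π b (π c v) = π (b * c) v := fun b c v => by rw [map_mul]; rfl
  have hstar : ∀ b, star (π b) = π b⁻¹ := by
    intro b
    rw [ContinuousLinearMap.star_eq_adjoint]
    symm
    rw [ContinuousLinearMap.eq_adjoint_iff]
    intro x y
    let L : H →ₗᵢ[ℂ] H := ⟨(π b).toLinearMap, hn b⟩
    have h := L.inner_map_map (π b⁻¹ x) y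
    change ⟪π b (π b⁻¹ x), π b y⟫_ℂ = _ at h
    rw [hmul, mul_inv_cancel, map_one] at h
    exact h.symm
  have hint : ∀ (f : C(A, ℂ)) (v : H), Integrable (fun b => f b • π b v) μ := fun f v =>
    (f.continuous.smul (hc v)).integrable_of_hasCompactSupport (HasCompactSupport.of_compactSpace _)
  let T₀ : C(A, ℂ) →ₗ[ℂ] H →ₗ[ℂ] H := LinearMap.mk₂ ℂ (fun f v => ∫ b, f b • π b v ∂μ)
    (fun f g v => by
      simp only [ContinuousMap.add_apply, add_smul]
      exact integral_add (hint f v) (hint g v))
    (fun c f v => by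
      simp only [ContinuousMap.smul_apply, smul_assoc]
      exact integral_smul _ _)
    (fun f v w => by
      simp only [map_add, smul_add]
      exact integral_add (hint f v) (hint f w))
    (fun c f v => by
      simp only [map_smul, smul_comm _ c]
      exact integral_smul _ _)
  let T : C(A, ℂ) →L[ℂ] H →L[ℂ] H := T₀.mkContinuous₂ (μ.real Set.univ) fun f v => by
    have h := norm_integral_le_of_norm_le_const (μ := μ) (f := fun b => f b • π b v) (C := ‖f‖ * ‖v‖)
      (Filter.Eventually.of_forall fun b => by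
        rw [norm_smul, hn]
        exact mul_le_mul_of_nonneg_right (f.norm_coe_le_norm b) (norm_nonneg _))
    calc ‖T₀ f v‖ ≤ ‖f‖ * ‖v‖ * μ.real Set.univ := h
      _ = _ := by ring
  have hT : ∀ f v, T f v = ∫ b, f b • π b v ∂μ := fun _ _ => rfl
  have hX : ∀ (X : H →L[ℂ] H) f v, X (T f v) = ∫ b, f b • X (π b v) ∂μ := by
    intro X f v
    rw [hT, ← X.integral_comp_comm (hint f v)]
    simp only [map_smul]
  set w : H := π a u - u with hw
  have hw0 : w ≠ 0 := sub_ne_zero.2 ha
  let f : C(A, ℂ) := ⟨fun b => ⟪π b w, w⟫_ℂ, (hc w).inner continuous_const⟩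
  refine chars_cstar π hstar (T f) (fun X hX' => ?_) ?_ (a := a) ?_
  · ext v
    change X (T f v) = T f (X v)
    rw [hX, hT]
    congr 1
    funext b
    have := congrArg (fun Y : H →L[ℂ] H => Y v) (hX' b)
    change π b (X v) = X (π b v) at this
    rw [this]
  · let F : C(A × A, ℂ) := ⟨fun x => f (x.1⁻¹ * x.2), by fun_prop⟩
    refine (T.continuous.comp F.curry.continuous).congr fun b => ?_
    ext v
    change T (F.curry b) v = π b (T f v)
    rw [hX, hT, ← integral_mul_left_eq_self _ b]
    congr 1
    funext c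
    change f (b⁻¹ * (b * c)) • _ = _
    rw [inv_mul_cancel_left, hmul]
  · intro h
    have h1 : π a (T f u) = T f u := congrArg (fun Y : H →L[ℂ] H => Y u) h
    have h2 : T f w = 0 := by
      rw [hw, map_sub, ← h1, hX, hT, sub_eq_zero]
      congr 1
      funext b
      rw [hmul, hmul, mul_comm]
    have h3 := hX (((innerSL ℂ w).smulRight w)) f w
    rw [h2, map_zero] at h3
    have h4 : ∀ b, f b • ((innerSL ℂ w).smulRight w) (π b w) = ((‖f b‖ ^ 2 : ℝ) : ℂ) • w := by
      intro b
      rw [ContinuousLinearMap.smulRight_apply, smul_smul, innerSL_apply_apply, ← inner_conj_symm w]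
      congr 1
      change f b * (starRingEnd ℂ) (f b) = _
      rw [Complex.mul_conj, Complex.normSq_eq_norm_sq]
    simp only [h4] at h3
    rw [integral_smul_const, integral_complex_ofReal] at h3
    have h5 : 0 < ∫ b, ‖f b‖ ^ 2 ∂μ := by
      refine Continuous.integral_pos_of_hasCompactSupport_nonneg_nonzero (x := 1) (by fun_prop)
        (HasCompactSupport.of_compactSpace _) (fun b => by positivity) ?_
      have : f 1 ≠ 0 := by
        change ⟪π 1 w, w⟫_ℂ ≠ 0
        rw [map_one]
        exact inner_self_ne_zero.2 hw0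
      positivity
    rcases smul_eq_zero.1 h3.symm with h6 | h6
    · exact h5.ne' (by exact_mod_cast h6)
    · exact hw0 h6

/-- Continuous characters separate the points of a compact Hausdorff abelian group. -/
theorem exists_char_ne_one (A : Type*) [CommGroup A] [TopologicalSpace A] [IsTopologicalGroup A]
    [CompactSpace A] [T2Space A] [SecondCountableTopology A] (a : A) (ha : a ≠ 1) :
    ∃ χ : A →* Circle, Continuous χ ∧ χ a ≠ 1 := by
  borelize A
  let μ : Measure A := Measure.haar
  have hm : ∀ b : A, MeasurePreserving (fun x => b * x) μ μ := fun b => measurePreserving_mul_left μ b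
  let π : A →* (Lp ℂ 2 μ →L[ℂ] Lp ℂ 2 μ) :=
    { toFun := fun b => (Lp.compMeasurePreservingₗᵢ ℂ (fun x => b * x) (hm b)).toContinuousLinearMap
      map_one' := by
        ext1 u
        change Lp.compMeasurePreserving (fun x => 1 * x) (hm 1) u = u
        convert Lp.compMeasurePreserving_id_apply u
        simp
      map_mul' := fun b c => by
        ext1 u
        change Lp.compMeasurePreserving (fun x => (b * c) * x) (hm _) u =
          Lp.compMeasurePreserving (fun x => b * x) (hm _) (Lp.compMeasurePreserving (fun x => c * x) (hm _) u)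
        rw [← Lp.compMeasurePreserving_comp_apply]
        congr 2
        funext x
        simp [mul_assoc, mul_left_comm] }
  have hπ : ∀ b u, π b u = Lp.compMeasurePreserving (fun x => b * x) (hm b) u := fun _ _ => rfl
  obtain ⟨g, hg0, hg1, -⟩ := exists_continuous_zero_one_of_isClosed (isClosed_singleton (x := a))
    (isClosed_singleton (x := (1 : A))) (Set.disjoint_singleton.2 ha)
  let G : C(A, ℂ) := ⟨fun x => (g x : ℂ), by fun_prop⟩
  let G' : C(A, ℂ) := ⟨fun x => G (a * x), by fun_prop⟩
  refine chars_rep μ π (fun b u => by rw [hπ, Lp.norm_compMeasurePreserving]) (fun u => ?_) (a := a)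
    (u := ContinuousMap.toLp 2 μ ℂ G) ?_
  · let F : C(A × A, A) := ⟨fun x => x.1 * x.2, by fun_prop⟩
    exact Continuous.compMeasurePreservingLp (f := fun _ => u) (g := F.curry) continuous_const
      F.curry.continuous hm (by norm_num)
  · intro h
    have h1 : π a (ContinuousMap.toLp 2 μ ℂ G) = ContinuousMap.toLp 2 μ ℂ G' := by
      rw [hπ]
      ext1
      refine (Lp.coeFn_compMeasurePreserving _ _).trans (Filter.EventuallyEq.trans ?_
        (ContinuousMap.coeFn_toLp (p := 2) (𝕜 := ℂ) μ G').symm)
      have e1 : (ContinuousMap.toLp 2 μ ℂ G : A → ℂ) =ᵐ[μ] G := ContinuousMap.coeFn_toLp (p := 2) (𝕜 := ℂ) μ G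
      have e2 := (hm a).quasiMeasurePreserving.ae_eq_comp e1
      exact e2
    have h3 : G' = G := ContinuousMap.toLp_injective (p := 2) (𝕜 := ℂ) μ (h1.symm.trans h)
    have h2 : G' 1 = G 1 := by rw [h3]
    change (g (a * 1) : ℂ) = g 1 at h2
    rw [mul_one, hg0 rfl, hg1 rfl] at h2
    simp at h2

end Crest.Agent.R217
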