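import Crest.Agent.R217.Close0

set_option autoImplicit false
set_option linter.unusedSectionVars false
open Set Filter Topology

namespace Crest.Agent.R217

/-! Pull-backs of a model hypersurface under invariant maps. -/

variable {X V : Type*} [AddCommGroup V] [Module ℝ V]

variable [FiniteDimensional ℝ V] [NormedAddCommGroup X] [NormedSpace ℝ X] [FiniteDimensional ℝ X]
  {o : Orient X} {p : ℕ} [NeZero p] {h : V →ₗ[ℝ] V →ₗ[ℝ] ℝ}
  {ζ : AddChar (ZMod p) (Module.End ℝ V)} {G : Sys X V} {CP ΘP : Set X}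

theorem Close2_frontier {Y Z : Type*} [TopologicalSpace Y] [TopologicalSpace Z] {F : Y → Z}
    {z : Y} (hF : ContinuousAt F z) {S : Set Z} (hz : z ∈ frontier (F ⁻¹' S)) :
    F z ∈ frontier S := by
  by_contra hn
  rcases mem_nhds_or_compl_mem_nhds hn with h1 | h1
  · exact hz.2 (mem_interior_iff_mem_nhds.2 (hF h1))
  · have h2 : (F ⁻¹' S)ᶜ ∈ 𝓝 z := hF h1
    exact (mem_closure_iff_nhds.1 hz.1 _ h2).ne_empty (compl_inter_self _)

/-- A map with small displacement acts trivially modulo the radical.  Hint: `C' = W ∩ F ⁻¹' Q`;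
`homotopy` on `C'` with `H t x = x + t • (T x - x)` and `N = F ⁻¹' ball (F x) η` (tube lemma);
`G (F x) (F (T x)) = 1` near `C'`; `form_restrict`, `form_Bd_left`. -/
theorem form_pull_sub_of_close (o : Orient X) (ho : ∀ x y, IsOrth h (G x y)) (hA : Adm CP ΘP)
    {Q : Set X} {η : ℝ} (he : Eta G CP ΘP Q η) {W : Set X} (hW : IsOpen W) {F T : X → X}
    (hF : ContinuousOn F W) (hT : ContinuousOn T W) (hTW : MapsTo T W W)
    (hFT : ∀ x ∈ W, F (T x) = F x) (hC : IsCompact (W ∩ F ⁻¹' CP))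
    (htr : ∀ x ∈ W, F x ∈ Q → ∀ t ∈ Icc (0 : ℝ) 1,
      x + t • (T x - x) ∈ W ∧ dist (F (x + t • (T x - x))) (F x) < η) :
    ∀ x ∈ Zc (pullS F G) (W ∩ F ⁻¹' CP), ∀ y ∈ Zc (pullS F G) (W ∩ F ⁻¹' CP),
      form o h (W ∩ F ⁻¹' CP) (F ⁻¹' ΘP) (pull T x - x) y = 0 := by
  intro c hc y hy
  have hFa : ∀ z ∈ W, ContinuousAt F z := fun z hz => hF.continuousAt (hW.mem_nhds hz)
  have hTa : ∀ z ∈ W, ContinuousAt T z := fun z hz => hT.continuousAt (hW.mem_nhds hz)
  have hQ : Q ⊆ CP := fun z hz => interior_subset (he.sub z hz (Metric.mem_ball_self he.pos))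
  have hsub : W ∩ F ⁻¹' Q ⊆ W ∩ F ⁻¹' CP := fun z hz => ⟨hz.1, hQ hz.2⟩
  have hC' : IsCompact (W ∩ F ⁻¹' Q) := by
    have h1 : IsClosed ((W ∩ F ⁻¹' CP) ∩ F ⁻¹' Q) :=
      (hF.mono inter_subset_left).preimage_isClosed_of_isClosed hC.isClosed he.cpt.isClosed
    have h2 : (W ∩ F ⁻¹' CP) ∩ F ⁻¹' Q = W ∩ F ⁻¹' Q := by
      ext z
      exact ⟨fun hz => ⟨hz.1.1, hz.2⟩, fun hz => ⟨hsub hz, hz.2⟩⟩
    rw [h2] at h1
    exact hC.of_isClosed_subset h1 hsub
  have hfr : frontier (F ⁻¹' ΘP) ∩ (W ∩ F ⁻¹' CP) ⊆ interior (W ∩ F ⁻¹' Q) := by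
    rintro z ⟨hz, hzW, hzC⟩
    have h1 : F z ∈ frontier ΘP := Close2_frontier (hFa z hzW) hz
    have h2 : F z ∈ interior Q := he.fr ⟨h1, hzC⟩
    rw [mem_interior_iff_mem_nhds] at h2 ⊢
    exact inter_mem (hW.mem_nhds hzW) (hFa z hzW h2)
  have hcoc : ∀ z ∈ W ∩ F ⁻¹' CP, CocAt (pullS F G) z := fun z hz =>
    CocAt.pullS ⟨_, Metric.ball_mem_nhds _ he.pos, he.coc _ hz.2⟩ (hFa z hz.1)
  have ho' : ∀ a b, IsOrth h (pullS F G a b) := fun a b => ho _ _
  have hTc : pull T c ∈ Zc (pullS F G) (W ∩ F ⁻¹' CP) := by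
    have h0 : MapsTo T (W ∩ F ⁻¹' CP) (W ∩ F ⁻¹' CP) := by
      intro z hz
      refine ⟨hTW hz.1, ?_⟩
      have := hz.2
      simp only [mem_preimage] at this ⊢
      rwa [hFT z hz.1]
    have h1 : pull T c ∈ Zc (pullS T (pullS F G)) (W ∩ F ⁻¹' CP) :=
      pull_mem_Zc (fun z hz => hTa z hz.1) h0 hc
    intro z hz
    refine VanAt.of_sub (vanAt_delta_congr ?_ _) (h1 z hz)
    refine ⟨W, hW.mem_nhds hz.1, fun a ha b hb => ?_⟩
    simp only [pullS_apply, hFT a ha, hFT b hb]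
  rw [form_restrict o hC'.isClosed hC.isClosed hsub hfr hcoc ho' (sub_mem hTc hc) hy]
  refine form_Bd_left o ⟨hC', fun z hz => hfr ⟨hz.1, hsub hz.2⟩⟩ (fun z hz => hcoc z (hsub hz)) ho'
    ?_ (Zc_mono _ hsub hy)
  have hHc : ∀ t : ℝ, ∀ z ∈ W,
      ContinuousAt (fun q : ℝ × X => q.2 + q.1 • (T q.2 - q.2)) (t, z) := by
    intro t z hz
    have h1 : ContinuousAt (fun q : ℝ × X => T q.2) (t, z) :=
      ContinuousAt.comp (f := Prod.snd) (hTa z hz) continuousAt_snd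
    exact continuousAt_snd.add (continuousAt_fst.smul (h1.sub continuousAt_snd))
  obtain ⟨e, -, he'⟩ := homotopy (g := pullS F G) (fun t z => z + t • (T z - z)) (A₀ := ∅) hC'
    isCompact_empty (empty_subset _) (fun t _ z hz => hHc t z hz.1) (c := c)
    (by
      intro z hz
      have h1 : ∀ᶠ w in 𝓝 z, ∀ t ∈ Icc (0 : ℝ) 1,
          F (w + t • (T w - w)) ∈ Metric.ball (F z) η := by
        refine isCompact_Icc.eventually_forall_of_forall_eventually fun t ht => ?_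
        obtain ⟨h2, h3⟩ := htr z hz.1 hz.2 t ht
        have h4 : ContinuousAt (fun q : X × ℝ => q.1 + q.2 • (T q.1 - q.1)) (z, t) :=
          ContinuousAt.comp (f := Prod.swap) (x := (z, t))
            (g := fun q : ℝ × X => q.2 + q.1 • (T q.2 - q.2)) (hHc t z hz.1)
            continuous_swap.continuousAt
        have h5 : ContinuousAt (fun q : X × ℝ => F (q.1 + q.2 • (T q.1 - q.1))) (z, t) :=
          ContinuousAt.comp (g := F) (hFa _ h2) h4
        exact h5 (Metric.isOpen_ball.mem_nhds h3)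
      refine ⟨_, h1, F ⁻¹' Metric.ball (F z) η, ?_, fun t ht w hw => hw t ht⟩
      obtain ⟨k1, k2⟩ := he.coc _ (hQ hz.2)
      exact ⟨fun a ha => k1 _ ha, fun a ha b hb d hd => k2 _ ha _ hb _ hd⟩)
    (by
      intro t ht z hz
      obtain ⟨h2, h3⟩ := htr z hz.1 hz.2 t ht
      have h4 : F (z + t • (T z - z)) ∈ CP := interior_subset (he.sub _ hz.2 h3)
      exact hc _ ⟨h2, h4⟩)
    (fun _ _ _ hz => hz.elim)
  simp only [zero_smul, add_zero, one_smul, add_sub_cancel] at he'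
  have e0 : pull (fun z : X => z) c = c := pull_id c
  rw [e0] at he'
  refine mem_Bd.2 ⟨e, fun z hz => ?_⟩
  have h1 : VanAt (act (fun w => pullS F G w (T w)) (pull T c) - pull T c) z := by
    refine vanAt_act_sub ?_ _
    filter_upwards [hW.mem_nhds hz.1, hFa z hz.1 (Metric.ball_mem_nhds _ he.pos)] with w hw hw'
    rw [pullS_apply, hFT w hw]
    exact (he.coc _ (hQ hz.2)).1 _ hw'
  have h2 := (he' z hz).sub h1
  have e2 : pullS (fun z : X => z) (pullS F G) = pullS F G := rfl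
  rw [e2] at h2
  convert h2 using 1
  abel

end Crest.Agent.R217
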