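import Crest.Agent.R217.Close1
import Crest.Agent.R217.Close2

set_option autoImplicit false
set_option linter.unusedSectionVars false
open Set Filter Topology

namespace Crest.Agent.R217

/-! Pull-backs of a model hypersurface under invariant maps. -/

variable {X V : Type*} [AddCommGroup V] [Module ℝ V]

variable [FiniteDimensional ℝ V] [NormedAddCommGroup X] [NormedSpace ℝ X] [FiniteDimensional ℝ X]
  {o : Orient X} {p : ℕ} [NeZero p] {h : V →ₗ[ℝ] V →ₗ[ℝ] ℝ}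
  {ζ : AddChar (ZMod p) (Module.End ℝ V)} {G : Sys X V} {CP ΘP : Set X}

/-- Hint: uniform continuity on `[0,1] × Ch`, `exists_eta`, `sigT_close`. -/
theorem sigT_family (D : Dyn o p) (hf : IsForm h) (ho : ∀ x y, IsOrth h (G x y))
    (hζ : ∀ a, IsOrth h (ζ a)) (hc : ∀ x y a, G x y * ζ a = ζ a * G x y) (hA : Adm CP ΘP)
    (hG : ∀ y ∈ CP, CocAt G y) {Ch : Set X} (hCh : IsCompact Ch) (hW : D.W ⊆ Ch)
    (F : ℝ → X → X) (hF : ContinuousOn (fun q : ℝ × X => F q.1 q.2) (Icc 0 1 ×ˢ Ch))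
    (hT : ∀ t ∈ Icc (0 : ℝ) 1, ∀ x ∈ D.W, F t (D.T x) = F t x)
    (hprop : ∀ t ∈ Icc (0 : ℝ) 1, ∀ x ∈ Ch, F t x ∈ CP → x ∈ D.W) (a : ZMod p) :
    sigT D h ζ (pullS (F 1) G) (fun _ => a) (D.W ∩ F 1 ⁻¹' CP) (F 1 ⁻¹' ΘP) =
      sigT D h ζ (pullS (F 0) G) (fun _ => a) (D.W ∩ F 0 ⁻¹' CP) (F 0 ⁻¹' ΘP) := by
  obtain ⟨Q, η, he⟩ := exists_eta hA hG
  have hFt : ∀ t ∈ Icc (0 : ℝ) 1, ContinuousOn (F t) Ch := fun t ht =>
    hF.comp (f := fun x : X => (t, x)) (by fun_prop) fun x hx => ⟨ht, hx⟩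
  have hC : ∀ t ∈ Icc (0 : ℝ) 1, IsCompact (D.W ∩ F t ⁻¹' CP) := by
    intro t ht
    have e : D.W ∩ F t ⁻¹' CP = Ch ∩ F t ⁻¹' CP :=
      Subset.antisymm (inter_subset_inter_left _ hW) fun x hx => ⟨hprop t ht x hx.1 hx.2, hx.2⟩
    rw [e]
    exact hCh.of_isClosed_subset
      ((hFt t ht).preimage_isClosed_of_isClosed hCh.isClosed hA.cpt.isClosed) inter_subset_left
  obtain ⟨δ, hδ, hu⟩ := Metric.uniformContinuousOn_iff.1
    ((isCompact_Icc.prod hCh).uniformContinuousOn_of_continuous hF) η he.pos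
  have hs : ContinuousOn (fun t => sigT D h ζ (pullS (F t) G) (fun _ => a) (D.W ∩ F t ⁻¹' CP)
      (F t ⁻¹' ΘP)) (Icc (0 : ℝ) 1) := by
    refine Metric.continuousOn_iff.2 fun t ht ε hε => ⟨δ, hδ, fun t' ht' htt => ?_⟩
    rw [sigT_close D hf ho hζ hc hA he ((hFt t ht).mono hW) ((hFt t' ht').mono hW) (hT t ht)
      (hT t' ht') (hC t ht) (hC t' ht') (fun x hx => ?_) a, dist_self]
    · exact hε
    · refine hu (t, x) ⟨ht, hW hx⟩ (t', x) ⟨ht', hW hx⟩ ?_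
      rw [Prod.dist_eq, dist_self, dist_comm]
      exact max_lt htt hδ
  exact isPreconnected_Icc.constant hs (right_mem_Icc.2 zero_le_one) (left_mem_Icc.2 zero_le_one)

/-- Hint: `sigT_family` for `Dyn.trivial o 1 (ball 0 L)` with `L` large, `ζ = 1`,
`F t = scl (t • c) (1 - t + t * ρ) id`, and `sigT_trivial`. -/
theorem sig0_affine (o : Orient X) (hf : IsForm h) (ho : ∀ x y, IsOrth h (G x y))
    (hA : Adm CP ΘP) (hG : ∀ y ∈ CP, CocAt G y) (c : X) {ρ : ℝ} (hρ : 0 < ρ) :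
    sig0 o h (pullS (scl c ρ id) G) (scl c ρ id ⁻¹' CP) (scl c ρ id ⁻¹' ΘP) =
      sig0 o h G CP ΘP := by
  obtain ⟨R, hR0, hR⟩ := hA.cpt.isBounded.subset_closedBall_lt 0 0
  set L := ‖c‖ + (1 + ρ) * R + 1 with hL
  set F : ℝ → X → X := fun t => scl (t • c) (1 - t + t * ρ) id with hFdef
  have hpos : ∀ t ∈ Icc (0 : ℝ) 1, 0 < 1 - t + t * ρ := by
    intro t ht
    rcases eq_or_lt_of_le ht.2 with h1 | h1
    · rw [h1]; linarith
    · have := mul_nonneg ht.1 hρ.le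
      linarith
  have hprop : ∀ t ∈ Icc (0 : ℝ) 1, ∀ x, F t x ∈ CP → x ∈ Metric.ball (0 : X) L := by
    intro t ht x hx
    have h1 := hR hx
    have h2 := hpos t ht
    rw [mem_closedBall_zero_iff] at h1
    rw [mem_ball_zero_iff]
    have h3 : x = t • c + (1 - t + t * ρ) • F t x := by
      simp only [hFdef, scl, id, smul_smul, mul_inv_cancel₀ h2.ne', one_smul]; abel
    have h4 : ‖t • c‖ ≤ ‖c‖ := by
      rw [norm_smul, Real.norm_of_nonneg ht.1]
      exact mul_le_of_le_one_left (norm_nonneg _) ht.2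
    have h5 : ‖(1 - t + t * ρ) • F t x‖ ≤ (1 + ρ) * R := by
      rw [norm_smul, Real.norm_of_nonneg h2.le]
      have h6 := mul_le_of_le_one_left hρ.le ht.2
      exact mul_le_mul (by linarith [ht.1]) h1 (norm_nonneg _) (by linarith)
    have h6 := norm_add_le (t • c) ((1 - t + t * ρ) • F t x)
    rw [← h3] at h6
    linarith
  have hF : ContinuousOn (fun q : ℝ × X => F q.1 q.2) (Icc 0 1 ×ˢ Metric.closedBall 0 L) := by
    simp only [hFdef, scl, id]
    refine ContinuousOn.smul (ContinuousOn.inv₀ (by fun_prop) fun q hq => (hpos q.1 hq.1).ne') ?_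
    fun_prop
  have key := sigT_family (ζ := (1 : AddChar (ZMod 1) (Module.End ℝ V)))
    (Dyn.trivial o 1 (Metric.ball 0 L) Metric.isOpen_ball) hf ho (fun _ _ _ => rfl)
    (fun _ _ _ => by simp) hA hG (isCompact_closedBall 0 L) Metric.ball_subset_closedBall F hF
    (fun _ _ _ _ => rfl) (fun t ht x _ hx => hprop t ht x hx) 0
  rw [sigT_trivial, sigT_trivial] at key
  have e : ∀ t ∈ Icc (0 : ℝ) 1,
      (Dyn.trivial o 1 (Metric.ball 0 L) Metric.isOpen_ball).W ∩ F t ⁻¹' CP = F t ⁻¹' CP :=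
    fun t ht => inter_eq_right.2 fun x hx => hprop t ht x hx
  rw [e 1 (right_mem_Icc.2 zero_le_one), e 0 (left_mem_Icc.2 zero_le_one)] at key
  have e1 : F 1 = scl c ρ id := by simp [hFdef]
  have e0 : F 0 = id := by funext x; simp [hFdef, scl]
  rw [e1, e0] at key
  exact key

end Crest.Agent.R217
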