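import Crest.Agent.R217.Novikov

set_option autoImplicit false
set_option linter.unusedSectionVars false
open Set Filter Topology

namespace Crest.Agent.R217

/-! Pull-backs of a model hypersurface under invariant maps. -/

variable {X V : Type*} [AddCommGroup V] [Module ℝ V]

/-- Uniform scales of an admissible pair with a local system. -/
structure Eta [MetricSpace X] (G : Sys X V) (CP ΘP Q : Set X) (η : ℝ) : Prop where
  pos : 0 < η
  cpt : IsCompact Q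
  fr : frontier ΘP ∩ CP ⊆ interior Q
  sub : ∀ y ∈ Q, Metric.ball y η ⊆ interior CP
  far : ∀ y ∈ CP, ∀ y' ∈ frontier ΘP, dist y y' < η → y' ∈ interior Q
  side : ∀ y ∈ CP, y ∉ interior CP → Metric.ball y η ⊆ ΘP ∨ Metric.ball y η ⊆ ΘPᶜ
  coc : ∀ y ∈ CP, CocOn G (Metric.ball y η)

/-- Rescaling of a map. -/
noncomputable def scl [AddCommGroup X] [Module ℝ X] (c : X) (ρ : ℝ) (f : X → X) : X → X :=
  fun x => ρ⁻¹ • (f x - c)

variable [FiniteDimensional ℝ V] [NormedAddCommGroup X] [NormedSpace ℝ X] [FiniteDimensional ℝ X]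
  {o : Orient X} {p : ℕ} [NeZero p] {h : V →ₗ[ℝ] V →ₗ[ℝ] ℝ}
  {ζ : AddChar (ZMod p) (Module.End ℝ V)} {G : Sys X V} {CP ΘP : Set X}

theorem Close0_leb {Z : Type*} [MetricSpace Z] {S : Set Z} (hS : IsCompact S) (P : Set Z → Prop)
    (mono : ∀ N N', N' ⊆ N → P N → P N') (h : ∀ y ∈ S, ∃ N ∈ 𝓝 y, P N) :
    ∃ η > 0, ∀ η' ≤ η, ∀ y ∈ S, P (Metric.ball y η') := by
  obtain ⟨η, hη, H⟩ := lebesgue_number_lemma_of_metric (c := fun N : {N // P N} => interior N.1) hS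
    (fun _ => isOpen_interior) fun y hy => by
      obtain ⟨N, hN, hP⟩ := h y hy
      exact mem_iUnion.2 ⟨⟨N, hP⟩, mem_interior_iff_mem_nhds.2 hN⟩
  refine ⟨η, hη, fun η' hη' y hy => ?_⟩
  obtain ⟨N, hN⟩ := H y hy
  exact mono _ _ ((Metric.ball_subset_ball hη').trans (hN.trans interior_subset)) N.2

theorem exists_eta (hA : Adm CP ΘP) (hG : ∀ y ∈ CP, CocAt G y) :
    ∃ Q η, Eta G CP ΘP Q η := by
  have := FiniteDimensional.proper_real X
  obtain ⟨Q, hQ, h1, h2⟩ := exists_compact_between (hA.cpt.inter_left isClosed_frontier)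
    isOpen_interior hA.fr
  obtain ⟨η₁, p₁, H₁⟩ := Close0_leb hQ (fun N => N ⊆ interior CP) (fun _ _ a b => a.trans b)
    fun y hy => ⟨_, isOpen_interior.mem_nhds (h2 hy), subset_rfl⟩
  obtain ⟨η₂, p₂, H₂⟩ := Close0_leb hA.cpt (fun N => ∀ y' ∈ N, y' ∈ frontier ΘP → y' ∈ interior Q)
    (fun _ _ a b y hy => b y (a hy)) fun y hy => by
      by_cases hf : y ∈ frontier ΘP
      · exact ⟨_, isOpen_interior.mem_nhds (h1 ⟨hf, hy⟩), fun _ a _ => a⟩
      · exact ⟨_, isClosed_frontier.isOpen_compl.mem_nhds hf, fun _ a b => absurd b a⟩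
  obtain ⟨η₃, p₃, H₃⟩ := Close0_leb (hA.cpt.diff isOpen_interior : IsCompact (CP \ interior CP))
    (fun N => N ⊆ ΘP ∨ N ⊆ ΘPᶜ) (fun _ _ a b => b.imp a.trans a.trans) fun y hy => by
      rcases mem_nhds_or_compl_mem_nhds (S := ΘP) (fun hf => hy.2 (hA.fr ⟨hf, hy.1⟩)) with h | h
      exacts [⟨_, h, Or.inl subset_rfl⟩, ⟨_, h, Or.inr subset_rfl⟩]
  obtain ⟨η₄, p₄, H₄⟩ := Close0_leb hA.cpt (CocOn G) (fun _ _ a b => b.mono a) hG
  refine ⟨Q, min (min η₁ η₂) (min η₃ η₄), by positivity, hQ, h1,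
    H₁ _ ((min_le_left _ _).trans (min_le_left _ _)), fun y hy y' hy' hd => ?_, fun y hy hy' =>
    H₃ _ ((min_le_right _ _).trans (min_le_left _ _)) y ⟨hy, hy'⟩,
    H₄ _ ((min_le_right _ _).trans (min_le_right _ _))⟩
  exact H₂ _ ((min_le_left _ _).trans (min_le_right _ _)) y hy y' (Metric.mem_ball'.2 hd) hy'

theorem tw_pull (D : Dyn o p) (hf : IsForm h) (ho : ∀ x y, IsOrth h (G x y))
    (hζ : ∀ a, IsOrth h (ζ a)) (hc : ∀ x y a, G x y * ζ a = ζ a * G x y) (F : X → X)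
    (a : ZMod p) : Tw D h ζ (pullS F G) (fun _ => a) :=
  ⟨hf, fun _ _ => ho _ _, hζ, fun _ _ _ => hc _ _ _, fun _ _ => rfl⟩

theorem hyp_pull (D : Dyn o p) (hc : ∀ x y a, G x y * ζ a = ζ a * G x y) (hA : Adm CP ΘP)
    (hG : ∀ y ∈ CP, CocAt G y) {F : X → X} (hF : ContinuousOn F D.W)
    (hFT : ∀ x ∈ D.W, F (D.T x) = F x) (hC : IsCompact (D.W ∩ F ⁻¹' CP)) (a : ZMod p) :
    Hyp D ζ (pullS F G) (fun _ => a) (D.W ∩ F ⁻¹' CP) (F ⁻¹' ΘP) := by
  have hW : ∀ x ∈ D.W, D.W ∈ 𝓝 x := fun x hx => D.isOpen_W.mem_nhds hx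
  have hF' : ∀ x ∈ D.W, ContinuousAt F x := fun x hx => hF.continuousAt (hW x hx)
  have hit : ∀ (i : ℕ), ∀ y ∈ D.W, F (D.T^[i] y) = F y := fun i => by
    induction i with
    | zero => exact fun _ _ => rfl
    | succ i ih =>
      intro y hy
      rw [Function.iterate_succ_apply, ih _ (D.mapsTo hy), hFT y hy]
  refine ⟨⟨hC, fun x hx => ?_⟩, fun x hx => ⟨hx.1, (hG _ hx.2).pullS (hF' x hx.1), ?_⟩,
    fun x hx => ?_, fun x hx => ?_⟩
  · obtain ⟨hx1, hx2, hx3⟩ := hx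
    have hf : F x ∈ frontier ΘP := by
      by_contra hn
      rcases mem_nhds_or_compl_mem_nhds hn with h' | h'
      · exact hx1.2 (mem_interior_iff_mem_nhds.2 (hF' x hx2 h'))
      · rw [← frontier_compl] at hx1
        exact hx1.2 (mem_interior_iff_mem_nhds.2 (hF' x hx2 h'))
    exact mem_interior_iff_mem_nhds.2 (inter_mem (hW x hx2)
      (hF' x hx2 (mem_interior_iff_mem_nhds.1 (hA.fr ⟨hf, hx3⟩))))
  · obtain ⟨N, hN, hcoc⟩ := hG _ hx.2
    refine ⟨D.W ∩ F ⁻¹' N, inter_mem (hW x hx.1) (hF' x hx.1 hN), fun y hy z hz => ?_,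
      fun y hy i => ?_⟩
    · rw [pullS_apply, pullS_apply, hFT y hy.1, hFT z hz.1, hc]
    · rw [pullS_apply, hit i y hy.1]
      exact hcoc.1 _ hy.2
  · simp only [mem_inter_iff, mem_preimage, hFT x hx, D.mapsTo hx, hx]
  · simp only [mem_preimage, hFT x hx]

end Crest.Agent.R217
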