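import Crest.Agent.R217.Close0

set_option autoImplicit false
set_option linter.unusedSectionVars false
open Set Filter Topology

namespace Crest.Agent.R217

/-! Pull-backs of a model hypersurface under invariant maps. -/

variable {X V : Type*} [AddCommGroup V] [Module ℝ V]

variable [FiniteDimensional ℝ V] [NormedAddCommGroup X] [NormedSpace ℝ X] [FiniteDimensional ℝ X]
  {o : Orient X} {p : ℕ} [NeZero p] {h : V →ₗ[ℝ] V →ₗ[ℝ] ℝ}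
  {ζ : AddChar (ZMod p) (Module.End ℝ V)} {G : Sys X V} {CP ΘP : Set X}

theorem Close1_interior {W S : Set X} (hW : IsOpen W) {F : X → X} (hF : ContinuousOn F W) {x : X}
    (hx : x ∈ W) (hS : F x ∈ interior S) : x ∈ interior (W ∩ F ⁻¹' S) :=
  mem_interior_iff_mem_nhds.2 (inter_mem (hW.mem_nhds hx)
    ((hF.continuousAt (hW.mem_nhds hx)).preimage_mem_nhds (mem_interior_iff_mem_nhds.1 hS)))

theorem Close1_frontier {W S : Set X} (hW : IsOpen W) {F : X → X} (hF : ContinuousOn F W) {x : X}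
    (hx : x ∈ W) (hS : x ∈ frontier (F ⁻¹' S)) : F x ∈ frontier S :=
  ⟨closure_mono (image_preimage_subset F S)
      (mem_closure_image (hF.continuousAt (hW.mem_nhds hx)) hS.1),
    fun h => hS.2 (interior_mono inter_subset_right (Close1_interior hW hF hx h))⟩

/-- Close maps give the same signature.  With `C_i = W ∩ F_i ⁻¹' CP`, `Θ_i = F_i ⁻¹' ΘP`,
`C' = W ∩ F₁ ⁻¹' Q`:  `s(g₁, C₁, Θ₁) = s(g₁, C', Θ₁)` (`novikov`) `= s(g₀, C', Θ₁)` (`sigT_gauge`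
with `γ x = G (F₁ x) (F₀ x)`, `γ' x = G (F₀ x) (F₁ x)`) `= s(g₀, C₀, Θ₁)` (`novikov`, using
`Eta.far`) `= s(g₀, C₀, Θ₀)` (`sigT_move`, using `Eta.side`). -/
theorem sigT_close (D : Dyn o p) (hf : IsForm h) (ho : ∀ x y, IsOrth h (G x y))
    (hζ : ∀ a, IsOrth h (ζ a)) (hc : ∀ x y a, G x y * ζ a = ζ a * G x y) (hA : Adm CP ΘP)
    {Q : Set X} {η : ℝ} (he : Eta G CP ΘP Q η) {F₀ F₁ : X → X} (hF₀ : ContinuousOn F₀ D.W)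
    (hF₁ : ContinuousOn F₁ D.W) (hT₀ : ∀ x ∈ D.W, F₀ (D.T x) = F₀ x)
    (hT₁ : ∀ x ∈ D.W, F₁ (D.T x) = F₁ x) (hC₀ : IsCompact (D.W ∩ F₀ ⁻¹' CP))
    (hC₁ : IsCompact (D.W ∩ F₁ ⁻¹' CP)) (hd : ∀ x ∈ D.W, dist (F₀ x) (F₁ x) < η) (a : ZMod p) :
    sigT D h ζ (pullS F₁ G) (fun _ => a) (D.W ∩ F₁ ⁻¹' CP) (F₁ ⁻¹' ΘP) =
      sigT D h ζ (pullS F₀ G) (fun _ => a) (D.W ∩ F₀ ⁻¹' CP) (F₀ ⁻¹' ΘP) := by
  have hW := D.isOpen_W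
  have hG : ∀ y ∈ CP, CocAt G y := fun y hy => ⟨_, Metric.ball_mem_nhds y he.pos, he.coc y hy⟩
  have hQ : Q ⊆ CP := fun y hy => interior_subset (he.sub y hy (Metric.mem_ball_self he.pos))
  have H₀ := hyp_pull (ζ := ζ) D hc hA hG hF₀ hT₀ hC₀ a
  have H₁ := hyp_pull (ζ := ζ) D hc hA hG hF₁ hT₁ hC₁ a
  have s₁ : D.W ∩ F₁ ⁻¹' Q ⊆ D.W ∩ F₁ ⁻¹' CP := fun x hx => ⟨hx.1, hQ hx.2⟩
  have s₀ : D.W ∩ F₁ ⁻¹' Q ⊆ D.W ∩ F₀ ⁻¹' CP := fun x hx =>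
    ⟨hx.1, interior_subset (s := CP) (he.sub _ hx.2 (hd x hx.1))⟩
  have hC' : IsCompact (D.W ∩ F₁ ⁻¹' Q) := by
    have h1 := (hF₁.mono inter_subset_left).preimage_isClosed_of_isClosed hC₁.isClosed
      he.cpt.isClosed
    refine hC₁.of_isClosed_subset ?_ s₁
    convert h1 using 1
    ext x
    exact ⟨fun hx => ⟨s₁ hx, hx.2⟩, fun hx => ⟨hx.1.1, hx.2⟩⟩
  have hinv : InvS D.W D.T (D.W ∩ F₁ ⁻¹' Q) := fun x hx => by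
    simp only [mem_inter_iff, mem_preimage, hT₁ x hx, hx, D.mapsTo hx]
  have f₀ : frontier (F₁ ⁻¹' ΘP) ∩ (D.W ∩ F₀ ⁻¹' CP) ⊆ interior (D.W ∩ F₁ ⁻¹' Q) := fun x hx =>
    Close1_interior hW hF₁ hx.2.1
      (he.far _ hx.2.2 _ (Close1_frontier hW hF₁ hx.2.1 hx.1) (hd x hx.2.1))
  have e₁ := (novikov (tw_pull D hf ho hζ hc F₁ a) H₁ hC' hinv s₁ fun x hx =>
    Close1_interior hW hF₁ hx.2.1 (he.fr ⟨Close1_frontier hW hF₁ hx.2.1 hx.1, hx.2.2⟩)).2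
  have H' : Hyp D ζ (pullS F₀ G) (fun _ => a) (D.W ∩ F₀ ⁻¹' CP) (F₁ ⁻¹' ΘP) :=
    ⟨⟨hC₀, f₀.trans (interior_mono s₀)⟩, H₀.good, H₀.invC, H₁.invΘ⟩
  have e₃ := (novikov (tw_pull D hf ho hζ hc F₀ a) H' hC' hinv s₀ f₀).2
  have e₂ : sigT D h ζ (pullS F₁ G) (fun _ => a) (D.W ∩ F₁ ⁻¹' Q) (F₁ ⁻¹' ΘP) =
      sigT D h ζ (pullS F₀ G) (fun _ => a) (D.W ∩ F₁ ⁻¹' Q) (F₁ ⁻¹' ΘP) := by
    refine sigT_gauge hC' inter_subset_left hinv (fun x => G (F₁ x) (F₀ x))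
      (fun x => G (F₀ x) (F₁ x)) (fun x => ho _ _) fun x hx => ?_
    obtain ⟨c₁, c₂⟩ := he.coc (F₁ x) (hQ hx.2)
    have hxW := hW.mem_nhds hx.1
    refine ⟨D.W ∩ (F₀ ⁻¹' Metric.ball (F₁ x) η ∩ F₁ ⁻¹' Metric.ball (F₁ x) η),
      inter_mem hxW (inter_mem
        ((hF₀.continuousAt hxW).preimage_mem_nhds (Metric.isOpen_ball.mem_nhds (hd x hx.1)))
        ((hF₁.continuousAt hxW).preimage_mem_nhds (Metric.ball_mem_nhds _ he.pos))),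
      fun y hy z hz => ?_, fun y hy => ⟨?_, ?_, ?_⟩⟩
    · exact (c₂ _ hy.2.2 _ hz.2.2 _ hz.2.1).trans (c₂ _ hy.2.2 _ hy.2.1 _ hz.2.1).symm
    · rw [c₂ _ hy.2.2 _ hy.2.1 _ hy.2.2, c₁ _ hy.2.2]
    · rw [c₂ _ hy.2.1 _ hy.2.2 _ hy.2.1, c₁ _ hy.2.1]
    · rw [hT₀ y hy.1, hT₁ y hy.1, hc]
  have e₄ : sigT D h ζ (pullS F₀ G) (fun _ => a) (D.W ∩ F₀ ⁻¹' CP) (F₁ ⁻¹' ΘP) =
      sigT D h ζ (pullS F₀ G) (fun _ => a) (D.W ∩ F₀ ⁻¹' CP) (F₀ ⁻¹' ΘP) := by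
    refine sigT_move hC₀ fun x hx hx' => ?_
    have hxW := hW.mem_nhds hx.1
    have b₀ := (hF₀.continuousAt hxW).preimage_mem_nhds (Metric.ball_mem_nhds _ he.pos)
    have b₁ := (hF₁.continuousAt hxW).preimage_mem_nhds
      (Metric.isOpen_ball.mem_nhds (Metric.mem_ball'.2 (hd x hx.1)))
    rcases he.side _ hx.2 (fun h' => hx' (Close1_interior hW hF₀ hx.1 h')) with hs | hs
    · filter_upwards [b₀, b₁] with y h₀ h₁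
      exact iff_of_true (hs h₁) (hs h₀)
    · filter_upwards [b₀, b₁] with y h₀ h₁
      exact iff_of_false (hs h₁) (hs h₀)
  rw [e₁, e₂, ← e₃, e₄]

/-- Non-equivariant closeness on an open set `W`. -/
theorem sig0_close (o : Orient X) (hf : IsForm h) (ho : ∀ x y, IsOrth h (G x y)) (hA : Adm CP ΘP)
    {Q : Set X} {η : ℝ} (he : Eta G CP ΘP Q η) {W : Set X} (hW : IsOpen W) {F₀ F₁ : X → X}
    (hF₀ : ContinuousOn F₀ W) (hF₁ : ContinuousOn F₁ W) (hC₀ : IsCompact (W ∩ F₀ ⁻¹' CP))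
    (hC₁ : IsCompact (W ∩ F₁ ⁻¹' CP)) (hd : ∀ x ∈ W, dist (F₀ x) (F₁ x) < η) :
    sig0 o h (pullS F₁ G) (W ∩ F₁ ⁻¹' CP) (F₁ ⁻¹' ΘP) =
      sig0 o h (pullS F₀ G) (W ∩ F₀ ⁻¹' CP) (F₀ ⁻¹' ΘP) := by
  have : ProperSpace X := FiniteDimensional.proper_real X
  have h1 := sigT_close (ζ := (1 : AddChar (ZMod 1) (Module.End ℝ V))) (Dyn.trivial o 1 W hW) hf ho
    (fun a u v => by simp) (fun x y a => by simp) hA he hF₀ hF₁ (fun _ _ => rfl) (fun _ _ => rfl)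
    hC₀ hC₁ hd 0
  rwa [sigT_trivial, sigT_trivial] at h1

end Crest.Agent.R217
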