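import Crest.Agent.R217.Free
import Crest.Agent.R217.Close

set_option autoImplicit false
set_option linter.unusedSectionVars false
open Set Filter Topology

namespace Crest.Agent.R217

/-! The fixed point theorem. -/

variable {X V : Type*} [AddCommGroup V] [Module ℝ V] [FiniteDimensional ℝ V]

/-- Hint: `ζ a = cos (2 π a.val / p) • 1 + sin (2 π a.val / p) • I`. -/
theorem exists_zeta {h : V →ₗ[ℝ] V →ₗ[ℝ] ℝ} {I : Module.End ℝ V} (hI : I * I = -1)
    (ho : IsOrth h I) {p : ℕ} (hp : p.Prime) :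
    ∃ ζ : AddChar (ZMod p) (Module.End ℝ V), (∀ a, IsOrth h (ζ a)) ∧
      (∀ a (f : Module.End ℝ V), f * I = I * f → f * ζ a = ζ a * f) ∧
      Function.Injective (ζ 1 - 1 : Module.End ℝ V) := by
  have : NeZero p := ⟨hp.ne_zero⟩
  have : Fact p.Prime := ⟨hp⟩
  let Φ : ℂ →ₐ[ℝ] Module.End ℝ V := Complex.liftAux I hI
  have hΦ : ∀ z : ℂ, Φ z = z.re • (1 : Module.End ℝ V) + z.im • I := by
    intro z
    simp only [Φ, Complex.liftAux_apply, Algebra.algebraMap_eq_smul_one]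
  have hII : ∀ u, I (I u) = -u := fun u => by
    have := LinearMap.congr_fun hI u
    simpa using this
  have hskew : ∀ u v, h (I u) v = - h u (I v) := fun u v => by
    have := ho (I u) v
    rw [hII] at this
    rw [← this]; simp
  refine ⟨(Φ : ℂ →* Module.End ℝ V).compAddChar (ZMod.stdAddChar (N := p)), ?_, ?_, ?_⟩
  · intro a u v
    have hn : ‖ZMod.stdAddChar (N := p) a‖ = 1 := by
      rw [ZMod.stdAddChar_apply]; exact Circle.norm_coe _
    set z := ZMod.stdAddChar (N := p) a with hz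
    have hsq : z.re * z.re + z.im * z.im = 1 := by
      have := Complex.normSq_eq_norm_sq z
      rw [hn, Complex.normSq_apply] at this
      simpa using this
    change h (Φ z u) (Φ z v) = h u v
    rw [hΦ]
    simp only [LinearMap.add_apply, LinearMap.smul_apply, Module.End.one_apply, map_add, map_smul,
      smul_eq_mul, ho u v, hskew u v]
    linear_combination (h u v) * hsq
  · intro a f hf
    change f * Φ _ = Φ _ * f
    rw [hΦ]
    simp only [mul_add, add_mul, mul_smul_comm, smul_mul_assoc, mul_one, one_mul, hf]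
  · have hne : ZMod.stdAddChar (N := p) 1 - 1 ≠ 0 := by
      intro h0
      have h1 : ZMod.stdAddChar (N := p) 1 = ZMod.stdAddChar (N := p) 0 := by
        rw [AddChar.map_zero_eq_one]; exact sub_eq_zero.1 h0
      exact one_ne_zero (ZMod.injective_stdAddChar h1)
    have h1 : Φ (ZMod.stdAddChar (N := p) 1 - 1)⁻¹ * (Φ (ZMod.stdAddChar (N := p) 1) - 1) = 1 := by
      rw [← map_one Φ, ← map_sub, ← map_mul, inv_mul_cancel₀ hne]
    change Function.Injective (Φ (ZMod.stdAddChar (N := p) 1) - 1 : Module.End ℝ V)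
    intro u v huv
    have h2 := LinearMap.congr_fun h1 u
    have h3 := LinearMap.congr_fun h1 v
    rw [Module.End.mul_apply, Module.End.one_apply] at h2 h3
    rw [← h2, ← h3, huv]

variable [NormedAddCommGroup X] [NormedSpace ℝ X] [FiniteDimensional ℝ X]

theorem Core_eq_of_scl (c : X) {ρ : ℝ} (hρ : 0 < ρ) (f : X → X) (x : X) :
    f x = c + ρ • scl c ρ f x := by
  simp only [scl, smul_smul, mul_inv_cancel₀ hρ.ne', one_smul]; abel

theorem Core_mem_closedBall (c : X) {ρ R : ℝ} (hρ : 0 < ρ) {w : X}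
    (hw : w ∈ Metric.closedBall (0 : X) R) : c + ρ • w ∈ Metric.closedBall c (ρ * R) := by
  rw [mem_closedBall_iff_norm, add_sub_cancel_left, norm_smul, Real.norm_of_nonneg hρ.le]
  exact mul_le_mul_of_nonneg_left (mem_closedBall_zero_iff.1 hw) hρ.le

theorem Core_compact {W Ch CP : Set X} (hCh : IsCompact Ch) (hW : W ⊆ Ch) (hCP : IsCompact CP)
    {F : X → X} (hF : ContinuousOn F Ch) (hprop : ∀ x ∈ Ch, F x ∈ CP → x ∈ W) :
    IsCompact (W ∩ F ⁻¹' CP) := by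
  have h1 : W ∩ F ⁻¹' CP = Ch ∩ F ⁻¹' CP := by
    ext x
    exact ⟨fun hx => ⟨hW hx.1, hx.2⟩, fun hx => ⟨hprop x hx.1 hx.2, hx.2⟩⟩
  rw [h1]
  exact hCh.of_isClosed_subset (hF.preimage_isClosed_of_isClosed hCh.isClosed hCP.isClosed)
    inter_subset_left

/-- Let `a(F, i)` be the signature of the pull-back by `F` twisted by `i`.  At `F₀ = scl c₀ ρ₀ f`,
`a(F₀, 0) ≠ 0 = a(F₀, 1)` (`sigT_zero_of_triv`, `sigT_const_of_triv`).  For `y ∈ ball c r` and
small `ρ₁`, `sigT_family` along `scl (c₀ + t • (y - c₀)) (ρ₀ + t * (ρ₁ - ρ₀)) f` transports this to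
`scl y ρ₁ f`, so `sigT_const_of_free` yields a fixed point `x ∈ W` with
`x = f x ∈ closedBall y (ρ₁ * R)`.  Let `ρ₁ → 0`: `y ∈ Ch`, `f y = y`, so `y ∈ W` and `T y = y`. -/
theorem core {o : Orient X} {h : V →ₗ[ℝ] V →ₗ[ℝ] ℝ} {I : Module.End ℝ V} {G : Sys X V}
    {CP ΘP : Set X} (hM : IsModel o h I G CP ΘP) {R : ℝ} (hR0 : 0 < R)
    (hR : CP ⊆ Metric.closedBall 0 R) {p : ℕ} (hp : p.Prime) (D : Dyn o p) {Ch : Set X}
    (hCh : IsCompact Ch) (hW : D.W ⊆ Ch) {f : X → X} (hf : ContinuousOn f Ch)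
    (hinv : ∀ x ∈ D.W, f (D.T x) = f x) (hfix : ∀ x ∈ D.W, D.T x = x → f x = x) {c : X} {r : ℝ}
    (hout : ∀ x ∈ Ch, f x ∈ Metric.ball c r → x ∈ D.W) {c₀ : X} {ρ₀ : ℝ} (hρ : 0 < ρ₀)
    (hin : Metric.closedBall c₀ (ρ₀ * R) ⊆ Metric.ball c r)
    (hT : ∀ x ∈ Zc (pullS (scl c₀ ρ₀ f) G) (D.W ∩ scl c₀ ρ₀ f ⁻¹' CP),
      ∀ y ∈ Zc (pullS (scl c₀ ρ₀ f) G) (D.W ∩ scl c₀ ρ₀ f ⁻¹' CP),
        form o h (D.W ∩ scl c₀ ρ₀ f ⁻¹' CP) (scl c₀ ρ₀ f ⁻¹' ΘP) (pull D.T x - x) y = 0)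
    (hs : sig0 o h (pullS (scl c₀ ρ₀ f) G) (D.W ∩ scl c₀ ρ₀ f ⁻¹' CP) (scl c₀ ρ₀ f ⁻¹' ΘP) ≠ 0) :
    ∀ y ∈ Metric.ball c r, y ∈ D.W ∧ D.T y = y := by
  have : NeZero p := ⟨hp.ne_zero⟩
  obtain ⟨ζ, hζ, hζc, hζi⟩ := exists_zeta hM.I_sq hM.I_orth hp
  have hc : ∀ x y a, G x y * ζ a = ζ a * G x y := fun x y a => hζc a _ (hM.comm x y)
  intro y hy
  -- fixed points close to `y`
  have key : ∀ ρ₁ : ℝ, 0 < ρ₁ → Metric.closedBall y (ρ₁ * R) ⊆ Metric.ball c r →
      ∃ x ∈ D.W, D.T x = x ∧ x ∈ Metric.closedBall y (ρ₁ * R) := by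
    intro ρ₁ hρ₁ hin₁
    let F : ℝ → X → X := fun t => scl (c₀ + t • (y - c₀)) (ρ₀ + t * (ρ₁ - ρ₀)) f
    have hF0 : F 0 = scl c₀ ρ₀ f := by simp [F]
    have hF1 : F 1 = scl y ρ₁ f := by simp [F]
    have hpos : ∀ t ∈ Icc (0 : ℝ) 1, 0 < ρ₀ + t * (ρ₁ - ρ₀) := by
      intro t ht
      rcases le_total ρ₀ ρ₁ with h1 | h1
      · have := mul_nonneg ht.1 (sub_nonneg.2 h1)
        linarith
      · have := mul_nonneg (sub_nonneg.2 ht.2) (sub_nonneg.2 h1)
        nlinarith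
    have hFc : ContinuousOn (fun q : ℝ × X => F q.1 q.2) (Icc 0 1 ×ˢ Ch) := by
      simp only [F, scl]
      refine ContinuousOn.smul (ContinuousOn.inv₀ (by fun_prop) fun q hq => (hpos q.1 hq.1).ne') ?_
      refine ContinuousOn.sub (hf.comp continuousOn_snd fun q hq => hq.2) (by fun_prop)
    have hFt : ∀ t ∈ Icc (0 : ℝ) 1, ContinuousOn (F t) Ch := by
      intro t ht
      exact hFc.comp (f := fun x : X => (t, x)) (by fun_prop) fun x hx => ⟨ht, hx⟩
    have hFT : ∀ t ∈ Icc (0 : ℝ) 1, ∀ x ∈ D.W, F t (D.T x) = F t x := by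
      intro t _ x hx
      simp only [F, scl, hinv x hx]
    have hprop : ∀ t ∈ Icc (0 : ℝ) 1, ∀ x ∈ Ch, F t x ∈ CP → x ∈ D.W := by
      intro t ht x hx hxC
      refine hout x hx ?_
      have hw := hR hxC
      have e1 := Core_eq_of_scl (c₀ + t • (y - c₀)) (hpos t ht) f x
      have h0 := hin (Core_mem_closedBall c₀ hρ hw)
      have h1 := hin₁ (Core_mem_closedBall y hρ₁ hw)
      have h2 := convex_ball c r h0 h1 (sub_nonneg.2 ht.2) ht.1 (by ring)
      rw [e1]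
      convert h2 using 1
      change _ + _ • F t x = _
      module
    have hTw : ∀ t a, Tw D h ζ (pullS (F t) G) (fun _ => a) := fun t a =>
      tw_pull D hM.form hM.orth hζ hc (F t) a
    have hHyp : ∀ t ∈ Icc (0 : ℝ) 1, ∀ a,
        Hyp D ζ (pullS (F t) G) (fun _ => a) (D.W ∩ F t ⁻¹' CP) (F t ⁻¹' ΘP) := fun t ht a =>
      hyp_pull D hc hM.adm hM.coc ((hFt t ht).mono hW) (hFT t ht)
        (Core_compact hCh hW hM.adm.cpt (hFt t ht) (hprop t ht)) a
    have hfam := sigT_family D hM.form hM.orth hζ hc hM.adm hM.coc hCh hW F hFc hFT hprop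
    have h0 : (0 : ℝ) ∈ Icc (0 : ℝ) 1 := ⟨le_rfl, zero_le_one⟩
    have h1 : (1 : ℝ) ∈ Icc (0 : ℝ) 1 := ⟨zero_le_one, le_rfl⟩
    rw [← hF0] at hT hs
    have a0 := sigT_zero_of_triv (hTw 0 0) (hHyp 0 h0 0) hT
    have a1 := sigT_const_of_triv (hTw 0 1) (hHyp 0 h0 1) hζi hT
    by_contra hcon
    have hfree : ∀ x ∈ frontier (F 1 ⁻¹' ΘP) ∩ (D.W ∩ F 1 ⁻¹' CP), D.T x ≠ x := by
      intro x hx hxT
      refine hcon ⟨x, hx.2.1, hxT, ?_⟩
      have hw : scl y ρ₁ f x ∈ Metric.closedBall (0 : X) R := by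
        rw [← hF1]; exact hR hx.2.2
      have e1 := Core_eq_of_scl y hρ₁ f x
      rw [hfix x hx.2.1 hxT] at e1
      rw [e1]
      exact Core_mem_closedBall y hρ₁ hw
    have a2 := sigT_const_of_free (hTw 1 0) (hHyp 1 h1 0) hfree 1
    simp only [zero_add] at a2
    rw [hfam 1, hfam 0, a0, a1] at a2
    exact hs a2.symm
  -- `y` is in the closure of the fixed points
  have hcl : y ∈ closure {x | x ∈ D.W ∧ D.T x = x} := by
    rw [Metric.mem_closure_iff]
    intro ε hε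
    have hy' : 0 < r - dist y c := sub_pos.2 (Metric.mem_ball.1 hy)
    have hm : 0 < min ε (r - dist y c) := lt_min hε hy'
    have e : min ε (r - dist y c) / 2 / R * R = min ε (r - dist y c) / 2 := by field_simp
    obtain ⟨x, hxW, hxT, hxy⟩ := key (min ε (r - dist y c) / 2 / R) (by positivity) (by
      rw [e]
      refine Metric.closedBall_subset_ball' ?_
      have := min_le_right ε (r - dist y c)
      linarith)
    rw [e] at hxy
    refine ⟨x, ⟨hxW, hxT⟩, ?_⟩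
    have := min_le_left ε (r - dist y c)
    rw [dist_comm]
    have := Metric.mem_closedBall.1 hxy
    linarith
  have hsub : {x | x ∈ D.W ∧ D.T x = x} ⊆ Ch := fun x hx => hW hx.1
  have hyCh : y ∈ Ch := closure_minimal hsub hCh.isClosed hcl
  have hne : (𝓝[{x | x ∈ D.W ∧ D.T x = x}] y).NeBot := mem_closure_iff_nhdsWithin_neBot.1 hcl
  have hid : Tendsto (fun x : X => x) (𝓝[{x | x ∈ D.W ∧ D.T x = x}] y) (𝓝 y) :=
    tendsto_nhdsWithin_of_tendsto_nhds tendsto_id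
  have hfy : f y = y := by
    refine tendsto_nhds_unique ((hf y hyCh).mono hsub) (hid.congr' ?_)
    filter_upwards [self_mem_nhdsWithin] with x hx
    exact (hfix x hx.1 hx.2).symm
  have hyW : y ∈ D.W := hout y hyCh (by rw [hfy]; exact hy)
  refine ⟨hyW, ?_⟩
  refine tendsto_nhds_unique ((D.cont y hyW).mono (fun x (hx : x ∈ {x | x ∈ D.W ∧ D.T x = x}) =>
    hx.1)) (hid.congr' ?_)
  filter_upwards [self_mem_nhdsWithin] with x hx
  exact hx.2.symm

end Crest.Agent.R217
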