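import Crest.Agent.R217.Triple

set_option autoImplicit false
set_option linter.unusedSectionVars false
open Set Filter Topology

namespace Crest.Agent.R217

/-! The intersection form of one sheet. -/

variable {X V : Type*} [AddCommGroup V] [Module ℝ V] [MetricSpace X]

/-- With `α = ε δ (σ c)`: `⟨δ σ c, δ λ c'⟩ ≡ δ ⟨α, λ c'⟩` (`vanAt_pair_delta_right`),
`⟨α, λ c'⟩ - λ ⟨α, c'⟩` lives over `(0, 0)`, `⟨α, c'⟩ ≡ δ ⟨σ c, c'⟩` (`vanAt_leibniz`),
`η = ⟨σ c, c'⟩ - σ ⟨c, c'⟩` lives on the wall and `δ λ δ η ≡ δ (λ δ η - δ (λ η))`.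
Use `flux_congr`, `flux_delta`, `flux_triple`. -/
theorem flux_pair_cross {o : Orient X} {o' : Orient (X × ℝ × ℝ)} (hoo : IsSusp2 o o')
    {h : V →ₗ[ℝ] V →ₗ[ℝ] ℝ} {g : Sys X V} (ho : ∀ x y, IsOrth h (g x y)) {K₀ Θ₀ : Set X}
    (hA : Adm K₀ Θ₀) (hg : ∀ x ∈ K₀, CocAt g x) {S : Set (ℝ × ℝ)} (hS : IsCompact S)
    (hS0 : S ∈ 𝓝 (0 : ℝ × ℝ)) {c c' : Coch X V} (hc : c ∈ Zc g K₀) (hc' : c' ∈ Zc g K₀) :
    flux o' (K₀ ×ˢ S) (Θ₀ ×ˢ univ) (pair h
      (delta (pullS Prod.fst g) (cut {q : X × ℝ × ℝ | 0 < q.2.2} (pull Prod.fst c)))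
      (delta (pullS Prod.fst g) (cut {q : X × ℝ × ℝ | 0 < q.2.1} (pull Prod.fst c')))) =
      form o h K₀ Θ₀ c c' := by
  set θ : Set (X × ℝ × ℝ) := Θ₀ ×ˢ univ with hθ
  set lam : Set (X × ℝ × ℝ) := {q | 0 < q.2.1} with hlam
  set sg : Set (X × ℝ × ℝ) := {q | 0 < q.2.2} with hsg
  set g' : Sys (X × ℝ × ℝ) V := pullS Prod.fst g with hg'
  set U : Coch (X × ℝ × ℝ) V := pull Prod.fst c with hU
  set U' : Coch (X × ℝ × ℝ) V := pull Prod.fst c' with hU'
  have ho' : ∀ x y, IsOrth h (g' x y) := fun x y => ho _ _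
  have hcoc : ∀ q : X × ℝ × ℝ, q.1 ∈ K₀ → CocAt g' q := fun q hq =>
    (hg _ hq).pullS continuous_fst.continuousAt
  have hdU : ∀ q : X × ℝ × ℝ, q.1 ∈ K₀ → VanAt (delta g' U) q := by
    intro q hq
    rw [hU, hg', delta_pull]
    exact (hc _ hq).pull continuous_fst.continuousAt
  have hdU' : ∀ q : X × ℝ × ℝ, q.1 ∈ K₀ → VanAt (delta g' U') q := by
    intro q hq
    rw [hU', hg', delta_pull]
    exact (hc' _ hq).pull continuous_fst.continuousAt
  set β := delta g' (cut sg U) with hβ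
  have hdβ : ∀ q : X × ℝ × ℝ, q.1 ∈ K₀ → VanAt (delta g' β) q := fun q hq =>
    vanAt_delta_delta (hcoc q hq) _
  have hβ0 : ∀ q : X × ℝ × ℝ, q.1 ∈ K₀ → q.2.2 ≠ 0 → VanAt β q := fun q hq h0 =>
    vanAt_delta_cut_of_cocycle (Triple_fr2 h0) (hdU q hq)
  have hC : IsCompact (K₀ ×ˢ S) := hA.cpt.prod hS
  -- flux of coboundaries living over the origin
  have key : ∀ a : Coch (X × ℝ × ℝ) ℝ,
      (∀ q : X × ℝ × ℝ, q.1 ∈ K₀ → (q.2.1 ≠ 0 ∨ q.2.2 ≠ 0) → VanAt a q) →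
      flux o' (K₀ ×ˢ S) θ (delta 1 a) = 0 := by
    intro a ha
    apply flux_delta o' hC
    rintro q ⟨⟨hq1, hq2⟩, hqC⟩
    rw [interior_prod_eq]
    have h1 : q.1 ∈ frontier Θ₀ := by
      by_contra h
      exact Triple_fr0 h hq1
    have h0 : q.2 = 0 := by
      by_contra h
      exact hq2 (ha q hqC.1 (Triple_ne h))
    exact ⟨hA.fr ⟨h1, hqC.1⟩, by rw [h0]; exact mem_interior_iff_mem_nhds.2 hS0⟩
  set u : Coch (X × ℝ × ℝ) ℝ := pair h U U' with hu
  set η := pair h (cut sg U) U' - cut sg u with hη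
  have k1 := key (pair h (eps β) (cut lam U') - cut lam (pair h (eps β) U')) (by
    intro q hq h0
    rcases h0 with h0 | h0
    · exact vanAt_pair_cut_right (Triple_fr1 h0) _ _ _
    · have := (hβ0 q hq h0).eps
      exact (this.pair_left _ _).sub ((this.pair_left _ _).cut _))
  have k2 := key (delta 1 (cut lam η) - cut lam (delta 1 η)) (by
    intro q hq h0
    rcases h0 with h0 | h0
    · exact vanAt_delta_cut (Triple_fr1 h0) _ _
    · have hv : VanAt η q := vanAt_pair_cut_left (Triple_fr2 h0) _ _ _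
      exact ((hv.cut _).delta _).sub ((hv.delta _).cut _))
  have k3 : flux o' (K₀ ×ˢ S) θ (pair h β (delta g' (cut lam U'))) =
      flux o' (K₀ ×ˢ S) θ (delta 1 (pair h (eps β) (cut lam U'))) :=
    flux_congr o' hC.isClosed θ fun q hq =>
      vanAt_pair_delta_right (hcoc q hq.1) ho' _ (hdβ q hq.1)
  have k4 : flux o' (K₀ ×ˢ S) θ (delta 1 (cut lam (pair h (eps β) U'))) =
      flux o' (K₀ ×ˢ S) θ (delta 1 (cut lam (delta 1 (pair h (cut sg U) U')))) := by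
    apply flux_congr o' hC.isClosed θ
    intro q hq
    have e1 := vanAt_leibniz (hcoc q hq.1) ho' (cut sg U) U'
    have e2 := (hdU' q hq.1).pair_right h (eps (cut sg U))
    have e3 := (((e1.add e2).neg).cut lam).delta 1
    convert e3 using 1
    simp only [map_sub, map_add, map_neg, hβ]
    abel
  have hu' : pair h c c' ∈ Zc 1 K₀ := pair_mem_Zc hg ho hc hc'
  have k5 := flux_triple hoo hA hS hS0 hu'
  rw [pull_pair] at k5
  change flux o' (K₀ ×ˢ S) θ (delta 1 (cut lam (delta 1 (cut sg u)))) = _ at k5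
  rw [form_apply, ← k5, k3]
  simp only [hη, map_sub, delta_one_delta_one, map_neg, map_zero, zero_sub] at k1 k2
  linarith

end Crest.Agent.R217
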