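import Mathlib

/-!
# Row 217, part II: definitions

Ungraded Alexander-Spanier cochains with coefficients in a local system, supports, the flux
functional, signatures, dynamics.  A cochain is `c : X → List X → V`; `c x l` is its value on the
tuple `x :: l` (head `x`), and lies in the fibre at `x`.
-/

set_option autoImplicit false
set_option linter.unusedSectionVars false
open Set Filter Topology

namespace Crest.Agent.R217

/-- Cochains: arbitrary functions on nonempty tuples. -/
abbrev Coch (X V : Type*) := X → List X → V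

/-- Transports: `g x y` maps the fibre at `y` to the fibre at `x`. The trivial one is `1`. -/
abbrev Sys (X V : Type*) [AddCommGroup V] [Module ℝ V] := X → X → Module.End ℝ V

section Algebra

variable {X Y V V' : Type*} [AddCommGroup V] [Module ℝ V] [AddCommGroup V'] [Module ℝ V']

/-- Alternating sum of `f` over the lists obtained by deleting one entry. -/
def dL : List X → (List X → V) → V
  | [], _ => 0
  | y :: l, f => f l - dL l (fun l' => f (y :: l'))

@[simp] theorem dL_nil (f : List X → V) : dL [] f = 0 := rfl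

@[simp] theorem dL_cons (y : X) (l : List X) (f : List X → V) :
    dL (y :: l) f = f l - dL l (fun l' => f (y :: l')) := rfl

theorem dL_add (l : List X) (f f' : List X → V) :
    dL l (fun k => f k + f' k) = dL l f + dL l f' := by
  induction l generalizing f f' with
  | nil => simp
  | cons y l ih => simp only [dL_cons, ih]; abel

theorem dL_map (φ : V →ₗ[ℝ] V') (l : List X) (f : List X → V) :
    dL l (fun k => φ (f k)) = φ (dL l f) := by
  induction l generalizing f with
  | nil => simp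
  | cons y l ih => simp only [dL_cons, map_sub]; rw [ih (fun l' => f (y :: l'))]

theorem dL_smul (a : ℝ) (l : List X) (f : List X → V) :
    dL l (fun k => a • f k) = a • dL l f :=
  dL_map (a • LinearMap.id : V →ₗ[ℝ] V) l f

/-- The twisted coboundary as a function. -/
def deltaFun (g : Sys X V) (c : Coch X V) (x : X) : List X → V
  | [] => 0
  | y :: l => g x y (c y l) - dL (y :: l) (c x)

/-- The twisted coboundary. -/
def delta (g : Sys X V) : Coch X V →ₗ[ℝ] Coch X V where
  toFun c := deltaFun g c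
  map_add' c c' := by
    funext x l
    cases l with
    | nil => simp [deltaFun]
    | cons y l =>
      have := dL_add (y :: l) (c x) (c' x)
      simp only [deltaFun, Pi.add_apply, map_add]
      rw [show (c x + c' x) = (fun k => c x k + c' x k) from rfl, this]; abel
  map_smul' a c := by
    funext x l
    cases l with
    | nil => simp [deltaFun]
    | cons y l =>
      have := dL_smul a (y :: l) (c x)
      simp only [deltaFun, Pi.smul_apply, map_smul, RingHom.id_apply]
      rw [show (a • c x) = (fun k => a • c x k) from rfl, this, smul_sub]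

@[simp] theorem delta_nil (g : Sys X V) (c : Coch X V) (x : X) : delta g c x [] = 0 := rfl

theorem delta_cons (g : Sys X V) (c : Coch X V) (x y : X) (l : List X) :
    delta g c x (y :: l) = g x y (c y l) - dL (y :: l) (c x) := rfl

/-- The sign `(-1)^degree`. -/
def eps : Coch X V →ₗ[ℝ] Coch X V where
  toFun c x l := ((-1 : ℝ) ^ l.length) • c x l
  map_add' c c' := by funext x l; simp
  map_smul' a c := by funext x l; simp [smul_smul, mul_comm]

theorem eps_apply (c : Coch X V) (x : X) (l : List X) :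
    eps c x l = ((-1 : ℝ) ^ l.length) • c x l := rfl

/-- Projection on degree `k`. -/
def proj (k : ℕ) : Coch X V →ₗ[ℝ] Coch X V where
  toFun c x l := if l.length = k then c x l else 0
  map_add' c c' := by funext x l; by_cases h : l.length = k <;> simp [h]
  map_smul' a c := by funext x l; by_cases h : l.length = k <;> simp [h]

theorem proj_apply (k : ℕ) (c : Coch X V) (x : X) (l : List X) :
    proj k c x l = if l.length = k then c x l else 0 := rfl

/-- The degree zero cochain given by a section. -/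
def sec : (X → V) →ₗ[ℝ] Coch X V where
  toFun s x l := match l with
    | [] => s x
    | _ :: _ => 0
  map_add' s s' := by funext x l; cases l <;> simp
  map_smul' a s := by funext x l; cases l <;> simp

@[simp] theorem sec_nil (s : X → V) (x : X) : sec s x [] = s x := rfl

@[simp] theorem sec_cons (s : X → V) (x y : X) (l : List X) : sec s x (y :: l) = 0 := rfl

/-- Apply a linear map in the fibre at the head. -/
def act (γ : X → V →ₗ[ℝ] V') : Coch X V →ₗ[ℝ] Coch X V' where
  toFun c x l := γ x (c x l)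
  map_add' c c' := by funext x l; simp
  map_smul' a c := by funext x l; simp

@[simp] theorem act_apply (γ : X → V →ₗ[ℝ] V') (c : Coch X V) (x : X) (l : List X) :
    act γ c x l = γ x (c x l) := rfl

open Classical in
/-- Multiply by the indicator of `S` evaluated at the head. -/
noncomputable def cut (S : Set X) : Coch X V →ₗ[ℝ] Coch X V where
  toFun c x l := if x ∈ S then c x l else 0
  map_add' c c' := by funext x l; by_cases h : x ∈ S <;> simp [h]
  map_smul' a c := by funext x l; by_cases h : x ∈ S <;> simp [h]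

theorem cut_of_mem {S : Set X} {x : X} (hx : x ∈ S) (c : Coch X V) (l : List X) :
    cut S c x l = c x l := by simp [cut, hx]

theorem cut_of_notMem {S : Set X} {x : X} (hx : x ∉ S) (c : Coch X V) (l : List X) :
    cut S c x l = 0 := by simp [cut, hx]

/-- Pull-back along an arbitrary map. -/
def pull (φ : Y → X) : Coch X V →ₗ[ℝ] Coch Y V where
  toFun c y l := c (φ y) (l.map φ)
  map_add' _ _ := rfl
  map_smul' _ _ := rfl

@[simp] theorem pull_apply (φ : Y → X) (c : Coch X V) (y : Y) (l : List Y) :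
    pull φ c y l = c (φ y) (l.map φ) := rfl

/-- Pull-back of transports. -/
def pullS (φ : Y → X) (g : Sys X V) : Sys Y V := fun y y' => g (φ y) (φ y')

@[simp] theorem pullS_apply (φ : Y → X) (g : Sys X V) (y y' : Y) :
    pullS φ g y y' = g (φ y) (φ y') := rfl

@[simp] theorem pullS_one (φ : Y → X) : pullS φ (1 : Sys X V) = 1 := rfl

/-- `revFun c x acc l` is `c` on the reversal of `acc.reverse ++ x :: l`. -/
def revFun (c : Coch X V) : X → List X → List X → V
  | x, acc, [] => c x acc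
  | x, acc, y :: l => revFun c y (x :: acc) l

theorem revFun_add (c c' : Coch X V) (x : X) (acc l : List X) :
    revFun (c + c') x acc l = revFun c x acc l + revFun c' x acc l := by
  induction l generalizing x acc with
  | nil => rfl
  | cons y l ih => simp only [revFun, ih]

theorem revFun_smul (a : ℝ) (c : Coch X V) (x : X) (acc l : List X) :
    revFun (a • c) x acc l = a • revFun c x acc l := by
  induction l generalizing x acc with
  | nil => rfl
  | cons y l ih => simp only [revFun, ih]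

/-- Reversal of tuples (used for trivial transports only). -/
def rev : Coch X V →ₗ[ℝ] Coch X V where
  toFun c x l := revFun c x [] l
  map_add' c c' := by funext x l; exact revFun_add c c' x [] l
  map_smul' a c := by funext x l; exact revFun_smul a c x [] l

/-- `pairFun h c c' x acc l = ∑ h (c (x_i; x_{i-1}, ..., acc)) (c' (x_i; x_{i+1}, ...))` over the
entries `x_i` of `x :: l`. -/
def pairFun (h : V →ₗ[ℝ] V →ₗ[ℝ] ℝ) (c c' : Coch X V) : X → List X → List X → ℝ
  | x, acc, [] => h (c x acc) (c' x [])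
  | x, acc, y :: l => h (c x acc) (c' x (y :: l)) + pairFun h c c' y (x :: acc) l

theorem pairFun_add_left (h : V →ₗ[ℝ] V →ₗ[ℝ] ℝ) (c₁ c₂ c' : Coch X V) (x : X) (acc l : List X) :
    pairFun h (c₁ + c₂) c' x acc l = pairFun h c₁ c' x acc l + pairFun h c₂ c' x acc l := by
  induction l generalizing x acc with
  | nil => simp [pairFun]
  | cons y l ih => simp only [pairFun, ih, Pi.add_apply, map_add, LinearMap.add_apply]; ring

theorem pairFun_smul_left (h : V →ₗ[ℝ] V →ₗ[ℝ] ℝ) (a : ℝ) (c c' : Coch X V) (x : X)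
    (acc l : List X) : pairFun h (a • c) c' x acc l = a * pairFun h c c' x acc l := by
  induction l generalizing x acc with
  | nil => simp [pairFun]
  | cons y l ih =>
    simp only [pairFun, ih, Pi.smul_apply, map_smul, LinearMap.smul_apply, smul_eq_mul]; ring

theorem pairFun_add_right (h : V →ₗ[ℝ] V →ₗ[ℝ] ℝ) (c c₁ c₂ : Coch X V) (x : X) (acc l : List X) :
    pairFun h c (c₁ + c₂) x acc l = pairFun h c c₁ x acc l + pairFun h c c₂ x acc l := by
  induction l generalizing x acc with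
  | nil => simp [pairFun]
  | cons y l ih => simp only [pairFun, ih, Pi.add_apply, map_add]; ring

theorem pairFun_smul_right (h : V →ₗ[ℝ] V →ₗ[ℝ] ℝ) (a : ℝ) (c c' : Coch X V) (x : X)
    (acc l : List X) : pairFun h c (a • c') x acc l = a * pairFun h c c' x acc l := by
  induction l generalizing x acc with
  | nil => simp [pairFun]
  | cons y l ih => simp only [pairFun, ih, Pi.smul_apply, map_smul, smul_eq_mul]; ring

/-- The cup pairing `⟨c, c'⟩(x₀..x_k) = ∑ i, h (c (x_i, ..., x₀)) (c' (x_i, ..., x_k))`. -/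
def pair (h : V →ₗ[ℝ] V →ₗ[ℝ] ℝ) : Coch X V →ₗ[ℝ] Coch X V →ₗ[ℝ] Coch X ℝ :=
  LinearMap.mk₂ ℝ (fun c c' x l => pairFun h c c' x [] l)
    (fun c₁ c₂ c' => by funext x l; exact pairFun_add_left h c₁ c₂ c' x [] l)
    (fun a c c' => by funext x l; exact pairFun_smul_left h a c c' x [] l)
    (fun c c₁ c₂ => by funext x l; exact pairFun_add_right h c c₁ c₂ x [] l)
    (fun a c c' => by funext x l; exact pairFun_smul_right h a c c' x [] l)

theorem pair_apply (h : V →ₗ[ℝ] V →ₗ[ℝ] ℝ) (c c' : Coch X V) (x : X) (l : List X) :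
    pair h c c' x l = pairFun h c c' x [] l := rfl

/-- Tail part of the prism operator. -/
def prismL (φ₀ φ₁ : Y → X) : List Y → (List X → V) → V
  | [], _ => 0
  | y :: l, f => f (φ₀ y :: φ₁ y :: l.map φ₁) - prismL φ₀ φ₁ l (fun l' => f (φ₀ y :: l'))

/-- The prism operator of two maps. -/
def prism (φ₀ φ₁ : Y → X) (c : Coch X V) : Coch Y V :=
  fun y l => c (φ₀ y) (φ₁ y :: l.map φ₁) - prismL φ₀ φ₁ l (c (φ₀ y))

/-- `c` vanishes on all tuples from `N`. -/
def VanOn (c : Coch X V) (N : Set X) : Prop :=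
  ∀ x ∈ N, ∀ l : List X, (∀ y ∈ l, y ∈ N) → c x l = 0

/-- `g` is a cocycle on `N`. -/
def CocOn (g : Sys X V) (N : Set X) : Prop :=
  (∀ x ∈ N, g x x = 1) ∧ ∀ x ∈ N, ∀ y ∈ N, ∀ z ∈ N, g x y * g y z = g x z

/-- `γ` intertwines `g` and `g'` on `N`. -/
def IntOn (γ : X → V →ₗ[ℝ] V') (g : Sys X V) (g' : Sys X V') (N : Set X) : Prop :=
  ∀ x ∈ N, ∀ y ∈ N, g' x y ∘ₗ γ y = γ x ∘ₗ g x y

/-- An endomorphism preserving the form. -/
def IsOrth (h : V →ₗ[ℝ] V →ₗ[ℝ] ℝ) (a : Module.End ℝ V) : Prop := ∀ u v, h (a u) (a v) = h u v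

/-- Nondegenerate, and symmetric or skew. -/
structure IsForm (h : V →ₗ[ℝ] V →ₗ[ℝ] ℝ) : Prop where
  symm : (∀ u v, h v u = h u v) ∨ (∀ u v, h v u = - h u v)
  nondeg : ∀ u, (∀ v, h u v = 0) → u = 0

end Algebra

section Signature

variable {M : Type*} [AddCommGroup M] [Module ℝ M]

/-- Largest dimension of a positive definite finite-dimensional subspace of `S`. -/
noncomputable def posIdx (b : M →ₗ[ℝ] M →ₗ[ℝ] ℝ) (S : Submodule ℝ M) : ℕ :=
  sSup {k | ∃ P : Submodule ℝ M, P ≤ S ∧ FiniteDimensional ℝ P ∧ Module.finrank ℝ P = k ∧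
    ∀ x ∈ P, x ≠ 0 → 0 < b x x}

/-- Signature of `b` on `S`. -/
noncomputable def sig (b : M →ₗ[ℝ] M →ₗ[ℝ] ℝ) (S : Submodule ℝ M) : ℤ :=
  (posIdx b S : ℤ) - posIdx (-b) S

/-- `b` is symmetric or skew on `S`. -/
def SymOn (b : M →ₗ[ℝ] M →ₗ[ℝ] ℝ) (S : Submodule ℝ M) : Prop :=
  (∀ x ∈ S, ∀ y ∈ S, b y x = b x y) ∨ (∀ x ∈ S, ∀ y ∈ S, b y x = - b x y)

/-- `b` has finite rank on `S`. -/
def FinRk (b : M →ₗ[ℝ] M →ₗ[ℝ] ℝ) (S : Submodule ℝ M) : Prop :=
  ∃ F : Submodule ℝ M, F ≤ S ∧ F.FG ∧ ∀ x ∈ S, ∃ f ∈ F, ∀ y ∈ S, b (x - f) y = 0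

/-- The complex `(P, D)` modulo `N₀` is acyclic. -/
def AcycMod (D : M →ₗ[ℝ] M) (N₀ P : Submodule ℝ M) : Prop :=
  ∀ m ∈ P, D m ∈ N₀ → ∃ m' ∈ P, m - D m' ∈ N₀

/-- The complex `(M / N, D)` has finite-dimensional cohomology. -/
def FinMod (D : M →ₗ[ℝ] M) (N : Submodule ℝ M) : Prop :=
  ∃ F : Submodule ℝ M, F.FG ∧ N.comap D ≤ LinearMap.range D ⊔ N ⊔ F

end Signature

section Top

variable {X Y V V' : Type*} [AddCommGroup V] [Module ℝ V] [AddCommGroup V'] [Module ℝ V']
  [TopologicalSpace X] [TopologicalSpace Y]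

/-- `c` vanishes on tuples close to `x`. -/
def VanAt (c : Coch X V) (x : X) : Prop := ∃ N ∈ 𝓝 x, VanOn c N

/-- The support of a cochain. -/
def supp (c : Coch X V) : Set X := {x | ¬ VanAt c x}

/-- `g` is a cocycle near `x`. -/
def CocAt (g : Sys X V) (x : X) : Prop := ∃ N ∈ 𝓝 x, CocOn g N

/-- `γ` intertwines `g` and `g'` near `x`. -/
def IntAt (γ : X → V →ₗ[ℝ] V') (g : Sys X V) (g' : Sys X V') (x : X) : Prop :=
  ∃ N ∈ 𝓝 x, IntOn γ g g' N

/-- Cochains vanishing near every point of `A`. -/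
def Van (V : Type*) [AddCommGroup V] [Module ℝ V] (A : Set X) : Submodule ℝ (Coch X V) where
  carrier := {c | ∀ x ∈ A, VanAt c x}
  add_mem' := by
    intro c c' hc hc' x hx
    obtain ⟨N, hN, h⟩ := hc x hx
    obtain ⟨N', hN', h'⟩ := hc' x hx
    refine ⟨N ∩ N', inter_mem hN hN', fun y hy l hl => ?_⟩
    simp [h y hy.1 l fun z hz => (hl z hz).1, h' y hy.2 l fun z hz => (hl z hz).2]
  zero_mem' := fun x _ => ⟨univ, univ_mem, fun _ _ _ _ => rfl⟩
  smul_mem' := by
    intro a c hc x hx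
    obtain ⟨N, hN, h⟩ := hc x hx
    exact ⟨N, hN, fun y hy l hl => by simp [h y hy l hl]⟩

theorem mem_Van {A : Set X} {c : Coch X V} : c ∈ Van V A ↔ ∀ x ∈ A, VanAt c x := Iff.rfl

/-- Cocycles near `A`. -/
def Zc (g : Sys X V) (A : Set X) : Submodule ℝ (Coch X V) := (Van V A).comap (delta g)

theorem mem_Zc {g : Sys X V} {A : Set X} {c : Coch X V} :
    c ∈ Zc g A ↔ delta g c ∈ Van V A := Iff.rfl

/-- Coboundaries near `A`. -/
def Bd (g : Sys X V) (A : Set X) : Submodule ℝ (Coch X V) := LinearMap.range (delta g) ⊔ Van V A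

theorem mem_Bd {g : Sys X V} {A : Set X} {c : Coch X V} :
    c ∈ Bd g A ↔ ∃ e, c - delta g e ∈ Van V A := by
  constructor
  · intro hc
    obtain ⟨_, ⟨e, rfl⟩, v, hv, rfl⟩ := Submodule.mem_sup.1 hc
    exact ⟨e, by simpa using hv⟩
  · rintro ⟨e, he⟩
    exact Submodule.mem_sup.2 ⟨_, ⟨e, rfl⟩, _, he, by abel⟩

/-- Compactly supported scalar cocycles. -/
def IsZc (z : Coch X ℝ) : Prop := IsCompact (supp z) ∧ delta 1 z ∈ Van ℝ univ

/-- An orientation: compactly supported cohomology is one-dimensional, in degree `n`, and is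
detected by the functional `J`. -/
structure Orient (X : Type*) [TopologicalSpace X] where
  n : ℕ
  J : Coch X ℝ →ₗ[ℝ] ℝ
  J_proj : ∀ c, J (proj n c) = J c
  J_van : ∀ c ∈ Van ℝ (univ : Set X), J c = 0
  J_delta : ∀ c, IsCompact (supp c) → J (delta 1 c) = 0
  exists_gen : ∃ u, IsZc u ∧ J u = 1
  exact : ∀ z, IsZc z → J z = 0 → ∃ e, IsCompact (supp e) ∧ z - delta 1 e ∈ Van ℝ univ

/-- The flux of `w` through the part of the frontier of `Θ` inside `C`. -/
noncomputable def flux (o : Orient X) (C Θ : Set X) : Coch X ℝ →ₗ[ℝ] ℝ :=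
  o.J ∘ₗ cut C ∘ₗ delta 1 ∘ₗ cut Θ

theorem flux_apply (o : Orient X) (C Θ : Set X) (w : Coch X ℝ) :
    flux o C Θ w = o.J (cut C (delta 1 (cut Θ w))) := rfl

/-- The intersection form of the hypersurface `frontier Θ ∩ C`. -/
noncomputable def form (o : Orient X) (h : V →ₗ[ℝ] V →ₗ[ℝ] ℝ) (C Θ : Set X) :
    Coch X V →ₗ[ℝ] Coch X V →ₗ[ℝ] ℝ :=
  (pair h).compr₂ (flux o C Θ)

theorem form_apply (o : Orient X) (h : V →ₗ[ℝ] V →ₗ[ℝ] ℝ) (C Θ : Set X) (x y : Coch X V) :
    form o h C Θ x y = flux o C Θ (pair h x y) := rfl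

/-- Admissible pairs. -/
structure Adm (C Θ : Set X) : Prop where
  cpt : IsCompact C
  fr : frontier Θ ∩ C ⊆ interior C

/-- The signature without dynamics. -/
noncomputable def sig0 (o : Orient X) (h : V →ₗ[ℝ] V →ₗ[ℝ] ℝ) (g : Sys X V) (C Θ : Set X) : ℤ :=
  sig (form o h C Θ) (Zc g C)

/-- Invariance of a set under `T` on `W`. -/
def InvS (W : Set X) (T : X → X) (S : Set X) : Prop := ∀ x ∈ W, (T x ∈ S ↔ x ∈ S)

/-- `T` preserves the orientation on `W`. -/
def JInv (o : Orient X) (W : Set X) (T : X → X) : Prop :=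
  ∀ z z' : Coch X ℝ, IsZc z → supp z ⊆ W → IsZc z' → supp z' ⊆ W →
    z' - pull T z ∈ Van ℝ W → o.J z' = o.J z

/-- A hypersurface with a flat bundle of nonzero signature. -/
structure IsModel (o : Orient X) (h : V →ₗ[ℝ] V →ₗ[ℝ] ℝ) (I : Module.End ℝ V) (G : Sys X V)
    (C Θ : Set X) : Prop where
  form : IsForm h
  I_sq : I * I = -1
  I_orth : IsOrth h I
  orth : ∀ x y, IsOrth h (G x y)
  comm : ∀ x y, G x y * I = I * G x y
  adm : Adm C Θ
  coc : ∀ x ∈ C, CocAt G x
  sig_ne : sig0 o h G C Θ ≠ 0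

/-- Existence of a model. -/
def HasModel (X : Type*) [TopologicalSpace X] : Prop :=
  ∃ (o : Orient X) (V : Type) (_ : AddCommGroup V) (_ : Module ℝ V) (_ : FiniteDimensional ℝ V)
    (h : V →ₗ[ℝ] V →ₗ[ℝ] ℝ) (I : Module.End ℝ V) (G : Sys X V) (C Θ : Set X),
    IsModel o h I G C Θ

/-- A topologically `p`-primary element. -/
def PP {K : Type*} [Group K] [TopologicalSpace K] (κ : K) (p : ℕ) : Prop :=
  ∀ N ∈ 𝓝 (1 : K), ∃ k : ℕ, ∀ m : ℕ, κ ^ (p ^ k * m) ∈ N

/-- A continuous action of `K` on an open subset `W` of `X`. -/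
structure LocAct (K : Type*) [Group K] [TopologicalSpace K] (X : Type*) [TopologicalSpace X] where
  W : Set X
  act : K → X → X
  isOpen_W : IsOpen W
  mapsTo : ∀ k, MapsTo (act k) W W
  cont : ContinuousOn (fun q : K × X => act q.1 q.2) (univ ×ˢ W)
  act_one : ∀ x ∈ W, act 1 x = x
  act_mul : ∀ k k', ∀ x ∈ W, act (k * k') x = act k (act k' x)

end Top

section Dynamics

variable {X V : Type*} [AddCommGroup V] [Module ℝ V] [MetricSpace X]

/-- A recurrent homeomorphism of an open set with local `ZMod p`-trivialisations off its fixed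
points. -/
structure Dyn (o : Orient X) (p : ℕ) where
  W : Set X
  T : X → X
  Tinv : X → X
  isOpen_W : IsOpen W
  mapsTo : MapsTo T W W
  mapsTo_inv : MapsTo Tinv W W
  cont : ContinuousOn T W
  cont_inv : ContinuousOn Tinv W
  left_inv : ∀ x ∈ W, Tinv (T x) = x
  right_inv : ∀ x ∈ W, T (Tinv x) = x
  recur : ∀ C, IsCompact C → C ⊆ W → ∀ η > 0, ∃ k : ℕ, ∀ x ∈ C, dist (T^[p ^ (k + 1)] x) x < η
  nbhd : ∀ Y U, IsCompact Y → Y ⊆ W → InvS W T Y → IsOpen U → Y ⊆ U →
    ∃ Q, IsCompact Q ∧ InvS W T Q ∧ Y ⊆ interior Q ∧ Q ⊆ U ∩ W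
  triv : ∀ x ∈ W, T x ≠ x → ∃ (U : Set X) (u : X → ZMod p), IsOpen U ∧ x ∈ U ∧ U ⊆ W ∧
    InvS W T U ∧ (∀ y ∈ U, ∀ᶠ z in 𝓝 y, u z = u y) ∧ ∀ y ∈ U, u (T y) = u y + 1
  jinv : JInv o W T

variable {o : Orient X} {p : ℕ}

/-- Global algebraic conditions on equivariant coefficients. -/
structure Tw (D : Dyn o p) (h : V →ₗ[ℝ] V →ₗ[ℝ] ℝ) (ζ : AddChar (ZMod p) (Module.End ℝ V))
    (g : Sys X V) (j : X → ZMod p) : Prop where
  form : IsForm h
  orth : ∀ x y, IsOrth h (g x y)
  ζorth : ∀ a, IsOrth h (ζ a)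
  comm : ∀ x y a, g x y * ζ a = ζ a * g x y
  jinv : ∀ x ∈ D.W, j (D.T x) = j x

/-- Local conditions on equivariant coefficients. -/
def GoodAt (D : Dyn o p) (ζ : AddChar (ZMod p) (Module.End ℝ V)) (g : Sys X V) (j : X → ZMod p)
    (x : X) : Prop :=
  x ∈ D.W ∧ CocAt g x ∧ ∃ N ∈ 𝓝 x,
    (∀ y ∈ N, ∀ z ∈ N, g (D.T y) (D.T z) * ζ (j z) = ζ (j y) * g y z) ∧
    ∀ y ∈ N, ∀ i : ℕ, g y (D.T^[i] y) = 1

/-- An invariant admissible pair inside the good set. -/
structure Hyp (D : Dyn o p) (ζ : AddChar (ZMod p) (Module.End ℝ V)) (g : Sys X V) (j : X → ZMod p)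
    (C Θ : Set X) : Prop where
  adm : Adm C Θ
  good : ∀ x ∈ C, GoodAt D ζ g j x
  invC : InvS D.W D.T C
  invΘ : InvS D.W D.T Θ

/-- The twisted action on cochains. -/
def tau (D : Dyn o p) (ζ : AddChar (ZMod p) (Module.End ℝ V)) (j : X → ZMod p) :
    Coch X V →ₗ[ℝ] Coch X V :=
  act (fun x => ζ (-j x)) ∘ₗ pull D.T

/-- Cocycles whose class is invariant. -/
def Zt (D : Dyn o p) (ζ : AddChar (ZMod p) (Module.End ℝ V)) (g : Sys X V) (j : X → ZMod p)
    (C : Set X) : Submodule ℝ (Coch X V) :=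
  Zc g C ⊓ (Bd g C).comap (tau D ζ j - LinearMap.id)

/-- The signature of the invariant part. -/
noncomputable def sigT (D : Dyn o p) (h : V →ₗ[ℝ] V →ₗ[ℝ] ℝ)
    (ζ : AddChar (ZMod p) (Module.End ℝ V)) (g : Sys X V) (j : X → ZMod p) (C Θ : Set X) : ℤ :=
  sig (form o h C Θ) (Zt D ζ g j C)

end Dynamics

end Crest.Agent.R217
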