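import Crest.Agent.R217.VanMV

set_option autoImplicit false
set_option linter.unusedSectionVars false
open Set Filter Topology

namespace Crest.Agent.R217

/-! The flux functional. -/

variable {X V : Type*} [AddCommGroup V] [Module ℝ V] [TopologicalSpace X] [T2Space X]

theorem Flux0_cut_Van {C : Set X} (hC : IsClosed C) {a : Coch X V} (h : a ∈ Van V C) :
    cut C a ∈ Van V (univ : Set X) := by
  intro x _
  by_cases hx : x ∈ C
  · exact (h x hx).cut C
  · exact vanAt_cut_of_compl_mem (hC.isOpen_compl.mem_nhds hx) a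

theorem Flux0_vanAt {g : Sys X V} {Θ : Set X} {w : Coch X V} {x : X} (hw : VanAt (delta g w) x)
    (hx : x ∉ frontier Θ ∩ supp w) : VanAt (delta g (cut Θ w)) x := by
  by_cases h1 : x ∈ frontier Θ
  · exact ((notMem_supp.1 fun h2 => hx ⟨h1, h2⟩).cut Θ).delta g
  · exact vanAt_delta_cut_of_cocycle h1 hw

theorem J_cut_congr (o : Orient X) {C : Set X} (hC : IsClosed C) {a a' : Coch X ℝ}
    (h : a - a' ∈ Van ℝ C) : o.J (cut C a) = o.J (cut C a') := by
  have := o.J_van _ (Flux0_cut_Van hC h)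
  rwa [map_sub, map_sub, sub_eq_zero] at this

theorem J_cut_delta (o : Orient X) {C : Set X} (hC : IsCompact C) {a : Coch X ℝ}
    (ha : supp a ∩ C ⊆ interior C) : o.J (cut C (delta 1 a)) = 0 := by
  have h1 : o.J (delta 1 (cut C a)) = 0 :=
    o.J_delta _ (isCompact_supp_of_subset hC fun x hx =>
      vanAt_cut_of_compl_mem (hC.isClosed.isOpen_compl.mem_nhds hx) a)
  have h2 : o.J (delta 1 (cut C a) - cut C (delta 1 a)) = 0 := o.J_van _ fun x _ => by
    by_cases hx : x ∈ frontier C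
    · have h3 : VanAt a x := notMem_supp.1 fun h =>
        hx.2 (ha ⟨h, hC.isClosed.frontier_subset hx⟩)
      exact ((h3.cut C).delta 1).sub ((h3.delta 1).cut C)
    · exact vanAt_delta_cut hx 1 a
  rwa [map_sub, h1, zero_sub, neg_eq_zero] at h2

theorem flux_congr (o : Orient X) {C : Set X} (hC : IsClosed C) (Θ : Set X) {w w' : Coch X ℝ}
    (h : w - w' ∈ Van ℝ C) : flux o C Θ w = flux o C Θ w' := by
  refine J_cut_congr o hC fun x hx => ?_
  rw [← map_sub]
  exact ((h x hx).cut Θ).delta 1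

theorem supp_cut_delta_cut {g : Sys X V} {C Θ : Set X} (hC : IsClosed C) {w : Coch X V}
    (hw : w ∈ Zc g C) : supp (cut C (delta g (cut Θ w))) ⊆ frontier Θ ∩ supp w ∩ C := by
  refine supp_subset_iff.2 fun x hx => ?_
  by_cases h : x ∈ C
  · exact (Flux0_vanAt (hw x h) fun h' => hx ⟨h', h⟩).cut C
  · exact vanAt_cut_of_compl_mem (hC.isOpen_compl.mem_nhds h) _

theorem delta_cut_delta_cut {g : Sys X V} {C Θ : Set X} (hC : IsClosed C)
    (hg : ∀ x ∈ C, CocAt g x) {w : Coch X V} (hw : w ∈ Zc g C)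
    (hfr : frontier Θ ∩ supp w ∩ C ⊆ interior C) :
    delta g (cut C (delta g (cut Θ w))) ∈ Van V univ := by
  intro x _
  by_cases hx : x ∈ interior C
  · have h1 := (vanAt_cut_sub (mem_interior_iff_mem_nhds.1 hx) (delta g (cut Θ w))).delta g
    rw [map_sub] at h1
    exact h1.of_sub (vanAt_delta_delta (hg x (interior_subset hx)) _)
  · exact (notMem_supp.1 fun h => hx (hfr (supp_cut_delta_cut hC hw h))).delta g

theorem isZc_flux {C Θ : Set X} (hC : IsCompact C) {w : Coch X ℝ} (hw : w ∈ Zc 1 C)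
    (hfr : frontier Θ ∩ supp w ∩ C ⊆ interior C) : IsZc (cut C (delta 1 (cut Θ w))) := by
  exact ⟨isCompact_supp_of_subset hC fun x hx =>
    vanAt_cut_of_compl_mem (hC.isClosed.isOpen_compl.mem_nhds hx) _,
    delta_cut_delta_cut hC.isClosed (fun x _ => cocAt_one x) hw hfr⟩

/-- Hint: `J_cut_delta` for `cut Θ (δ a) - δ (cut Θ a)`. -/
theorem flux_delta (o : Orient X) {C Θ : Set X} (hC : IsCompact C) {a : Coch X ℝ}
    (hfr : frontier Θ ∩ supp a ∩ C ⊆ interior C) : flux o C Θ (delta 1 a) = 0 := by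
  have h := J_cut_delta o hC (a := cut Θ (delta 1 a) - delta 1 (cut Θ a)) fun x hx => by
    refine hfr ⟨⟨?_, ?_⟩, hx.2⟩
    · by_contra h
      exact hx.1 (vanAt_delta_cut h 1 a).symm_sub
    · intro h
      exact hx.1 (((h.delta 1).cut Θ).sub ((h.cut Θ).delta 1))
  rwa [map_sub, delta_one_delta_one, sub_zero] at h

theorem flux_Bd (o : Orient X) {C Θ : Set X} (hA : Adm C Θ) {w : Coch X ℝ} (hw : w ∈ Bd 1 C) :
    flux o C Θ w = 0 := by
  obtain ⟨e, he⟩ := mem_Bd.1 hw
  rw [flux_congr o hA.cpt.isClosed Θ he]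
  exact flux_delta o hA.cpt fun x hx => hA.fr ⟨hx.1.1, hx.2⟩

theorem flux_move (o : Orient X) {C Θ Θ' : Set X} (hC : IsCompact C) {w : Coch X ℝ}
    (h : ∀ x ∈ C, x ∉ interior C → VanAt (cut Θ w - cut Θ' w) x) :
    flux o C Θ w = flux o C Θ' w := by
  have h1 := J_cut_delta o hC (a := cut Θ w - cut Θ' w) fun x hx => by
    by_contra h'
    exact hx.1 (h x hx.2 h')
  rwa [map_sub, map_sub, map_sub, sub_eq_zero] at h1

theorem flux_restrict (o : Orient X) {C C' Θ : Set X} (hC : IsClosed C) (hC' : IsClosed C')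
    {w : Coch X ℝ} (hw : w ∈ Zc 1 (C ∪ C'))
    (hfr : frontier Θ ∩ supp w ∩ (C ∪ C') ⊆ interior C ∩ interior C') :
    flux o C Θ w = flux o C' Θ w := by
  have h1 : o.J (cut C (delta 1 (cut Θ w)) - cut C' (delta 1 (cut Θ w))) = 0 :=
    o.J_van _ fun x _ => by
      by_cases hx : x ∈ C ∪ C'
      · by_cases h2 : x ∈ frontier Θ ∩ supp w
        · have h3 := hfr ⟨h2, hx⟩
          refine vanAt_cut_sub_cut ?_ _
          filter_upwards [mem_interior_iff_mem_nhds.1 h3.1, mem_interior_iff_mem_nhds.1 h3.2]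
            with y h4 h5
          exact iff_of_true h4 h5
        · have h3 := Flux0_vanAt (hw x hx) h2
          exact (h3.cut C).sub (h3.cut C')
      · exact (vanAt_cut_of_compl_mem (hC.isOpen_compl.mem_nhds fun h => hx (Or.inl h)) _).sub
          (vanAt_cut_of_compl_mem (hC'.isOpen_compl.mem_nhds fun h => hx (Or.inr h)) _)
  rwa [map_sub, sub_eq_zero] at h1

theorem flux_compl (o : Orient X) {C : Set X} (hC : IsClosed C) (Θ : Set X) {w : Coch X ℝ}
    (hw : w ∈ Zc 1 C) : flux o C Θᶜ w = - flux o C Θ w := by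
  rw [flux_apply, flux_apply, cut_compl, map_sub, map_sub, map_sub,
    o.J_van _ (Flux0_cut_Van hC hw), zero_sub]

theorem flux_union (o : Orient X) {C₁ C₂ : Set X} (hd : Disjoint C₁ C₂) (Θ : Set X)
    (w : Coch X ℝ) : flux o (C₁ ∪ C₂) Θ w = flux o C₁ Θ w + flux o C₂ Θ w := by
  rw [flux_apply, flux_apply, flux_apply, cut_union hd, map_add]

theorem flux_of_frontier_empty (o : Orient X) {C Θ : Set X} (hC : IsClosed C) {w : Coch X ℝ}
    (hw : w ∈ Zc 1 C) (hfr : frontier Θ ∩ supp w ∩ C = ∅) : flux o C Θ w = 0 := by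
  refine o.J_van _ fun x _ => notMem_supp.1 fun h => ?_
  have := supp_cut_delta_cut hC hw h
  rwa [hfr] at this

variable {h : V →ₗ[ℝ] V →ₗ[ℝ] ℝ} {g : Sys X V}

end Crest.Agent.R217
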