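import Crest.Agent.R217.PD1

set_option autoImplicit false
set_option linter.unusedSectionVars false
open Set Filter Topology

namespace Crest.Agent.R217

/-! Poincare duality and finiteness on finite unions of small convex sets. -/

variable {X V : Type*} [AddCommGroup V] [Module ℝ V]

section Cone

variable [TopologicalSpace X]

end Cone

variable [NormedAddCommGroup X] [NormedSpace ℝ X] [FiniteDimensional ℝ X] [FiniteDimensional ℝ V]

/-- The flat sections through a base point. -/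
def PD_sec (g : Sys X V) (a : X) : V →ₗ[ℝ] Coch X V := sec ∘ₗ LinearMap.pi fun x => g x a

/-- Hint: `z ≡ δ z₀` by `pd_cvx_exact`; `ψ = φ - Φ z₀` kills `Van A` and the range of `δ`;
represent `v ↦ ψ (sec ..)` by `z₁`; `ψ - Φ z₁` kills `Zc g A` (`star_H0`); `exists_dual_comp`. -/
theorem pd_cvx (o : Orient X) {h : V →ₗ[ℝ] V →ₗ[ℝ] ℝ} (hf : IsForm h) {g : Sys X V}
    (ho : ∀ x y, IsOrth h (g x y)) {U A : Set X} (hc : CvxPair g U A) (hne : U.Nonempty) :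
    AcycMod (pdD o h g) (pdN X V) (pdM V U A) := by
  rintro ⟨z, φ⟩ ⟨hz, hφ⟩ hD
  obtain ⟨a, ha⟩ := hne
  obtain ⟨N, hN, hg⟩ := hc.coc
  have haN : a ∈ N := subset_of_mem_nhdsSet hN (hc.sub ha)
  have hφ' : ∀ x ∈ Van V A, φ x = 0 := (Submodule.mem_dualAnnihilator φ).1 hφ
  rw [pdD_apply] at hD
  have hD1 : delta g z ∈ Van V univ := hD.1
  have hD2 : ∀ x, pdPhi o h z x = φ (delta g x) := fun x =>
    sub_eq_zero.1 (LinearMap.congr_fun ((Submodule.mem_bot ℝ).1 hD.2) x)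
  have hvan : ∀ w ∈ Van V Uᶜ, ∀ x ∈ Van V A, pdPhi o h w x = 0 := fun w hw x hx =>
    pdPhi_of_disjoint o h fun y => (em (y ∈ U)).elim (fun hy => Or.inr (hx y (hc.sub hy)))
      fun hy => Or.inl (hw y hy)
  have huniv : ∀ w ∈ Van V univ, ∀ x, pdPhi o h w x = 0 := fun w hw x =>
    pdPhi_of_disjoint o h fun y => Or.inl (hw y trivial)
  have hadj : ∀ w ∈ Van V Uᶜ, ∀ x, pdPhi o h (delta g w) x = pdPhi o h w (delta g x) :=
    fun w hw x => pdPhi_delta o ho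
      (hc.cpt.of_isClosed_subset (isClosed_supp w) ((mem_Van_compl.1 hw).trans hc.sub))
      (fun y hy => hc.goodPair.coc y (hc.sub (mem_Van_compl.1 hw hy))) x
  obtain ⟨z₀, hz₀, hz₀'⟩ := pd_cvx_exact o hf ho hc ha hz hD1 fun v => by
    rw [← pdPhi_apply, hD2]
    exact hφ' _ (sec_mem_Zc haN hN hg v)
  obtain ⟨z₁, hz₁, hz₁', hz₁''⟩ :=
    pd_cvx_repr o hf ho hc ha ((φ - pdPhi o h z₀) ∘ₗ PD_sec g a)
  obtain ⟨φ', h1, h2⟩ := exists_dual_comp (delta g) (Van V A) (φ - pdPhi o h z₀ - pdPhi o h z₁)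
    fun x hx => by
      obtain ⟨v, hv⟩ := star_H0 hc.cpt (hc.sub ha) (hc.cvxA (hc.sub ha)) hN hg hx
      obtain ⟨e, he⟩ := mem_Bd.1 hv
      have e1 := hφ' _ he
      have e2 := hvan _ hz₀ _ he
      have e3 := hvan _ hz₁ _ he
      have e4 : pdPhi o h z₁ (sec fun x => g x a v) =
          φ (sec fun x => g x a v) - pdPhi o h z₀ (sec fun x => g x a v) := hz₁'' v
      have e5 := huniv _ hz₀' e
      have e6 := huniv _ hz₁' e
      rw [hadj _ hz₁] at e6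
      rw [map_sub, LinearMap.sub_apply, hadj _ hz₀, hD2] at e5
      simp only [map_sub] at e1 e2 e3
      simp only [LinearMap.sub_apply]
      linarith
  refine ⟨(z₀ + z₁, -φ'), ⟨(Van V Uᶜ).add_mem hz₀ hz₁, Submodule.neg_mem _
    ((Submodule.mem_dualAnnihilator φ').2 h1)⟩, ?_⟩
  rw [pdD_apply]
  refine ⟨?_, (Submodule.mem_bot ℝ).2 ?_⟩
  · have := (Van V univ).sub_mem hz₀' hz₁'
    rwa [sub_sub, ← map_add] at this
  · change φ - (pdPhi o h (z₀ + z₁) - (-φ') ∘ₗ delta g) = 0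
    rw [LinearMap.neg_comp, h2, map_add]
    abel

theorem exists_pd_pair (o : Orient X) {h : V →ₗ[ℝ] V →ₗ[ℝ] ℝ} (hf : IsForm h) {g : Sys X V}
    (ho : ∀ x y, IsOrth h (g x y)) {K O : Set X} (hK : IsCompact K) (hO : IsOpen O) (hKO : K ⊆ O)
    (hg : ∀ x ∈ O, CocAt g x) :
    ∃ U A, GoodPair g U A ∧ K ⊆ U ∧ A ⊆ O ∧
      ∀ z ∈ Van V Uᶜ, delta g z ∈ Van V univ → (∀ x ∈ Zc g A, o.J (pair h x z) = 0) →
        ∃ z' ∈ Van V Uᶜ, z - delta g z' ∈ Van V univ := by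
  obtain ⟨U, A, h1, h2, h3, h4⟩ := exists_pair_of_induction
    (fun U A => AcycMod (pdD o h g) (pdN X V) (pdM V U A)) (pd_empty o h g)
    (fun U A hc hne => pd_cvx o hf ho hc hne)
    (fun U₁ A₁ U₂ A₂ h₁ h₂ a₁ a₂ a₁₂ => pd_mv o ho h₁ h₂ a₁ a₂ a₁₂) hK hO hKO hg
  refine ⟨U, A, h1, h2, h3, fun z hz hdz hJ => ?_⟩
  obtain ⟨φ, hφ, hφ'⟩ := exists_dual_comp (delta g) (Van V A) (pdPhi o h z) fun x hx => hJ x hx
  obtain ⟨⟨z', φ'⟩, hm, hm'⟩ := h4 (z, φ) ⟨hz, (Submodule.mem_dualAnnihilator φ).2 hφ⟩ (by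
    rw [pdD_apply, hφ', sub_self]
    exact ⟨hdz, Submodule.zero_mem _⟩)
  exact ⟨z', hm.1, hm'.1⟩

theorem exists_fin_pair {g : Sys X V} {K O : Set X} (hK : IsCompact K) (hO : IsOpen O)
    (hKO : K ⊆ O) (hg : ∀ x ∈ O, CocAt g x) :
    ∃ U A, GoodPair g U A ∧ K ⊆ U ∧ A ⊆ O ∧ FinMod (delta g) (Van V A) := by
  refine exists_pair_of_induction (fun _ A => FinMod (delta g) (Van V A)) ?_ ?_ ?_ hK hO hKO hg
  · refine ⟨⊥, Submodule.fg_bot, ?_⟩
    rw [Van_empty]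
    simp
  · rintro U A hc ⟨a, ha⟩
    obtain ⟨N, hN, hgN⟩ := hc.coc
    refine ⟨LinearMap.range (PD_sec g a), Submodule.fg_range _, fun x hx => ?_⟩
    obtain ⟨v, hv⟩ := star_H0 hc.cpt (hc.sub ha) (hc.cvxA (hc.sub ha)) hN hgN hx
    exact Submodule.mem_sup.2 ⟨_, hv, _, ⟨v, rfl⟩, sub_add_cancel _ _⟩
  · intro U₁ A₁ U₂ A₂ h₁ h₂ f₁ f₂ f₁₂
    rw [Van_union]
    rw [Van_inter h₁.cpt.isClosed h₂.cpt.isClosed] at f₁₂
    exact FinMod.inf (fun m hm x hx => (hm x hx).delta g) (fun m hm x hx => (hm x hx).delta g)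
      (fun m => ⟨fun x hx => vanAt_delta_delta (h₁.coc x hx) m,
        fun x hx => vanAt_delta_delta (h₂.coc x hx) m⟩) f₁ f₂ f₁₂

end Crest.Agent.R217
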