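import Crest.Agent.R217.Sig0

set_option autoImplicit false
set_option linter.unusedSectionVars false
open Set Filter Topology

namespace Crest.Agent.R217

/-! Signatures of finite rank forms on submodules. -/

variable {M M' : Type*} [AddCommGroup M] [Module ℝ M] [AddCommGroup M'] [Module ℝ M']

open Module

/-- Comparison of dimensions modulo `T`. -/
theorem Sig_cmp {P T F : Submodule ℝ M} [FiniteDimensional ℝ F] (hle : P ≤ F ⊔ T)
    (hd : ∀ x ∈ P, x ∈ T → x = 0) : finrank ℝ P ≤ finrank ℝ F := by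
  let f : P →ₗ[ℝ] (F.map T.mkQ) := LinearMap.codRestrict _ (T.mkQ ∘ₗ P.subtype) (fun x => by
    obtain ⟨y, hy, z, hz, h⟩ := Submodule.mem_sup.1 (hle x.2)
    refine ⟨y, hy, ?_⟩
    have hz' : T.mkQ z = 0 := (Submodule.Quotient.mk_eq_zero T).2 hz
    simp only [LinearMap.comp_apply, Submodule.subtype_apply]
    rw [← h, map_add, hz', add_zero])
  have hf : Function.Injective f := by
    rw [← LinearMap.ker_eq_bot, LinearMap.ker_eq_bot']
    intro x hx
    have h1 : T.mkQ x = 0 := congrArg Subtype.val hx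
    exact Subtype.ext (hd x x.2 ((Submodule.Quotient.mk_eq_zero T).1 h1))
  exact (LinearMap.finrank_le_finrank_of_injective hf).trans (Submodule.finrank_map_le _ _)

theorem Sig_zero_mem (b : M →ₗ[ℝ] M →ₗ[ℝ] ℝ) (S : Submodule ℝ M) :
    0 ∈ {k | ∃ P : Submodule ℝ M, P ≤ S ∧ FiniteDimensional ℝ P ∧ finrank ℝ P = k ∧
      ∀ x ∈ P, x ≠ 0 → 0 < b x x} :=
  ⟨⊥, bot_le, inferInstance, finrank_bot ℝ M, fun x hx h => absurd ((Submodule.mem_bot ℝ).1 hx) h⟩

/-- A positive definite subspace with a non-positive complement has the maximal dimension. -/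
theorem Sig_key {b : M →ₗ[ℝ] M →ₗ[ℝ] ℝ} {S P T : Submodule ℝ M} [FiniteDimensional ℝ P]
    (hP : P ≤ S) (hpos : ∀ x ∈ P, x ≠ 0 → 0 < b x x) (hT : ∀ x ∈ T, b x x ≤ 0) (hS : S ≤ P ⊔ T) :
    posIdx b S = finrank ℝ P := by
  apply IsGreatest.csSup_eq
  refine ⟨⟨P, hP, inferInstance, rfl, hpos⟩, ?_⟩
  rintro k ⟨P', hP', _, rfl, hpos'⟩
  refine Sig_cmp (hP'.trans hS) fun x hx hxT => by_contra fun h => ?_
  exact absurd (hpos' x hx h) (not_lt.2 (hT x hxT))

theorem Sig_bdd {b : M →ₗ[ℝ] M →ₗ[ℝ] ℝ} {S : Submodule ℝ M} (hf : FinRk b S) :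
    BddAbove {k | ∃ P : Submodule ℝ M, P ≤ S ∧ FiniteDimensional ℝ P ∧ finrank ℝ P = k ∧
      ∀ x ∈ P, x ≠ 0 → 0 < b x x} := by
  obtain ⟨F, hF, hfg, hrad⟩ := hf
  have : FiniteDimensional ℝ F := Module.Finite.iff_fg.2 hfg
  refine ⟨finrank ℝ F, ?_⟩
  rintro k ⟨P, hP, _, rfl, hpos⟩
  let T : Submodule ℝ M := LinearMap.ker (b.domRestrict₂ S)
  have hT : ∀ x, x ∈ T ↔ ∀ y ∈ S, b x y = 0 := fun x => by
    simp only [T, LinearMap.mem_ker, LinearMap.ext_iff, LinearMap.domRestrict₂_apply,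
      LinearMap.zero_apply, Subtype.forall]
  refine Sig_cmp (T := T) (fun x hx => ?_) fun x hx hxT => by_contra fun h => ?_
  · obtain ⟨f, hf, h⟩ := hrad x (hP hx)
    exact Submodule.mem_sup.2 ⟨f, hf, x - f, (hT _).2 h, by abel⟩
  · exact (hpos x hx h).ne' ((hT x).1 hxT x (hP hx))

theorem Sig_le {b : M →ₗ[ℝ] M →ₗ[ℝ] ℝ} {S P : Submodule ℝ M} (hf : FinRk b S)
    [FiniteDimensional ℝ P] (hP : P ≤ S) (hpos : ∀ x ∈ P, x ≠ 0 → 0 < b x x) :
    finrank ℝ P ≤ posIdx b S :=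
  le_csSup (Sig_bdd hf) ⟨P, hP, inferInstance, rfl, hpos⟩

theorem Sig_attained {b : M →ₗ[ℝ] M →ₗ[ℝ] ℝ} {S : Submodule ℝ M} (hf : FinRk b S) :
    ∃ P : Submodule ℝ M, P ≤ S ∧ FiniteDimensional ℝ P ∧ finrank ℝ P = posIdx b S ∧
      ∀ x ∈ P, x ≠ 0 → 0 < b x x :=
  Nat.sSup_mem ⟨0, Sig_zero_mem b S⟩ (Sig_bdd hf)

/-- Splitting of a symmetric finite rank form. -/
theorem Sig_split_symm {b : M →ₗ[ℝ] M →ₗ[ℝ] ℝ} {S : Submodule ℝ M}
    (hs : ∀ x ∈ S, ∀ y ∈ S, b y x = b x y) (hf : FinRk b S) :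
    ∃ P T : Submodule ℝ M, FiniteDimensional ℝ P ∧ P ≤ S ∧ T ≤ S ∧
      (∀ x ∈ P, x ≠ 0 → 0 < b x x) ∧ (∀ x ∈ T, b x x ≤ 0) ∧ S ≤ P ⊔ T ∧
      ∀ x ∈ P, ∀ y ∈ T, b x y = 0 := by
  obtain ⟨P, hP, hfin, hrk, hpos⟩ := Sig_attained hf
  let T : Submodule ℝ M := S ⊓ LinearMap.ker (b.flip.domRestrict₂ P)
  have hT : ∀ x, x ∈ T ↔ x ∈ S ∧ ∀ y ∈ P, b y x = 0 := fun x => by
    simp only [T, Submodule.mem_inf, LinearMap.mem_ker, LinearMap.ext_iff,
      LinearMap.domRestrict₂_apply, LinearMap.zero_apply, Subtype.forall, LinearMap.flip_apply]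
  refine ⟨P, T, hfin, hP, inf_le_left, hpos, fun x hx => ?_, fun x hx => ?_,
    fun x hx y hy => ((hT y).1 hy).2 x hx⟩
  · by_contra h
    push Not at h
    obtain ⟨hxS, hxP⟩ := (hT x).1 hx
    have hx' : x ∉ P := fun h' => h.ne' (hxP x h')
    have hlt : P < P ⊔ ℝ ∙ x := by
      refine lt_of_le_of_ne le_sup_left fun h' => hx' ?_
      rw [h']
      exact Submodule.mem_sup_right (Submodule.mem_span_singleton_self x)
    have h1 := Submodule.finrank_lt_finrank_of_lt hlt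
    have h2 : finrank ℝ (P ⊔ ℝ ∙ x : Submodule ℝ M) ≤ posIdx b S := by
      refine Sig_le hf (sup_le hP ((Submodule.span_singleton_le_iff_mem _ _).2 hxS)) ?_
      intro z hz hz0
      obtain ⟨p, hp, w, hw, rfl⟩ := Submodule.mem_sup.1 hz
      obtain ⟨c, rfl⟩ := Submodule.mem_span_singleton.1 hw
      have e1 : b p x = 0 := hxP p hp
      have e2 : b x p = 0 := by rw [hs p (hP hp) x hxS, e1]
      simp only [map_add, map_smul, LinearMap.add_apply, LinearMap.smul_apply, e1, e2,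
        smul_eq_mul, mul_zero, add_zero, zero_add]
      by_cases hp0 : p = 0
      · have hc : c ≠ 0 := by
          rintro rfl
          exact hz0 (by simp [hp0])
        have := mul_pos (mul_self_pos.2 hc) h
        simp only [hp0, map_zero, zero_add]
        nlinarith
      · have := hpos p hp hp0
        have := mul_nonneg (mul_self_nonneg c) h.le
        nlinarith
    omega
  · let φ : P →ₗ[ℝ] Dual ℝ P := b.flip.domRestrict₁₂ P P
    have hφ : Function.Injective φ := by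
      rw [← LinearMap.ker_eq_bot, LinearMap.ker_eq_bot']
      intro p hp
      by_contra h
      have h1 : b p p = 0 := LinearMap.congr_fun hp p
      exact (hpos p p.2 fun h' => h (Subtype.ext h')).ne' h1
    have hφ' : Function.Surjective φ :=
      (LinearMap.injective_iff_surjective_of_finrank_eq_finrank
        (Subspace.dual_finrank_eq).symm).1 hφ
    obtain ⟨p, hp⟩ := hφ' (b.flip.domRestrict₂ P x)
    refine Submodule.mem_sup.2 ⟨p, p.2, x - p, (hT _).2 ⟨S.sub_mem hx (hP p.2), fun y hy => ?_⟩,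
      by abel⟩
    have h1 : b y p = b y x := LinearMap.congr_fun hp ⟨y, hy⟩
    rw [map_sub, h1, sub_self]

theorem Sig_skew {b : M →ₗ[ℝ] M →ₗ[ℝ] ℝ} {S : Submodule ℝ M}
    (hs : ∀ x ∈ S, ∀ y ∈ S, b y x = - b x y) : ∀ x ∈ S, b x x = 0 := fun x hx => by
  have := hs x hx x hx
  linarith

theorem Sig_split {b : M →ₗ[ℝ] M →ₗ[ℝ] ℝ} {S : Submodule ℝ M}
    (hs : SymOn b S) (hf : FinRk b S) :
    ∃ P T : Submodule ℝ M, FiniteDimensional ℝ P ∧ P ≤ S ∧
      (∀ x ∈ P, x ≠ 0 → 0 < b x x) ∧ (∀ x ∈ T, b x x ≤ 0) ∧ S ≤ P ⊔ T := by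
  rcases hs with hs | hs
  · obtain ⟨P, T, h1, h2, -, h3, h4, h5, -⟩ := Sig_split_symm hs hf
    exact ⟨P, T, h1, h2, h3, h4, h5⟩
  · exact ⟨⊥, S, inferInstance, bot_le, fun x hx h => absurd ((Submodule.mem_bot ℝ).1 hx) h,
      fun x hx => (Sig_skew hs x hx).le, le_sup_right⟩

theorem Sig_symOn_neg {b : M →ₗ[ℝ] M →ₗ[ℝ] ℝ} {S : Submodule ℝ M} (hs : SymOn b S) :
    SymOn (-b) S := by
  rcases hs with hs | hs
  · exact Or.inl fun x hx y hy => by simp only [LinearMap.neg_apply, hs x hx y hy]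
  · exact Or.inr fun x hx y hy => by simp only [LinearMap.neg_apply, hs x hx y hy]

theorem Sig_finRk_neg {b : M →ₗ[ℝ] M →ₗ[ℝ] ℝ} {S : Submodule ℝ M} (hf : FinRk b S) :
    FinRk (-b) S := by
  obtain ⟨F, hF, hfg, h⟩ := hf
  refine ⟨F, hF, hfg, fun x hx => ?_⟩
  obtain ⟨f, hf, h'⟩ := h x hx
  exact ⟨f, hf, fun y hy => by simp only [LinearMap.neg_apply, h' y hy, neg_zero]⟩

/-- `P.prod P'` is `P × P'`. -/
def Sig_prodEquiv (P : Submodule ℝ M) (P' : Submodule ℝ M') : (P.prod P') ≃ₗ[ℝ] P × P' where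
  toFun x := (⟨x.1.1, x.2.1⟩, ⟨x.1.2, x.2.2⟩)
  invFun x := ⟨(x.1.1, x.2.1), x.1.2, x.2.2⟩
  map_add' _ _ := rfl
  map_smul' _ _ := rfl
  left_inv _ := rfl
  right_inv _ := rfl

theorem Sig_posIdx_prod {b : M →ₗ[ℝ] M →ₗ[ℝ] ℝ} {b' : M' →ₗ[ℝ] M' →ₗ[ℝ] ℝ} {S : Submodule ℝ M}
    {S' : Submodule ℝ M'} (hs : SymOn b S) (hf : FinRk b S) (hs' : SymOn b' S')
    (hf' : FinRk b' S') : posIdx (prodForm b b') (S.prod S') = posIdx b S + posIdx b' S' := by
  obtain ⟨P, T, h1, h2, h3, h4, h5⟩ := Sig_split hs hf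
  obtain ⟨P', T', h1', h2', h3', h4', h5'⟩ := Sig_split hs' hf'
  have : FiniteDimensional ℝ (P.prod P') := (Sig_prodEquiv P P').symm.finiteDimensional
  rw [Sig_key h2 h3 h4 h5, Sig_key h2' h3' h4' h5', ← Module.finrank_prod,
    ← (Sig_prodEquiv P P').finrank_eq]
  refine Sig_key (T := T.prod T') (Submodule.prod_mono h2 h2') ?_ ?_ ?_
  · rintro ⟨x, y⟩ ⟨hx, hy⟩ h0
    rw [prodForm_apply]
    have e1 : 0 ≤ b x x := by
      by_cases h : x = 0
      · simp [h]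
      · exact (h3 x hx h).le
    have e2 : 0 ≤ b' y y := by
      by_cases h : y = 0
      · simp [h]
      · exact (h3' y hy h).le
    by_cases h : x = 0
    · have hy0 : y ≠ 0 := fun h' => h0 (by rw [h, h']; rfl)
      have := h3' y hy hy0
      simp only
      linarith
    · have := h3 x hx h
      simp only
      linarith
  · rintro ⟨x, y⟩ ⟨hx, hy⟩
    rw [prodForm_apply]
    exact add_nonpos (h4 x hx) (h4' y hy)
  · rw [Submodule.prod_sup_prod]
    exact Submodule.prod_mono h5 h5'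

theorem Sig_finRk_of_finite [FiniteDimensional ℝ M] (b : M →ₗ[ℝ] M →ₗ[ℝ] ℝ) (S : Submodule ℝ M) :
    FinRk b S :=
  ⟨S, le_rfl, IsNoetherian.noetherian S, fun x hx => ⟨x, hx, fun y _ => by simp⟩⟩

/-- `n ≤ p + q` for a nondegenerate symmetric form. -/
theorem Sig_dim_le [FiniteDimensional ℝ M] {B : M →ₗ[ℝ] M →ₗ[ℝ] ℝ} (hs : ∀ x y, B y x = B x y)
    (hnd : ∀ x, (∀ y, B x y = 0) → x = 0) :
    finrank ℝ M ≤ posIdx B ⊤ + posIdx (-B) ⊤ := by
  obtain ⟨P, T, h1, h2, -, h3, h4, h5, h6⟩ :=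
    Sig_split_symm (S := ⊤) (fun x _ y _ => hs x y) (Sig_finRk_of_finite B ⊤)
  have e1 : finrank ℝ P ≤ posIdx B ⊤ := Sig_le (Sig_finRk_of_finite B ⊤) le_top h3
  have e2 : finrank ℝ T ≤ posIdx (-B) ⊤ := by
    refine Sig_le (Sig_finRk_of_finite _ ⊤) le_top fun x hx hx0 => ?_
    simp only [LinearMap.neg_apply, neg_pos]
    refine lt_of_le_of_ne (h4 x hx) fun h0 => hx0 (hnd x fun y => ?_)
    obtain ⟨p, hp, t, ht, rfl⟩ := Submodule.mem_sup.1 (h5 (Submodule.mem_top (x := y)))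
    rw [map_add, hs p x, h6 p hp x hx, zero_add]
    have key : ∀ c : ℝ, B t t * (c * c) + 2 * B x t * c + 0 ≤ 0 := by
      intro c
      have := h4 (x + c • t) (T.add_mem hx (T.smul_mem c ht))
      simp only [map_add, map_smul, LinearMap.add_apply, LinearMap.smul_apply, smul_eq_mul,
        h0, hs x t] at this
      linarith
    have := discrim_le_zero_of_nonpos key
    simp only [discrim] at this
    nlinarith
  have e3 := Submodule.finrank_add_le_finrank_add_finrank P T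
  rw [top_le_iff.1 h5, finrank_top] at e3
  omega

theorem Sig_posIdx_coiso [FiniteDimensional ℝ M] {B : M →ₗ[ℝ] M →ₗ[ℝ] ℝ}
    (hs : ∀ x y, B y x = B x y) (hnd : ∀ x, (∀ y, B x y = 0) → x = 0) {W R : Submodule ℝ M}
    (hR : R ≤ W) (hRW : ∀ x ∈ W, ∀ y ∈ R, B x y = 0)
    (hdim : finrank ℝ W + finrank ℝ R = finrank ℝ M) :
    posIdx B W + finrank ℝ R = posIdx B ⊤ := by
  have e0 := Sig_dim_le hs hnd
  obtain ⟨P, -, -, hP, hPpos⟩ := Sig_attained (Sig_finRk_of_finite B ⊤)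
  obtain ⟨N, -, -, hN, hNneg⟩ := Sig_attained (Sig_finRk_of_finite (-B) ⊤)
  obtain ⟨P', hP'W, -, hP', hP'pos⟩ := Sig_attained (Sig_finRk_of_finite B W)
  have e1 : finrank ℝ (P ⊓ W : Submodule ℝ M) ≤ posIdx B W :=
    Sig_le (Sig_finRk_of_finite B W) inf_le_right fun x hx => hPpos x hx.1
  have e2 := Submodule.finrank_sup_add_finrank_inf_eq P W
  have e3 := Submodule.finrank_le (P ⊔ W)
  have e4 := Submodule.finrank_sup_add_finrank_inf_eq P' R
  have e5 : P' ⊓ R = ⊥ := by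
    rw [eq_bot_iff]
    intro x hx
    by_contra h
    exact (hP'pos x hx.1 h).ne' (hRW x (hR hx.2) x hx.2)
  rw [e5, finrank_bot] at e4
  have e6 : Disjoint (P' ⊔ R) N := by
    rw [Submodule.disjoint_def]
    intro x hx hxN
    by_contra h
    have h1 := hNneg x hxN h
    obtain ⟨p, hp, r, hr, rfl⟩ := Submodule.mem_sup.1 hx
    have h2 : 0 ≤ B p p := by
      by_cases h' : p = 0
      · simp [h']
      · exact (hP'pos p hp h').le
    simp only [map_add, LinearMap.add_apply, LinearMap.neg_apply, hs p r,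
      hRW p (hP'W hp) r hr, hRW r (hR hr) r hr] at h1
    linarith
  have e7 := Submodule.finrank_add_finrank_le_of_disjoint e6
  omega

theorem Sig_coiso_fin [FiniteDimensional ℝ M] {B : M →ₗ[ℝ] M →ₗ[ℝ] ℝ}
    (hs : ∀ x y, B y x = B x y) (hnd : ∀ x, (∀ y, B x y = 0) → x = 0) {W : Submodule ℝ M}
    (hco : ∀ y, (∀ x ∈ W, B x y = 0) → y ∈ W) : sig B W = sig B ⊤ := by
  let R : Submodule ℝ M := LinearMap.BilinForm.orthogonal B W
  have hnd' : LinearMap.BilinForm.Nondegenerate B :=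
    ⟨hnd, fun y hy => hnd y fun x => by rw [hs x y]; exact hy x⟩
  have hdim : finrank ℝ W + finrank ℝ R = finrank ℝ M := by
    have h1 := LinearMap.BilinForm.finrank_orthogonal hnd' W
    have h2 := Submodule.finrank_le W
    change finrank ℝ R = _ at h1
    omega
  have hR : R ≤ W := fun y hy => hco y hy
  have hRW : ∀ x ∈ W, ∀ y ∈ R, B x y = 0 := fun x hx y hy => hy x hx
  have e1 := Sig_posIdx_coiso hs hnd hR hRW hdim
  have e2 := Sig_posIdx_coiso (B := -B) (fun x y => by simp only [LinearMap.neg_apply, hs x y])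
    (fun x hx => hnd x fun y => by simpa using hx y) hR
    (fun x hx y hy => by simp only [LinearMap.neg_apply, hRW x hx y hy, neg_zero]) hdim
  unfold sig
  omega

/-- L1: a coisotropic submodule has the same signature.  Hint: skew case `sig_eq_zero`.  Symmetric
case: pass to `Q = S / rad` (finite-dimensional, nondegenerate, `p + q = n`); the image `S̄'`
contains `R = S̄'^⊥`, has codimension `r = dim R` and radical `R`, so `p' + q' = n - 2 r`,
`p' ≥ p - r`, `q' ≥ q - r`. -/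
theorem sig_of_coisotropic {b : M →ₗ[ℝ] M →ₗ[ℝ] ℝ} {S S' : Submodule ℝ M} (hle : S' ≤ S)
    (hs : SymOn b S) (hf : FinRk b S)
    (hco : ∀ y ∈ S, (∀ x ∈ S', b x y = 0) → ∃ x ∈ S', ∀ w ∈ S, b (x - y) w = 0) :
    sig b S' = sig b S := by
  rcases hs with hs | hs
  swap
  · rw [sig_eq_zero (Sig_skew hs), sig_eq_zero fun x hx => Sig_skew hs x (hle hx)]
  let B0 : S →ₗ[ℝ] S →ₗ[ℝ] ℝ := b.domRestrict₁₂ S S
  have hB0 : ∀ x y : S, B0 x y = b x y := fun _ _ => rfl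
  let K : Submodule ℝ S := LinearMap.ker B0
  have hK : ∀ x : S, x ∈ K ↔ ∀ y ∈ S, b x y = 0 := fun x => by
    simp only [K, LinearMap.mem_ker, LinearMap.ext_iff, hB0, LinearMap.zero_apply, Subtype.forall]
  have hK' : K ≤ LinearMap.ker B0.flip := fun x hx => by
    rw [LinearMap.mem_ker]
    ext y
    rw [LinearMap.flip_apply, hB0, hs x x.2 y y.2]
    exact (hK x).1 hx y y.2
  let B : (S ⧸ K) →ₗ[ℝ] (S ⧸ K) →ₗ[ℝ] ℝ := B0.liftQ₂ K K le_rfl hK'
  have hB : ∀ x y : S, B (K.mkQ x) (K.mkQ y) = b x y := fun _ _ => rfl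
  have hsurj := K.mkQ_surjective
  have : FiniteDimensional ℝ (S ⧸ K) := by
    obtain ⟨F, hF, hfg, hrad⟩ := hf
    have : FiniteDimensional ℝ F := Module.Finite.iff_fg.2 hfg
    refine Module.Finite.of_surjective (K.mkQ ∘ₗ Submodule.inclusion hF) fun q => ?_
    obtain ⟨x, rfl⟩ := hsurj q
    obtain ⟨f, hf, h⟩ := hrad x x.2
    refine ⟨⟨f, hf⟩, ?_⟩
    rw [LinearMap.comp_apply, eq_comm, ← sub_eq_zero, ← map_sub]
    exact (Submodule.Quotient.mk_eq_zero K).2 ((hK _).2 h)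
  let W0 : Submodule ℝ S := S'.comap S.subtype
  have e1 : sig b S = sig B0 ⊤ :=
    sig_of_map S.subtype (fun x _ => x.2) (fun _ _ _ _ => rfl)
      fun y hy => ⟨⟨y, hy⟩, Submodule.mem_top, fun w _ => by simp⟩
  have e2 : sig b S' = sig B0 W0 :=
    sig_of_map S.subtype (fun x hx => hx) (fun _ _ _ _ => rfl)
      fun y hy => ⟨⟨y, hle hy⟩, hy, fun w _ => by simp⟩
  have e3 : sig B ⊤ = sig B0 ⊤ :=
    sig_of_map K.mkQ (fun x _ => Submodule.mem_top) (fun _ _ _ _ => rfl) fun y _ => by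
      obtain ⟨x, rfl⟩ := hsurj y
      exact ⟨x, Submodule.mem_top, fun w _ => by simp⟩
  have e4 : sig B (W0.map K.mkQ) = sig B0 W0 :=
    sig_of_map K.mkQ (fun x hx => Submodule.mem_map_of_mem hx) (fun _ _ _ _ => rfl) fun y hy => by
      obtain ⟨x, hx, rfl⟩ := hy
      exact ⟨x, hx, fun w _ => by simp⟩
  rw [e1, e2, ← e3, ← e4]
  refine Sig_coiso_fin (fun x y => ?_) (fun x hx => ?_) fun y hy => ?_
  · obtain ⟨x, rfl⟩ := hsurj x
    obtain ⟨y, rfl⟩ := hsurj y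
    rw [hB, hB, hs x x.2 y y.2]
  · obtain ⟨x, rfl⟩ := hsurj x
    exact (Submodule.Quotient.mk_eq_zero K).2 ((hK _).2 fun y hy => hx (K.mkQ ⟨y, hy⟩))
  · obtain ⟨y, rfl⟩ := hsurj y
    obtain ⟨x, hx, h⟩ := hco y y.2 fun x hx =>
      hy (K.mkQ ⟨x, hle hx⟩) (Submodule.mem_map_of_mem hx)
    refine ⟨⟨x, hle hx⟩, hx, ?_⟩
    rw [← sub_eq_zero, ← map_sub]
    exact (Submodule.Quotient.mk_eq_zero K).2 ((hK _).2 h)

/-- L2: additivity.  Hint: replace each skew summand by the zero form (`sig_congr`); for symmetric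
finite rank forms `posIdx b S + posIdx (-b) S` is the rank. -/
theorem sig_prod {b : M →ₗ[ℝ] M →ₗ[ℝ] ℝ} {b' : M' →ₗ[ℝ] M' →ₗ[ℝ] ℝ} {S : Submodule ℝ M}
    {S' : Submodule ℝ M'} (hs : SymOn b S) (hf : FinRk b S) (hs' : SymOn b' S')
    (hf' : FinRk b' S') : sig (prodForm b b') (S.prod S') = sig b S + sig b' S' := by
  have e : -prodForm b b' = prodForm (-b) (-b') := by
    refine LinearMap.ext fun x => LinearMap.ext fun y => ?_
    simp only [LinearMap.neg_apply, prodForm_apply]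
    ring
  unfold sig
  rw [e, Sig_posIdx_prod hs hf hs' hf', Sig_posIdx_prod (Sig_symOn_neg hs) (Sig_finRk_neg hf)
    (Sig_symOn_neg hs') (Sig_finRk_neg hf')]
  push_cast
  ring

end Crest.Agent.R217
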