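import Crest.Agent.R217.Flux
import Crest.Agent.R217.PD
import Crest.Agent.R217.Sig

set_option autoImplicit false
set_option linter.unusedSectionVars false
open Set Filter Topology

namespace Crest.Agent.R217

/-! The intersection form is symmetric or skew, of finite rank. -/

variable {X V : Type*} [AddCommGroup V] [Module ℝ V] {h : V →ₗ[ℝ] V →ₗ[ℝ] ℝ} {g : Sys X V}

theorem FormSym_flux_rev [TopologicalSpace X] [T2Space X] (o : Orient X) {C Θ : Set X}
    (hA : Adm C Θ) : ∃ σ : ℝ, (σ = 1 ∨ σ = -1) ∧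
      ∀ w ∈ Zc (1 : Sys X ℝ) C, flux o C Θ (rev w) = σ * flux o C Θ w := by
  obtain ⟨σ, hσ, h1⟩ := o.exists_rev_sign
  refine ⟨σ, hσ, fun w hw => ?_⟩
  have h2 := J_cut_delta o hA.cpt (a := rev (cut Θ w) - cut Θ (rev w))
    ((inter_subset_inter_left _ (supp_subset_iff.2 fun x hx => vanAt_rev_cut hx w)).trans hA.fr)
  rw [map_sub, map_sub, map_sub, sub_eq_zero] at h2
  rw [flux_apply, flux_apply, ← h2, delta_rev, ← h1 _ (isZc_flux hA.cpt hw
    ((inter_subset_inter_left _ inter_subset_left).trans hA.fr)), eps_cut]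
  refine o.J_congr fun x => ?_
  by_cases hx : x ∈ frontier C
  · have h3 : x ∈ C := hA.cpt.isClosed.frontier_subset hx
    have h4 := (vanAt_delta_cut_of_cocycle (S := Θ) (fun h' => hx.2 (hA.fr ⟨h', h3⟩))
      (hw x h3)).eps
    exact (h4.rev.cut C).sub (h4.cut C).rev
  · exact (vanAt_rev_cut hx _).symm_sub

/-- Hint: with `w = pair h x y`, `pair h y x = σ_h • rev w`; `cut Θ (rev w) - rev (cut Θ w)` lives
on the frontier (`J_cut_delta`); `delta_rev`; `Orient.exists_rev_sign` for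
`z = cut C (δ (cut Θ w))`. -/
theorem form_symOn [TopologicalSpace X] [T2Space X] (o : Orient X) (hf : IsForm h) {C Θ : Set X}
    (hA : Adm C Θ) (hg : ∀ x ∈ C, CocAt g x) (ho : ∀ x y, IsOrth h (g x y)) :
    SymOn (form o h C Θ) (Zc g C) := by
  obtain ⟨σ, hσ, h1⟩ := FormSym_flux_rev o hA
  have key : ∀ τ : ℝ, (∀ u v, h v u = τ * h u v) → ∀ x ∈ Zc g C, ∀ y ∈ Zc g C,
      τ * form o h C Θ y x = σ * form o h C Θ x y := by
    intro τ hτ x hx y hy
    rw [form_apply, form_apply, ← h1 _ (pair_mem_Zc hg ho hx hy), rev_pair hτ, map_smul,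
      smul_eq_mul]
  rcases hf.symm with h2 | h2
  · have h3 := key 1 fun u v => by rw [h2, one_mul]
    rcases hσ with rfl | rfl
    · exact Or.inl fun x hx y hy => by linarith [h3 x hx y hy]
    · exact Or.inr fun x hx y hy => by linarith [h3 x hx y hy]
  · have h3 := key (-1) fun u v => by rw [h2, neg_one_mul]
    rcases hσ with rfl | rfl
    · exact Or.inr fun x hx y hy => by linarith [h3 x hx y hy]
    · exact Or.inl fun x hx y hy => by linarith [h3 x hx y hy]

variable [NormedAddCommGroup X] [NormedSpace ℝ X] [FiniteDimensional ℝ X] [FiniteDimensional ℝ V]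

/-- Hint: `exists_fin_pair` with `K = frontier Θ ∩ C`, `O = interior C`; `form_restrict`,
`form_Bd_left` on `A`, `exists_fg_of_le_sup`. -/
theorem form_finRk (o : Orient X) {C Θ : Set X} (hA : Adm C Θ) (hg : ∀ x ∈ C, CocAt g x)
    (ho : ∀ x y, IsOrth h (g x y)) : FinRk (form o h C Θ) (Zc g C) := by
  obtain ⟨U, A, hUA, hK, hO, F, hF, hle⟩ := exists_fin_pair (g := g)
    (hA.cpt.inter_left isClosed_frontier) isOpen_interior hA.fr
    fun x hx => hg x (interior_subset hx)
  have hAC : A ⊆ C := hO.trans interior_subset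
  have hfr : frontier Θ ∩ C ⊆ interior A := hK.trans (interior_maximal hUA.sub hUA.isOpen)
  obtain ⟨F', h1, h2, h3⟩ := exists_fg_of_le_sup (S := Zc g C) (B := Bd g A) hF
    ((Zc_mono g hAC).trans hle)
  refine ⟨F', h1, h2, fun x hx => ?_⟩
  obtain ⟨b, hb, f, hf, rfl⟩ := Submodule.mem_sup.1 (h3 hx)
  refine ⟨f, hf, fun y hy => ?_⟩
  rw [add_sub_cancel_right, form_restrict o hUA.cpt.isClosed hA.cpt.isClosed hAC hfr hg ho hb.1 hy]
  exact form_Bd_left o ⟨hUA.cpt, (inter_subset_inter_right _ hAC).trans hfr⟩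
    (fun z hz => hg z (hAC hz)) ho hb.2 (Zc_mono g hAC hy)

end Crest.Agent.R217
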