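import Crest.Agent.R217.Free1

set_option autoImplicit false
set_option linter.unusedSectionVars false
open Set Filter Topology

namespace Crest.Agent.R217

/-! Without fixed points the twisted signatures agree. -/

variable {X V : Type*} [AddCommGroup V] [Module ℝ V]

variable [FiniteDimensional ℝ V] [NormedAddCommGroup X] [NormedSpace ℝ X] [FiniteDimensional ℝ X]
  {o : Orient X} {p : ℕ} [NeZero p] {D : Dyn o p} {h : V →ₗ[ℝ] V →ₗ[ℝ] ℝ}
  {ζ : AddChar (ZMod p) (Module.End ℝ V)} {g : Sys X V} {j : X → ZMod p}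

theorem Free_const {f : ZMod p → ℤ} (hf : ∀ a b, f (a + 1) - f a = f (b + 1) - f b) (a b : ZMod p) :
    f a = f b := by
  have h1 : ∑ a, (f (a + 1) - f a) = 0 := by
    rw [Finset.sum_sub_distrib, sub_eq_zero]
    exact Equiv.sum_comp (Equiv.addRight (1 : ZMod p)) f
  rw [Finset.sum_congr rfl fun a _ => hf a 0, Finset.sum_const, Finset.card_univ, nsmul_eq_mul,
    mul_eq_zero] at h1
  have h2 : f (0 + 1) - f 0 = 0 := h1.resolve_left (by exact_mod_cast Fintype.card_ne_zero)
  have h3 : ∀ n : ℕ, f n = f 0 := by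
    intro n
    induction n with
    | zero => simp
    | succ n ih =>
      have := hf n 0
      rw [h2, sub_eq_zero] at this
      rw [Nat.cast_succ, this, ih]
  rw [← ZMod.natCast_zmod_val a, ← ZMod.natCast_zmod_val b, h3, h3]

theorem Free_ind (U : X → Set X) (u : X → X → ZMod p) (t : Finset X)
    (hU : ∀ x ∈ t, IsOpen (U x) ∧ U x ⊆ D.W ∧ InvS D.W D.T (U x) ∧
      (∀ y ∈ U x, ∀ᶠ z in 𝓝 y, u x z = u x y) ∧ ∀ y ∈ U x, u x (D.T y) = u x y + 1) :
    ∀ (g : Sys X V) (j : X → ZMod p) (C Θ : Set X), Tw D h ζ g j → Hyp D ζ g j C Θ →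
      frontier Θ ∩ C ⊆ ⋃ x ∈ t, U x → ∀ a b : ZMod p,
        sigT D h ζ g (fun x => j x + a) C Θ = sigT D h ζ g (fun x => j x + b) C Θ := by
  classical
  induction t using Finset.induction_on with
  | empty =>
    intro g j C Θ ht hH hc a b
    have he : frontier Θ ∩ C = ∅ := by simpa using hc
    rw [sigT_of_frontier_empty (ht.shift a) (hH.shift ht a) he,
      sigT_of_frontier_empty (ht.shift b) (hH.shift ht b) he]
  | insert x t _ ih =>
    intro g j C Θ ht hH hc
    rw [Finset.set_biUnion_insert] at hc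
    obtain ⟨h1, h2, h3, h4, h5⟩ := hU x (Finset.mem_insert_self _ _)
    have hU' := fun y hy => hU y (Finset.mem_insert_of_mem hy)
    obtain ⟨g', j', C', Θ', ht', hH', hc', hs⟩ := free_step ht hH h1 h2 h3 h4 h5
      (isOpen_biUnion fun y hy => (hU' y hy).1) hc
    refine Free_const (f := fun a => sigT D h ζ g (fun x => j x + a) C Θ) fun a b => ?_
    rw [← hs, ← hs]
    exact ih hU' g' j' C' Θ' ht' hH' hc' a b

/-- Hint: cover the compact set `frontier Θ ∩ C` by finitely many sets from `D.triv`; induct on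
the finite family, for all data `g j C Θ`.  If `a ↦ f (a + 1) - f a` is a constant `c` on
`ZMod p` then summing gives `p * c = 0`, so `f` is constant. -/
theorem sigT_const_of_free (ht : Tw D h ζ g j) {C Θ : Set X} (hH : Hyp D ζ g j C Θ)
    (hfree : ∀ x ∈ frontier Θ ∩ C, D.T x ≠ x) (a : ZMod p) :
    sigT D h ζ g (fun x => j x + a) C Θ = sigT D h ζ g j C Θ := by
  have hY : IsCompact (frontier Θ ∩ C) := hH.adm.cpt.inter_left isClosed_frontier
  have htr := fun x (hx : x ∈ frontier Θ ∩ C) => D.triv x (hH.good x hx.2).1 (hfree x hx)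
  choose! U u h1 h2 h3 h4 h5 h6 using htr
  obtain ⟨t, ht1, ht2⟩ := hY.elim_nhds_subcover U fun x hx => (h1 x hx).mem_nhds (h2 x hx)
  have := Free_ind U u t (fun x hx => ⟨h1 x (ht1 x hx), h3 x (ht1 x hx), h4 x (ht1 x hx),
    h5 x (ht1 x hx), h6 x (ht1 x hx)⟩) g j C Θ ht hH ht2 a 0
  simpa using this

end Crest.Agent.R217
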