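import Crest.Agent.R217.Novikov

set_option autoImplicit false
set_option linter.unusedSectionVars false
open Set Filter Topology

namespace Crest.Agent.R217

/-! Without fixed points the twisted signatures agree. -/

variable {X V : Type*} [AddCommGroup V] [Module ℝ V]

open Classical in
/-- Indicator with values in `ZMod p`. -/
noncomputable def indZ (p : ℕ) (S : Set X) (x : X) : ZMod p := if x ∈ S then 1 else 0

/-- The regluing of `g` along the frontier of `Θ` by the local trivialisation `u`. -/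
noncomputable def twS {p : ℕ} (ζ : AddChar (ZMod p) (Module.End ℝ V)) (u : X → ZMod p)
    (Θ : Set X) (g : Sys X V) : Sys X V :=
  fun x y => ζ (u x * (indZ p Θ x - indZ p Θ y)) * g x y

variable [FiniteDimensional ℝ V] [NormedAddCommGroup X] [NormedSpace ℝ X] [FiniteDimensional ℝ X]
  {o : Orient X} {p : ℕ} [NeZero p] {D : Dyn o p} {h : V →ₗ[ℝ] V →ₗ[ℝ] ℝ}
  {ζ : AddChar (ZMod p) (Module.End ℝ V)} {g : Sys X V} {j : X → ZMod p}

private theorem Free0_ind {W Θ : Set X} {T : X → X} (hΘ : InvS W T Θ) {x : X} (hx : x ∈ W) :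
    indZ p Θ (T x) = indZ p Θ x := by
  by_cases h : x ∈ Θ
  · simp only [indZ, if_pos h, if_pos ((hΘ x hx).2 h)]
  · simp only [indZ, if_neg h, if_neg fun h' => h ((hΘ x hx).1 h')]

private theorem Free0_iter {Θ : Set X} (hΘ : InvS D.W D.T Θ) {x : X} (hx : x ∈ D.W) (i : ℕ) :
    indZ p Θ (D.T^[i] x) = indZ p Θ x := by
  induction i with
  | zero => rfl
  | succ i ih => rw [Function.iterate_succ_apply', Free0_ind hΘ (D.mapsTo.iterate i hx), ih]

private theorem Free0_const {Θ : Set X} {x : X} (hx : x ∉ frontier Θ) :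
    ∀ᶠ y in 𝓝 x, indZ p Θ y = indZ p Θ x := by
  by_cases h1 : x ∈ interior Θ
  · filter_upwards [mem_interior_iff_mem_nhds.1 h1] with y hy
    simp only [indZ, if_pos hy, if_pos (interior_subset h1)]
  · have h2 : x ∉ closure Θ := fun h => hx ⟨h, h1⟩
    filter_upwards [isClosed_closure.isOpen_compl.mem_nhds h2] with y hy
    simp only [indZ, if_neg fun h => hy (subset_closure h), if_neg fun h => h2 (subset_closure h)]

theorem tw_twS (ht : Tw D h ζ g j) (u : X → ZMod p) {Θ : Set X} (hΘ : InvS D.W D.T Θ) :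
    Tw D h ζ (twS ζ u Θ g) (fun x => j x + indZ p Θ x) := by
  refine ⟨ht.form, fun x y a b => ?_, ht.ζorth, fun x y a => ?_, fun x hx => ?_⟩
  · simp only [twS, Module.End.mul_apply]
    rw [ht.ζorth, ht.orth]
  · simp only [twS]
    rw [mul_assoc, ht.comm, ← mul_assoc, ← mul_assoc, ← ζ.map_add_eq_mul, ← ζ.map_add_eq_mul,
      add_comm]
  · simp only [ht.jinv x hx, Free0_ind hΘ hx]

theorem goodAt_twS (ht : Tw D h ζ g j) {u : X → ZMod p} {Θ U₀ : Set X} (hΘ : InvS D.W D.T Θ)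
    (hU : IsOpen U₀) (hUW : U₀ ⊆ D.W) (hu : ∀ y ∈ U₀, ∀ᶠ z in 𝓝 y, u z = u y)
    (huT : ∀ y ∈ U₀, u (D.T y) = u y + 1) {x : X} (hx : GoodAt D ζ g j x)
    (hx' : x ∉ frontier Θ ∨ x ∈ U₀) :
    GoodAt D ζ (twS ζ u Θ g) (fun x => j x + indZ p Θ x) x := by
  obtain ⟨hxW, ⟨N₁, hN₁, hc1, hc2⟩, N₂, hN₂, he1, he2⟩ := hx
  obtain ⟨N, hN, k1, k2⟩ : ∃ N ∈ 𝓝 x,
      (∀ a ∈ N, ∀ b ∈ N, ∀ c ∈ N, (u b - u a) * (indZ p Θ b - indZ p Θ c) = 0) ∧
      ∀ b ∈ N, ∀ c ∈ N, (u (D.T b) - u b - 1) * (indZ p Θ b - indZ p Θ c) = 0 := by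
    rcases hx' with h1 | h1
    · refine ⟨_, Free0_const (p := p) h1, fun a _ b hb c hc => ?_, fun b hb c hc => ?_⟩
      · rw [show indZ p Θ b = _ from hb, show indZ p Θ c = _ from hc, sub_self, mul_zero]
      · rw [show indZ p Θ b = _ from hb, show indZ p Θ c = _ from hc, sub_self, mul_zero]
    · refine ⟨_, inter_mem (hu x h1) (hU.mem_nhds h1), fun a ha b hb c _ => ?_,
        fun b hb c _ => ?_⟩
      · rw [show u b = _ from hb.1, show u a = _ from ha.1, sub_self, zero_mul]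
      · rw [huT b hb.2, add_sub_cancel_left, sub_self, zero_mul]
  refine ⟨hxW, ⟨N₁ ∩ N, inter_mem hN₁ hN, fun a ha => ?_, fun a ha b hb c hc => ?_⟩,
    N₂ ∩ N ∩ D.W, inter_mem (inter_mem hN₂ hN) (D.isOpen_W.mem_nhds hxW),
    fun b hb c hc => ?_, fun b hb i => ?_⟩
  · simp only [twS, sub_self, mul_zero, AddChar.map_zero_eq_one, one_mul, hc1 a ha.1]
  · simp only [twS]
    rw [mul_assoc, ← mul_assoc (g a b), ht.comm, mul_assoc, hc2 a ha.1 b hb.1 c hc.1, ← mul_assoc,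
      ← ζ.map_add_eq_mul]
    congr 2
    linear_combination k1 a ha.2 b hb.2 c hc.2
  · simp only [twS]
    rw [Free0_ind hΘ hb.2, Free0_ind hΘ hc.2, ζ.map_add_eq_mul (j c), mul_assoc,
      ← mul_assoc (g _ _), he1 b hb.1.1 c hc.1.1, mul_assoc, ht.comm, ← mul_assoc, ← mul_assoc,
      ← mul_assoc, ← ζ.map_add_eq_mul, ← ζ.map_add_eq_mul, ← ζ.map_add_eq_mul]
    congr 2
    linear_combination k2 b hb.1.2 c hc.1.2
  · simp only [twS, Free0_iter hΘ hb.2, sub_self, mul_zero, AddChar.map_zero_eq_one, one_mul,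
      he2 b hb.1.1 i]

end Crest.Agent.R217
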