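import Crest.Agent.R217.Free0

set_option autoImplicit false
set_option linter.unusedSectionVars false
open Set Filter Topology

namespace Crest.Agent.R217

/-! Without fixed points the twisted signatures agree. -/

variable {X V : Type*} [AddCommGroup V] [Module ℝ V]

variable [FiniteDimensional ℝ V] [NormedAddCommGroup X] [NormedSpace ℝ X] [FiniteDimensional ℝ X]
  {o : Orient X} {p : ℕ} [NeZero p] {D : Dyn o p} {h : V →ₗ[ℝ] V →ₗ[ℝ] ℝ}
  {ζ : AddChar (ZMod p) (Module.End ℝ V)} {g : Sys X V} {j : X → ZMod p}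

/-- One step: remove the set `U₀` from the cover.  With `Y = frontier Θ ∩ C`, `Y₁ = Y \ U₀`
(compact, invariant), choose by `D.nbhd` invariant compact sets
`Y ⊆ int Q₃, Q₃ ⊆ int Q, Q ⊆ int Q', Q' ⊆ int C` and `Y₁ ⊆ int Q₂, Q₂ ⊆ int Q₁, Q₁ ⊆ U' ∩ int Q₃`.
Take `g' = twS ζ u Θ g`, `j' = j + indZ Θ`, `C' = Q' \ int Q₂`, `Θ' = Q₁ᶜ`.  Then
`sigT C' Q₁ᶜ = sigT C' Qᶜ` (`sigT_move`) `= sigT (C₊ ∪ C₋) Qᶜ` (`novikov`, `C₊, C₋` as in
`sigT_slab`) `= sigT C₊ Qᶜ + sigT C₋ Qᶜ` (`sigT_union`); near `C₊ ⊆ int Θ` the new data agree with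
`(g, j + a + 1)`, near `C₋` with `(g, j + a)` (`sigT_congr`); finish with `sigT_slab`. -/
theorem free_step (ht : Tw D h ζ g j) {C Θ U₀ U' : Set X} (hH : Hyp D ζ g j C Θ)
    {u : X → ZMod p} (hU : IsOpen U₀) (hUW : U₀ ⊆ D.W) (hUi : InvS D.W D.T U₀)
    (hu : ∀ y ∈ U₀, ∀ᶠ z in 𝓝 y, u z = u y) (huT : ∀ y ∈ U₀, u (D.T y) = u y + 1)
    (hU' : IsOpen U') (hcov : frontier Θ ∩ C ⊆ U₀ ∪ U') :
    ∃ (g' : Sys X V) (j' : X → ZMod p) (C' Θ' : Set X), Tw D h ζ g' j' ∧ Hyp D ζ g' j' C' Θ' ∧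
      frontier Θ' ∩ C' ⊆ U' ∧ ∀ a : ZMod p,
        sigT D h ζ g' (fun x => j' x + a) C' Θ' =
          sigT D h ζ g (fun x => j x + (a + 1)) C Θ - sigT D h ζ g (fun x => j x + a) C Θ := by
  have hC := hH.adm.cpt
  have hCW : C ⊆ D.W := fun x hx => (hH.good x hx).1
  have hY : IsCompact (frontier Θ ∩ C) := hC.inter_left isClosed_frontier
  have hYi : InvS D.W D.T (frontier Θ ∩ C) := hH.invΘ.frontier.inter hH.invC
  obtain ⟨Q₃, c₃, i₃, s₀, w₃⟩ :=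
    D.nbhd _ (interior C) hY (fun x hx => hCW hx.2) hYi isOpen_interior hH.adm.fr
  obtain ⟨Q, c, i, s₃, w⟩ := D.nbhd Q₃ (interior C) c₃ (fun x hx => (w₃ hx).2) i₃ isOpen_interior
    (fun x hx => (w₃ hx).1)
  obtain ⟨Q', c', i', s, w'⟩ := D.nbhd Q (interior C) c (fun x hx => (w hx).2) i isOpen_interior
    (fun x hx => (w hx).1)
  have s' : Q' ⊆ interior C := fun x hx => (w' hx).1
  have hQ'C : Q' ⊆ C := s'.trans interior_subset
  obtain ⟨Q₂, c₂, i₂, s₁, w₂⟩ := D.nbhd ((frontier Θ ∩ C) \ U₀) (U' ∩ interior Q₃) (hY.diff hU)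
    (fun x hx => hCW hx.1.2) (hYi.diff hUi) (hU'.inter isOpen_interior)
    (fun x hx => ⟨(hcov hx.1).resolve_left hx.2, s₀ hx.1⟩)
  obtain ⟨Q₁, c₁, i₁, s₂, w₁⟩ := D.nbhd Q₂ (U' ∩ interior Q₃) c₂ (fun x hx => (w₂ hx).2) i₂
    (hU'.inter isOpen_interior) (fun x hx => (w₂ hx).1)
  have h13 : Q₁ ⊆ Q₃ := fun x hx => interior_subset (w₁ hx).1.2
  have h21 : Q₂ ⊆ Q₁ := s₂.trans interior_subset
  have h3Q : Q₃ ⊆ Q := s₃.trans interior_subset
  have hfr : ∀ {R : Set X}, IsCompact R → ∀ x ∈ frontier Rᶜ, x ∈ R ∧ x ∉ interior R := by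
    intro R hR x hx
    rw [frontier_compl, hR.isClosed.frontier_eq] at hx
    exact hx
  have hint : ∀ {R : Set X}, IsCompact R → ∀ x ∈ interior Q', x ∉ R →
      x ∈ interior (Q' \ interior R) := by
    intro R hR x h1 h2
    have ho : IsOpen (interior Q' ∩ Rᶜ) := isOpen_interior.inter hR.isClosed.isOpen_compl
    have hs : interior Q' ∩ Rᶜ ⊆ Q' \ interior R :=
      fun y hy => ⟨interior_subset hy.1, fun h => hy.2 (interior_subset h)⟩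
    exact interior_maximal hs ho ⟨h1, h2⟩
  have ht' := tw_twS ht u hH.invΘ
  have hgood : ∀ x ∈ Q' \ interior Q₂,
      GoodAt D ζ (twS ζ u Θ g) (fun x => j x + indZ p Θ x) x := by
    intro x hx
    refine goodAt_twS ht hH.invΘ hU hUW hu huT (hH.good x (hQ'C hx.1)) ?_
    by_contra hn
    push Not at hn
    exact hx.2 (s₁ ⟨⟨hn.1, hQ'C hx.1⟩, hn.2⟩)
  have hC' : IsCompact (Q' \ interior Q₂) := c'.diff isOpen_interior
  have hC'i : InvS D.W D.T (Q' \ interior Q₂) := i'.diff i₂.interior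
  refine ⟨twS ζ u Θ g, fun x => j x + indZ p Θ x, Q' \ interior Q₂, Q₁ᶜ, ht',
    ⟨⟨hC', fun x hx => ?_⟩, hgood, hC'i, i₁.compl⟩, fun x hx => (w₁ (hfr c₁ x hx.1).1).1.1,
    fun a => ?_⟩
  · obtain ⟨h1, h2⟩ := hfr c₁ x hx.1
    exact hint c₂ x (s (h3Q (h13 h1))) fun h => h2 (s₂ h)
  have hta := ht'.shift a
  have hH' : Hyp D ζ (twS ζ u Θ g) (fun x => j x + indZ p Θ x + a) (Q' \ interior Q₂) Qᶜ := by
    refine Hyp.shift ht' ⟨⟨hC', fun x hx => ?_⟩, hgood, hC'i, i.compl⟩ a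
    obtain ⟨h1, h2⟩ := hfr c x hx.1
    exact hint c₂ x (s h1) fun h => h2 (s₃ (h13 (h21 h)))
  have hsub : Q' \ interior Q₃ ⊆ Q' \ interior Q₂ :=
    fun x hx => ⟨hx.1, fun h => hx.2 (interior_mono (h21.trans h13) h)⟩
  have e1 : sigT D h ζ (twS ζ u Θ g) (fun x => j x + indZ p Θ x + a) (Q' \ interior Q₂) Q₁ᶜ =
      sigT D h ζ (twS ζ u Θ g) (fun x => j x + indZ p Θ x + a) (Q' \ interior Q₂) Qᶜ := by
    refine sigT_move hC' fun x _ hx => ?_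
    by_cases h2 : x ∈ Q₂
    · filter_upwards [mem_interior_iff_mem_nhds.1 (s₂ h2)] with y hy
      exact iff_of_false (fun h => h hy) fun h => h (h3Q (h13 hy))
    · have h3 : x ∉ Q := fun h => hx (hint c₂ x (s h) h2)
      filter_upwards [c.isClosed.isOpen_compl.mem_nhds h3] with y hy
      exact iff_of_true (fun h => hy (h3Q (h13 h))) hy
  have e2 := (novikov hta hH' (c'.diff isOpen_interior) (i'.diff i₃.interior) hsub fun x hx => by
    obtain ⟨h1, h2⟩ := hfr c x hx.1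
    exact hint c₃ x (s h1) fun h => h2 (s₃ h)).2
  obtain ⟨p1, -, p3, -⟩ := sigT_slab (ht.shift (a + 1)) (hH.shift ht (a + 1)) c₃ c c' i₃ i i' s₀ s₃ s s'
  obtain ⟨-, p2, -, p4⟩ := sigT_slab (ht.shift a) (hH.shift ht a) c₃ c c' i₃ i i' s₀ s₃ s s'
  have e3 := sigT_union hta (C₁ := (Q' \ interior Q₃) ∩ Θ) (C₂ := (Q' \ interior Q₃) \ Θ) (Θ := Qᶜ)
    ⟨p1.adm, fun x hx => hH'.good x (hsub hx.1), p1.invC, p1.invΘ⟩
    ⟨p2.adm, fun x hx => hH'.good x (hsub hx.1), p2.invC, p2.invΘ⟩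
    (Set.disjoint_left.2 fun x h1 h2 => h2.2 h1.2)
  rw [inter_union_sdiff] at e3
  have hnf : ∀ x ∈ Q' \ interior Q₃, x ∉ frontier Θ := fun x hx h => hx.2 (s₀ ⟨h, hQ'C hx.1⟩)
  have e4 : sigT D h ζ (twS ζ u Θ g) (fun x => j x + indZ p Θ x + a) ((Q' \ interior Q₃) ∩ Θ) Qᶜ =
      sigT D h ζ g (fun x => j x + (a + 1)) ((Q' \ interior Q₃) ∩ Θ) Qᶜ := by
    refine sigT_congr fun x hx => ⟨Θ, ?_, fun y hy z hz => ?_, fun y hy => ?_⟩
    · rw [← mem_interior_iff_mem_nhds]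
      by_contra hn
      exact hnf x hx.1 ⟨subset_closure hx.2, hn⟩
    · simp [twS, indZ, hy, hz]
    · simp only [indZ, if_pos hy]; ring
  have e5 : sigT D h ζ (twS ζ u Θ g) (fun x => j x + indZ p Θ x + a) ((Q' \ interior Q₃) \ Θ) Qᶜ =
      sigT D h ζ g (fun x => j x + a) ((Q' \ interior Q₃) \ Θ) Qᶜ := by
    refine sigT_congr fun x hx => ⟨Θᶜ, ?_, fun y hy z hz => ?_, fun y hy => ?_⟩
    · rw [← mem_interior_iff_mem_nhds]
      by_contra hn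
      refine hnf x hx.1 ?_
      rw [← frontier_compl]
      exact ⟨subset_closure hx.2, hn⟩
    · simp [twS, indZ, show y ∉ Θ from hy, show z ∉ Θ from hz]
    · simp [indZ, show y ∉ Θ from hy]
  rw [e1, e2, e3, e4, e5, p3, p4, sub_eq_add_neg]

end Crest.Agent.R217
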