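import Crest.Agent.R217.Global0

set_option autoImplicit false
set_option linter.unusedSectionVars false
open Set Filter Topology

namespace Crest.Agent.R217

/-! Globalisation. -/

variable {X M : Type*} [NormedAddCommGroup X] [InnerProductSpace ℝ X] [FiniteDimensional ℝ X]
  [TopologicalSpace M]

/-- No small compact subgroups.  Fix a chart `e`, `closedBall c (2 r) ⊆ e.target`, `ε` from
`caseA`, and let `U` be the set of `g` moving every `x ∈ e.symm '' closedBall c (2 r)` inside
`e.source` by less than `ε r` in the chart (tube lemma).  If `H ⊆ U` is compact and nontrivial,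
take `κ` from `exists_padic_elt` and `K = (Subgroup.zpowers κ).topologicalClosure`. -/
theorem no_small [T2Space M] [ConnectedSpace M] (hX : HasModel X)
    (hM : ∀ x : M, ∃ e : OpenPartialHomeomorph M X, x ∈ e.source) {G : Type*} [Group G]
    [TopologicalSpace G] [IsTopologicalGroup G] [T2Space G] [SecondCountableTopology G]
    (a : G → M → M) (hc : Continuous (fun q : G × M => a q.1 q.2)) (h1 : ∀ x, a 1 x = x)
    (hm : ∀ k k' x, a (k * k') x = a k (a k' x)) (hf : ∀ g, (∀ x, a g x = x) → g = 1) :
    ∃ U ∈ 𝓝 (1 : G), ∀ H : Subgroup G, IsCompact (H : Set G) → (H : Set G) ⊆ U → H = ⊥ := by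
  have : ProperSpace X := FiniteDimensional.proper_real X
  obtain ⟨ε, hε, hA⟩ := caseA hX
  obtain ⟨x₀⟩ : Nonempty M := inferInstance
  obtain ⟨e, he⟩ := hM x₀
  obtain ⟨ρ, hρ, hb⟩ := Metric.isOpen_iff.1 e.open_target (e x₀) (e.map_source he)
  set c := e x₀ with hcdef
  set r := ρ / 4 with hr
  have hr0 : 0 < r := by positivity
  have hB : Metric.closedBall c (2 * r) ⊆ e.target :=
    (Metric.closedBall_subset_ball (by linarith)).trans hb
  have hU : ∀ᶠ g in 𝓝 (1 : G), ∀ y ∈ Metric.closedBall c (2 * r),
      a g (e.symm y) ∈ e.source ∧ dist (e (a g (e.symm y))) y < ε * r := by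
    refine (isCompact_closedBall c (2 * r)).eventually_forall_of_forall_eventually
      (P := fun g y => a g (e.symm y) ∈ e.source ∧ dist (e (a g (e.symm y))) y < ε * r)
      fun y hy => ?_
    have hy' := hB hy
    have c1 : ContinuousAt (fun q : G × X => (q.1, e.symm q.2)) (1, y) :=
      continuousAt_fst.prodMk (ContinuousAt.comp (f := Prod.snd) (e.continuousAt_symm hy')
        continuousAt_snd)
    have c2 : ContinuousAt (fun q : G × X => a q.1 (e.symm q.2)) (1, y) :=
      hc.continuousAt.comp c1
    have v : a 1 (e.symm y) ∈ e.source := by rw [h1]; exact e.map_target hy'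
    have c3 : ContinuousAt (fun q : G × X => dist (e (a q.1 (e.symm q.2))) q.2) (1, y) :=
      (ContinuousAt.comp (f := fun q : G × X => a q.1 (e.symm q.2)) (e.continuousAt v) c2).dist
        continuousAt_snd
    refine (c2.eventually_mem (e.open_source.mem_nhds v)).and
      (c3.eventually_lt continuousAt_const ?_)
    simp only [h1, e.right_inv hy', dist_self]
    positivity
  refine ⟨_, hU, fun H hH hHU => ?_⟩
  by_contra hne
  obtain ⟨κ, hκH, p, hp, hκ1, hpp⟩ := exists_padic_elt G H hH hne
  have hle : (Subgroup.zpowers κ).topologicalClosure ≤ H :=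
    Subgroup.topologicalClosure_minimal _ (Subgroup.zpowers_le.2 hκH) hH.isClosed
  set K := (Subgroup.zpowers κ).topologicalClosure with hK
  have : CompactSpace K := isCompact_iff_compactSpace.1
    (hH.of_isClosed_subset (Subgroup.isClosed_topologicalClosure _) hle)
  have : SecondCountableTopology K := TopologicalSpace.Subtype.secondCountableTopology _
  let κ' : K := ⟨κ, Subgroup.le_topologicalClosure _ (Subgroup.mem_zpowers κ)⟩
  have hd : DenseRange (fun n : ℤ => κ' ^ n) := by
    intro k
    rw [IsInducing.subtypeVal.closure_eq_preimage_closure_image, ← range_comp]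
    exact k.2
  have hP : PP κ' p := by
    intro N hN
    obtain ⟨N', hN', hsub⟩ := (mem_nhds_subtype _ _ _).1 hN
    obtain ⟨k, hk⟩ := hpp N' hN'
    exact ⟨k, fun m => hsub (hk m)⟩
  let a' : K → M → M := fun k => a k
  have hc' : Continuous (fun q : K × M => a' q.1 q.2) :=
    hc.comp ((continuous_subtype_val.comp continuous_fst).prodMk continuous_snd)
  have h1' : ∀ x, a' 1 x = x := h1
  have hm' : ∀ k k' x, a' (k * k') x = a' k (a' k' x) := fun k k' x => hm k k' x
  obtain ⟨L, hW, hL⟩ := exists_locAct a' hc' h1' hm' e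
  have hBW : Metric.closedBall c (2 * r) ⊆ L.W := by
    intro y hy
    rw [hW]
    exact ⟨e.symm y, fun k => (hHU (hle k.2) y hy).1, e.right_inv (hB hy)⟩
  have hfix := hA K κ' p hp hd hP L c r hr0 hBW fun k y hy => by
    rw [hL k y (hBW hy)]
    exact (hHU (hle k.2) y hy).2.le
  have hball : Metric.ball c r ⊆ Metric.closedBall c (2 * r) :=
    Metric.ball_subset_closedBall.trans (Metric.closedBall_subset_closedBall (by linarith))
  have hint : (interior {x | a' κ' x = x}).Nonempty := by
    refine ⟨x₀, mem_interior_iff_mem_nhds.2 ?_⟩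
    filter_upwards [e.open_source.mem_nhds he,
      (e.continuousAt he).preimage_mem_nhds (Metric.ball_mem_nhds c hr0)] with x hx hx'
    have h2 := hfix (e x) hx'
    rw [hL κ' _ (hBW (hball hx')), e.left_inv hx] at h2
    have h3 := (hHU hκH (e x) (hball hx')).1
    rw [e.left_inv hx] at h3
    exact e.injOn h3 hx h2
  exact hκ1 (hf κ (fixed_of_open hX hM hp hd hP a' hc' h1' hm' hint))

end Crest.Agent.R217
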