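import Crest.Agent.R217.Chars

set_option autoImplicit false
open Topology

namespace Crest.Agent.R217

theorem padic_dense {t : Circle} (ht : ¬ IsOfFinOrder t) : DenseRange fun n : ℤ => t ^ n := by
  have hT : (1 : ℝ) ≠ 0 := one_ne_zero
  obtain ⟨a, rfl⟩ := (AddCircle.homeomorphCircle hT).surjective t
  have ha : addOrderOf a = 0 := by
    rw [addOrderOf_eq_zero_iff]
    intro h
    obtain ⟨n, hn, h⟩ := isOfFinAddOrder_iff_nsmul_eq_zero.1 h
    refine ht (isOfFinOrder_iff_pow_eq_one.2 ⟨n, hn, ?_⟩)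
    rw [AddCircle.homeomorphCircle_apply, ← AddCircle.toCircle_nsmul, h, AddCircle.toCircle_zero]
  have := (AddCircle.homeomorphCircle hT).surjective.denseRange.comp
    (AddCircle.denseRange_zsmul_iff.2 ha) (AddCircle.homeomorphCircle hT).continuous
  convert this using 1
  funext n
  simp only [Function.comp, AddCircle.homeomorphCircle_apply, AddCircle.toCircle_zsmul]

section Comm

variable {A : Type*} [CommGroup A] [TopologicalSpace A] [IsTopologicalGroup A] [CompactSpace A]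

omit [IsTopologicalGroup A] in
theorem padic_surj {B : Subgroup A} (hB : IsClosed (B : Set A)) {χ : A →* Circle}
    (hχ : Continuous χ) {b : A} (hb : b ∈ B) (h : ¬ IsOfFinOrder (χ b)) (s : Circle) :
    ∃ c ∈ B, χ c = s := by
  have h1 : IsClosed (χ '' B) := (hB.isCompact.image hχ).isClosed
  have h2 : Set.range (fun n : ℤ => χ b ^ n) ⊆ χ '' B := by
    rintro _ ⟨n, rfl⟩
    exact ⟨b ^ n, B.zpow_mem hb n, map_zpow χ b n⟩
  exact h1.closure_subset_iff.2 h2 (padic_dense h s)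

omit [IsTopologicalGroup A] in
theorem padic_step {p : ℕ} (hp : p.Prime) {B : Subgroup A} (hB : IsClosed (B : Set A))
    {χ : A →* Circle} (hχ : Continuous χ) {k : A} {e : ℕ} (hk : k ^ p ^ e ∈ B) :
    ∃ k' : A, (∃ e', k' ^ p ^ e' ∈ B ⊓ χ.ker) ∧ k⁻¹ * k' ∈ B := by
  have key : ∃ b ∈ B, ∃ a, χ (k * b) ^ p ^ a = 1 := by
    by_cases h : IsOfFinOrder (χ k)
    · obtain ⟨n, hn, h⟩ := isOfFinOrder_iff_pow_eq_one.1 h
      obtain ⟨a, d, hd, rfl⟩ := Nat.exists_eq_pow_mul_and_not_dvd hn.ne' p hp.ne_one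
      have hd0 : 0 < d := Nat.pos_of_mul_pos_left hn
      have hc : Nat.Coprime (p ^ e) d := ((Nat.Prime.coprime_iff_not_dvd hp).2 hd).pow_left e
      obtain ⟨c, -, hc'⟩ := Nat.exists_mul_mod_eq_of_coprime (d - 1) hc hd0.ne'
      have hdv : d ∣ 1 + p ^ e * c := by
        have h1 : p ^ e * c ≡ d - 1 [MOD d] := hc'
        have h2 := h1.add_left 1
        rw [Nat.add_sub_cancel' hd0] at h2
        exact (Nat.modEq_zero_iff_dvd).1 (h2.trans (Nat.modEq_zero_iff_dvd.2 dvd_rfl))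
      obtain ⟨u, hu⟩ := hdv
      refine ⟨(k ^ p ^ e) ^ c, B.pow_mem hk c, a, ?_⟩
      rw [← pow_mul, ← pow_succ', add_comm, hu, map_pow, ← pow_mul, mul_right_comm,
        mul_comm d, pow_mul, h, one_pow]
    · have h' : ¬ IsOfFinOrder (χ (k ^ p ^ e)) := by
        rw [map_pow]
        exact fun h2 => h ((isOfFinOrder_pow.1 h2).resolve_right (pow_pos hp.pos e).ne')
      obtain ⟨c, hc, hs⟩ := padic_surj hB hχ hk h' (χ k)⁻¹
      exact ⟨c, hc, 0, by rw [map_mul, hs, mul_inv_cancel, one_pow]⟩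
  obtain ⟨b, hb, a, ha⟩ := key
  refine ⟨k * b, ⟨e + a, Subgroup.mem_inf.2 ⟨?_, ?_⟩⟩, by simpa using hb⟩
  · rw [pow_add, pow_mul, mul_pow]
    exact B.pow_mem (B.mul_mem hk (B.pow_mem hb _)) _
  · rw [MonoidHom.mem_ker, map_pow, add_comm, pow_add, pow_mul, ha, one_pow]

omit [IsTopologicalGroup A] in
theorem padic_start {χ : A →* Circle} (hχ : Continuous χ) {g : A} (hg : χ g ≠ 1) :
    ∃ (p : ℕ) (k : A), p.Prime ∧ χ k ≠ 1 ∧ χ k ^ p = 1 := by
  by_cases h : IsOfFinOrder (χ g)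
  · have h1 : orderOf (χ g) ≠ 1 := fun h' => hg (orderOf_eq_one_iff.1 h')
    obtain ⟨p, hp, n, hn⟩ := Nat.exists_prime_and_dvd h1
    have h0 := h.orderOf_pos
    refine ⟨p, g ^ n, hp, ?_, ?_⟩
    · rw [map_pow]
      refine pow_ne_one_of_lt_orderOf (fun h' => ?_) ?_
      · rw [h', mul_zero] at hn
        omega
      · have := hp.one_lt
        have hn0 : 0 < n := Nat.pos_of_mul_pos_left (hn ▸ h0)
        rw [hn]
        nlinarith
    · rw [map_pow, ← pow_mul, mul_comm, ← hn, pow_orderOf_eq_one]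
  · obtain ⟨c, -, hc⟩ := padic_surj (B := ⊤) isClosed_univ hχ (Subgroup.mem_top g) h
      (Circle.exp Real.pi)
    refine ⟨2, c, Nat.prime_two, ?_, ?_⟩
    · rw [hc, Ne, Circle.ext_iff]
      simp only [Circle.coe_exp, Complex.exp_pi_mul_I, Circle.coe_one]
      norm_num
    · rw [hc, Circle.ext_iff]
      simp [Complex.exp_pi_mul_I]

theorem padic_comm [T2Space A] [SecondCountableTopology A] {g : A} (hg : g ≠ 1) :
    ∃ (κ : A) (p : ℕ), p.Prime ∧ κ ≠ 1 ∧
      ∀ N ∈ 𝓝 (1 : A), ∃ k : ℕ, ∀ m : ℕ, κ ^ (p ^ k * m) ∈ N := by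
  obtain ⟨χ₀, hχ₀, hg₀⟩ := exists_char_ne_one A g hg
  obtain ⟨p, k₀, hp, hk₀, hk₀'⟩ := padic_start hχ₀ hg₀
  obtain ⟨T, hT, hTU⟩ := TopologicalSpace.isOpen_iUnion_countable
    (fun χ : {χ : A →* Circle // Continuous χ} => {x | χ.1 x ≠ 1})
    fun χ => isOpen_ne_fun χ.2 continuous_const
  obtain ⟨χ, hχ⟩ := (hT.insert ⟨χ₀, hχ₀⟩).exists_eq_range (Set.insert_nonempty _ _)
  have hsep : ∀ x : A, x ≠ 1 → ∃ n, (χ n).1 x ≠ 1 := by
    intro x hx
    obtain ⟨ψ, hψ, hx'⟩ := exists_char_ne_one A x hx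
    have : x ∈ ⋃ i ∈ T, {x | (i : {χ : A →* Circle // Continuous χ}).1 x ≠ 1} := by
      rw [hTU]
      exact Set.mem_iUnion.2 ⟨⟨ψ, hψ⟩, hx'⟩
    obtain ⟨i, hi, hxi⟩ := Set.mem_iUnion₂.1 this
    have : i ∈ Set.range χ := hχ ▸ Set.mem_insert_of_mem _ hi
    obtain ⟨n, rfl⟩ := this
    exact ⟨n, hxi⟩
  have hker : ∀ ψ : A →* Circle, Continuous ψ → IsClosed (ψ.ker : Set A) := fun ψ hψ =>
    isClosed_eq hψ continuous_const
  obtain ⟨B, hB0, hBs⟩ : ∃ B : ℕ → Subgroup A, B 0 = χ₀.ker ∧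
      ∀ n, B (n + 1) = B n ⊓ (χ n).1.ker :=
    ⟨fun n => Nat.rec χ₀.ker (fun n S => S ⊓ (χ n).1.ker) n, rfl, fun _ => rfl⟩
  have hBc : ∀ n : ℕ, IsClosed ((B n : Subgroup A) : Set A) := by
    intro n
    induction n with
    | zero => rw [hB0]; exact hker _ hχ₀
    | succ n ih => rw [hBs]; exact ih.inter (hker _ (χ n).2)
  have hBa : Antitone B := antitone_nat_of_succ_le fun n => by rw [hBs]; exact inf_le_left
  have hstep : ∀ n (k : A), (∃ e, k ^ p ^ e ∈ B n) →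
      ∃ k' : A, (∃ e', k' ^ p ^ e' ∈ B (n + 1)) ∧ k⁻¹ * k' ∈ B n := by
    rintro n k ⟨e, he⟩
    rw [hBs]
    exact padic_step hp (hBc n) (χ n).2 he
  choose! f hf using hstep
  let k : ℕ → A := fun n => Nat.rec k₀ (fun n x => f n x) n
  have hk : ∀ n, ∃ e, k n ^ p ^ e ∈ B n := by
    intro n
    induction n with
    | zero => exact ⟨1, by rw [hB0]; show χ₀ (k₀ ^ p ^ 1) = 1; rw [pow_one, map_pow, hk₀']⟩
    | succ n ih => exact (hf n _ ih).1
  have hcl : ∀ n, IsClosed {x | (k n)⁻¹ * x ∈ B n} := fun n =>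
    (hBc n).preimage (continuous_const.mul continuous_id)
  obtain ⟨κ, hκ⟩ := IsCompact.nonempty_iInter_of_sequence_nonempty_isCompact_isClosed
    (fun n => {x | (k n)⁻¹ * x ∈ B n})
    (fun n x hx => by
      have h1 : (k n)⁻¹ * k (n + 1) ∈ B n := (hf n _ (hk n)).2
      have h2 := (B n).mul_mem h1 (hBa (Nat.le_succ n) hx)
      rwa [mul_assoc, mul_inv_cancel_left] at h2)
    (fun n => ⟨k n, by simp⟩) (hcl 0).isCompact hcl
  have hκ' : ∀ n, (k n)⁻¹ * κ ∈ B n := fun n => Set.mem_iInter.1 hκ n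
  refine ⟨κ, p, hp, fun h => hk₀ ?_, fun N hN => ?_⟩
  · have h0 := hκ' 0
    rw [hB0] at h0
    have : χ₀ (k₀⁻¹ * κ) = 1 := h0
    rwa [h, mul_one, map_inv, inv_eq_one] at this
  · obtain ⟨n, hn⟩ := exists_subset_nhds_of_compactSpace (V := fun n => ((B n : Subgroup A) : Set A))
      (Antitone.directed_ge fun _ _ h => hBa h) hBc (U := N) fun x hx => by
        have : x = 1 := by
          by_contra hx1
          obtain ⟨n, hn⟩ := hsep x hx1
          have h3 := Set.mem_iInter.1 hx (n + 1)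
          rw [hBs] at h3
          exact hn h3.2
        rwa [this]
    obtain ⟨e, he⟩ := hk n
    refine ⟨e, fun m => hn ?_⟩
    rw [pow_mul, ← mul_inv_cancel_left (k n) κ, mul_pow]
    exact (B n).pow_mem ((B n).mul_mem he ((B n).pow_mem (hκ' n) _)) m

end Comm

/-- A nontrivial compact subgroup contains a nontrivial topologically `p`-primary element. -/
theorem exists_padic_elt (G : Type*) [Group G] [TopologicalSpace G] [IsTopologicalGroup G]
    [T2Space G] [SecondCountableTopology G] (H : Subgroup G) (hH : IsCompact (H : Set G))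
    (hne : H ≠ ⊥) :
    ∃ κ ∈ H, ∃ p : ℕ, p.Prime ∧ κ ≠ 1 ∧
      ∀ N ∈ 𝓝 (1 : G), ∃ k : ℕ, ∀ m : ℕ, κ ^ (p ^ k * m) ∈ N := by
  obtain ⟨⟨g, hgH⟩, hg⟩ := (Subgroup.ne_bot_iff_exists_ne_one).1 hne
  have hg1 : g ≠ 1 := fun h => hg (Subtype.ext h)
  have hle : (Subgroup.zpowers g).topologicalClosure ≤ H :=
    Subgroup.topologicalClosure_minimal _ (Subgroup.zpowers_le.2 hgH) hH.isClosed
  let _ : CommGroup (Subgroup.zpowers g).topologicalClosure :=
    Subgroup.commGroupTopologicalClosure _ fun x y => mul_comm' x y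
  have : CompactSpace (Subgroup.zpowers g).topologicalClosure :=
    isCompact_iff_compactSpace.1
      (hH.of_isClosed_subset (Subgroup.isClosed_topologicalClosure _) hle)
  have : SecondCountableTopology (Subgroup.zpowers g).topologicalClosure :=
    TopologicalSpace.Subtype.secondCountableTopology _
  obtain ⟨κ, p, hp, h1, h2⟩ := padic_comm (A := (Subgroup.zpowers g).topologicalClosure)
    (g := ⟨g, Subgroup.le_topologicalClosure _ (Subgroup.mem_zpowers g)⟩)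
    fun h => hg1 (congrArg Subtype.val h)
  refine ⟨κ, hle κ.2, p, hp, fun h => h1 (Subtype.ext h), fun N hN => ?_⟩
  obtain ⟨k, hk⟩ := h2 (Subtype.val ⁻¹' N) (continuous_subtype_val.continuousAt.preimage_mem_nhds hN)
  exact ⟨k, fun m => hk m⟩

end Crest.Agent.R217
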