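import Crest.Agent.R217.Cases
import Crest.Agent.R217.Padic

set_option autoImplicit false
set_option linter.unusedSectionVars false
open Set Filter Topology

namespace Crest.Agent.R217

/-! Globalisation. -/

variable {X M : Type*} [NormedAddCommGroup X] [InnerProductSpace ℝ X] [FiniteDimensional ℝ X]
  [TopologicalSpace M]

theorem Global0_open {K : Type*} [TopologicalSpace K] [CompactSpace K] (a : K → M → M)
    (hc : Continuous (fun q : K × M => a q.1 q.2)) {S : Set M} (hS : IsOpen S) :
    IsOpen {x | ∀ k, a k x ∈ S} := by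
  refine isOpen_iff_mem_nhds.2 fun x hx => ?_
  have h := (isCompact_univ (X := K)).eventually_forall_of_forall_eventually (x₀ := x)
    (P := fun y k => a k y ∈ S) fun k _ =>
      (hc.comp continuous_swap).continuousAt.preimage_mem_nhds (hS.mem_nhds (hx k))
  exact h.mono fun y hy k => hy k (mem_univ k)

/-- A compact group action read in a chart. -/
theorem exists_locAct {K : Type*} [Group K] [TopologicalSpace K] [IsTopologicalGroup K]
    [CompactSpace K] (a : K → M → M) (hc : Continuous (fun q : K × M => a q.1 q.2))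
    (h1 : ∀ x, a 1 x = x) (hm : ∀ k k' x, a (k * k') x = a k (a k' x))
    (e : OpenPartialHomeomorph M X) :
    ∃ L : LocAct K X, L.W = e '' {x | ∀ k, a k x ∈ e.source} ∧
      ∀ k, ∀ y ∈ L.W, L.act k y = e (a k (e.symm y)) := by
  have hsub : {x | ∀ k, a k x ∈ e.source} ⊆ e.source := fun x hx => by
    have := hx 1
    rwa [h1] at this
  have hW : ∀ y ∈ e '' {x | ∀ k, a k x ∈ e.source}, y ∈ e.target ∧
      ∀ k, a k (e.symm y) ∈ e.source := by
    rintro _ ⟨x, hx, rfl⟩
    refine ⟨e.map_source (hsub hx), fun k => ?_⟩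
    rw [e.left_inv (hsub hx)]
    exact hx k
  refine ⟨⟨e '' {x | ∀ k, a k x ∈ e.source}, fun k y => e (a k (e.symm y)),
    e.isOpen_image_of_subset_source (Global0_open a hc e.open_source) hsub, ?_, ?_, ?_, ?_⟩, rfl,
    fun _ _ _ => rfl⟩
  · intro k y hy
    refine ⟨a k (e.symm y), fun k' => ?_, rfl⟩
    rw [← hm]
    exact (hW y hy).2 _
  · refine e.continuousOn.comp (f := fun q : K × X => a q.1 (e.symm q.2)) ?_
      fun q hq => (hW _ hq.2).2 _
    exact hc.comp_continuousOn (f := fun q : K × X => (q.1, e.symm q.2)) (continuousOn_fst.prodMk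
      (e.continuousOn_symm.comp continuousOn_snd fun q hq => (hW _ hq.2).1))
  · intro y hy
    simp only [h1]
    exact e.right_inv (hW y hy).1
  · intro k k' y hy
    simp only [hm]
    rw [e.left_inv ((hW y hy).2 k')]

/-- Newman's theorem: the interior of the fixed set is closed, hence everything. -/
theorem fixed_of_open [T2Space M] [ConnectedSpace M] (hX : HasModel X)
    (hM : ∀ x : M, ∃ e : OpenPartialHomeomorph M X, x ∈ e.source) {K : Type*} [Group K]
    [TopologicalSpace K] [IsTopologicalGroup K] [CompactSpace K] [T2Space K]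
    [SecondCountableTopology K] {κ : K} {p : ℕ} (hpp : p.Prime)
    (hκ : DenseRange (fun n : ℤ => κ ^ n)) (hp : PP κ p) (a : K → M → M)
    (hc : Continuous (fun q : K × M => a q.1 q.2)) (h1 : ∀ x, a 1 x = x)
    (hm : ∀ k k' x, a (k * k') x = a k (a k' x)) (hne : (interior {x | a κ x = x}).Nonempty) :
    ∀ x, a κ x = x := by
  have hck : ∀ k, Continuous (a k) := fun k => hc.comp (Continuous.prodMk_right k)
  have hcl : IsClosed {x | a κ x = x} := isClosed_eq (hck κ) continuous_id
  have hall : ∀ x, a κ x = x → ∀ k, a k x = x := by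
    intro x hx k
    have hinv : a κ⁻¹ x = x := by
      conv_lhs => rw [← hx, ← hm, inv_mul_cancel, h1]
    refine hκ.induction_on (p := fun k => a k x = x) k
      (isClosed_eq (hc.comp (Continuous.prodMk_left x)) continuous_const) fun n => ?_
    induction n using Int.induction_on with
    | zero => simpa using h1 x
    | succ n ih => rw [zpow_add_one, hm, hx, ih]
    | pred n ih => rw [zpow_sub_one, hm, hinv, ih]
  have hclosed : IsClosed (interior {x | a κ x = x}) := by
    refine isClosed_of_closure_subset fun x₀ hx₀ => ?_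
    have hfix : a κ x₀ = x₀ := (closure_minimal interior_subset hcl) hx₀
    obtain ⟨e, he⟩ := hM x₀
    obtain ⟨L, hLW, hL⟩ := exists_locAct a hc h1 hm e
    have hS := Global0_open a hc e.open_source
    have hsub : {x | ∀ k, a k x ∈ e.source} ⊆ e.source := fun x hx => by
      have := hx 1
      rwa [h1] at this
    have hx₀S : x₀ ∈ {x | ∀ k, a k x ∈ e.source} := fun k => by
      rw [hall x₀ hfix k]
      exact he
    have hact : ∀ x ∈ {x | ∀ k, a k x ∈ e.source}, L.act κ (e x) = e (a κ x) := fun x hx => by
      rw [hL κ _ (hLW ▸ mem_image_of_mem _ hx), e.left_inv (hsub hx)]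
    have h2 : e '' ({x | ∀ k, a k x ∈ e.source} ∩ interior {x | a κ x = x}) ⊆
        interior {y | y ∈ L.W ∧ L.act κ y = y} := by
      refine interior_maximal ?_ (e.isOpen_image_of_subset_source (hS.inter isOpen_interior)
        (inter_subset_left.trans hsub))
      rintro _ ⟨x, hx, rfl⟩
      refine ⟨hLW ▸ mem_image_of_mem _ hx.1, ?_⟩
      rw [hact x hx.1, show a κ x = x from interior_subset (s := {x | a κ x = x}) hx.2]
    have h3 := fixed_nhds_of_mem_closure hX hpp hκ hp L (x₀ := e x₀)
      (hLW ▸ mem_image_of_mem _ hx₀S) (closure_mono h2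
        ((e.continuousAt he).continuousWithinAt.mem_closure_image (hS.inter_closure ⟨hx₀S, hx₀⟩)))
    rw [mem_interior_iff_mem_nhds] at h3 ⊢
    filter_upwards [(e.continuousAt he).preimage_mem_nhds h3, hS.mem_nhds hx₀S] with x hx hxS
    exact e.injOn (hxS κ) (hsub hxS) ((hact x hxS).symm.trans hx.2)
  have huniv := IsClopen.eq_univ ⟨hclosed, isOpen_interior⟩ hne
  intro x
  exact interior_subset (s := {x | a κ x = x}) (huniv ▸ mem_univ x)

end Crest.Agent.R217
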