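import Crest.Agent.R217.SheetBasic

set_option autoImplicit false
set_option linter.unusedSectionVars false
open Set Filter Topology

namespace Crest.Agent.R217

/-! Mayer-Vietoris over the two half planes. -/

variable {X V : Type*} [AddCommGroup V] [Module ℝ V] [MetricSpace X]

section Gauge

variable {g : Sys X V} {sh : Sys (X × ℝ × ℝ) V} {γ : X × ℝ × ℝ → (Module.End ℝ V)ˣ}
  {K₀ : Set X} {S' : Set (ℝ × ℝ)}

/-- Lift of a cochain of the base through a gauge. -/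
noncomputable def Halves_lift (γ : X × ℝ × ℝ → (Module.End ℝ V)ˣ) :
    Coch X V →ₗ[ℝ] Coch (X × ℝ × ℝ) V :=
  act (fun q => (((γ q)⁻¹ : (Module.End ℝ V)ˣ) : Module.End ℝ V)) ∘ₗ pull Prod.fst

theorem Halves_lift_apply (c : Coch X V) : Halves_lift γ c =
    act (fun q => (((γ q)⁻¹ : (Module.End ℝ V)ˣ) : Module.End ℝ V)) (pull Prod.fst c) := rfl

theorem Halves_inv_act (z : Coch (X × ℝ × ℝ) V) :
    act (fun q => (((γ q)⁻¹ : (Module.End ℝ V)ˣ) : Module.End ℝ V))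
      (act (fun q => (γ q : Module.End ℝ V)) z) = z := by
  funext q l
  simp only [act_apply]
  rw [← Module.End.mul_apply, Units.inv_mul, Module.End.one_apply]

theorem Halves_act_inv (z : Coch (X × ℝ × ℝ) V) :
    act (fun q => (γ q : Module.End ℝ V))
      (act (fun q => (((γ q)⁻¹ : (Module.End ℝ V)ˣ) : Module.End ℝ V)) z) = z := by
  funext q l
  simp only [act_apply]
  rw [← Module.End.mul_apply, Units.mul_inv, Module.End.one_apply]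

theorem Halves_lift_Zc
    (hγ : ∀ q ∈ K₀ ×ˢ S', IntAt (fun q => (γ q : Module.End ℝ V)) sh (pullS Prod.fst g) q)
    {a : Coch X V} (ha : a ∈ Zc g K₀) : Halves_lift γ a ∈ Zc sh (K₀ ×ˢ S') :=
  act_mem_Zc (fun q hq => (hγ q hq).inv_units)
    (pull_mem_Zc (fun _ _ => continuous_fst.continuousAt) (fun _ hq => hq.1) ha)

theorem Halves_lift_Bd
    (hγ : ∀ q ∈ K₀ ×ˢ S', IntAt (fun q => (γ q : Module.End ℝ V)) sh (pullS Prod.fst g) q)
    {a : Coch X V} (ha : a ∈ Bd g K₀) : Halves_lift γ a ∈ Bd sh (K₀ ×ˢ S') :=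
  act_mem_Bd (fun q hq => (hγ q hq).inv_units)
    (pull_mem_Bd (fun _ _ => continuous_fst.continuousAt) (fun _ hq => hq.1) ha)

theorem Halves_Bd_of_lift
    (hγ : ∀ q ∈ K₀ ×ˢ S', IntAt (fun q => (γ q : Module.End ℝ V)) sh (pullS Prod.fst g) q)
    {s₀ : ℝ × ℝ} (hs₀ : s₀ ∈ S') {a : Coch X V} (ha : Halves_lift γ a ∈ Bd sh (K₀ ×ˢ S')) :
    a ∈ Bd g K₀ := by
  have h1 := act_mem_Bd hγ ha
  rw [Halves_lift_apply, Halves_act_inv] at h1
  have h2 := pull_mem_Bd (φ := fun x : X => (x, s₀)) (B := K₀)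
    (fun _ _ => (Continuous.prodMk_left s₀).continuousAt) (fun x hx => mk_mem_prod hx hs₀) h1
  rw [pull_pull] at h2
  have h3 : (Prod.fst ∘ fun x : X => (x, s₀)) = id := rfl
  rw [h3, pull_id] at h2
  exact h2

theorem Halves_exists_lift (hK : IsCompact K₀) (hg : ∀ x ∈ K₀, CocAt g x) (hS : IsCompact S')
    {s₀ : ℝ × ℝ} (hs₀ : s₀ ∈ S') (hst : StarConvex ℝ s₀ S')
    (hγ : ∀ q ∈ K₀ ×ˢ S', IntAt (fun q => (γ q : Module.End ℝ V)) sh (pullS Prod.fst g) q)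
    {z : Coch (X × ℝ × ℝ) V} (hz : z ∈ Zc sh (K₀ ×ˢ S')) :
    ∃ a ∈ Zc g K₀, z - Halves_lift γ a ∈ Bd sh (K₀ ×ˢ S') := by
  have h1 := act_mem_Zc hγ hz
  obtain ⟨e, -, he⟩ := star_fibre (A₀ := ∅) hK isCompact_empty (empty_subset _) hS hs₀ hst hg h1
    (by simp [Van_empty])
  refine ⟨pull (fun x : X => (x, s₀)) (act (fun q => (γ q : Module.End ℝ V)) z), ?_, ?_⟩
  · exact pull_mem_Zc (φ := fun x : X => (x, s₀)) (B := K₀)
      (fun _ _ => (Continuous.prodMk_left s₀).continuousAt) (fun x hx => mk_mem_prod hx hs₀) h1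
  · have h2 := act_mem_Bd (fun q hq => (hγ q hq).inv_units) (mem_Bd.2 ⟨e, he⟩)
    rw [map_sub, Halves_inv_act] at h2
    exact h2

end Gauge

theorem Halves_wall {t : ℝ → (Module.End ℝ V)ˣ} {t₀ : (Module.End ℝ V)ˣ} {q : X × ℝ × ℝ}
    (ht : ∀ᶠ s in 𝓝 q.2.1, t s = t₀) (b : Coch X V) :
    VanAt (Halves_lift (fun q => mDn t q.2) b -
      Halves_lift (fun q => mUp t q.2) (act (fun _ => (t₀ : Module.End ℝ V)) b)) q := by
  have hc : ContinuousAt (fun q : X × ℝ × ℝ => q.2.1) q := by fun_prop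
  rw [Halves_lift_apply, Halves_lift_apply, pull_act, act_act]
  apply vanAt_act_sub_act
  filter_upwards [hc.eventually ht] with y hy
  change _ = (_ * _ : Module.End ℝ V)
  by_cases h : 0 < y.2.2
  · simp [mUp, mDn, h, hy]
  · simp [mUp, mDn, h, hy]

theorem Halves_mid {t : ℝ → (Module.End ℝ V)ˣ} {q : X × ℝ × ℝ}
    (ht : ∀ᶠ s in 𝓝 q.2.1, t s = 1) (b : Coch X V) :
    VanAt (Halves_lift (fun q => mUp t q.2) b - pull Prod.fst b) q := by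
  have hc : ContinuousAt (fun q : X × ℝ × ℝ => q.2.1) q := by fun_prop
  rw [Halves_lift_apply]
  apply vanAt_act_sub
  filter_upwards [hc.eventually ht] with y hy
  by_cases h : 0 < y.2.2
  · simp [mUp, h]
  · simp [mUp, h, hy]

theorem Halves_kap_off {g : Sys X V} {t : ℝ → (Module.End ℝ V)ˣ} (N₃ : Set ℝ) {c : Coch X V}
    {q : X × ℝ × ℝ} (hc : VanAt (delta g c) q.1) (hq : q.2.2 ≠ 0) : VanAt (kap g t N₃ c) q := by
  apply VanAt.cut
  have hfr : q ∉ frontier (upS X) := by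
    intro h
    have hcont : Continuous (fun q : X × ℝ × ℝ => q.2.2) := by fun_prop
    have := frontier_lt_subset_eq continuous_const hcont h
    exact hq this.symm
  apply vanAt_delta_cut_of_cocycle hfr
  refine VanAt.of_sub (vanAt_delta_congr (sheet_eq_pull g t (Or.inl hq)) _) ?_
  rw [delta_pull]
  exact hc.pull continuous_fst.continuousAt

/-- Cocycles over `K₀ × S` come from the third wall segment.
Write `δ'` for the coboundary of `sheet g t`, `ã = act (mUp t)⁻¹ (pull fst a)`,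
`b̃ = act (mDn t)⁻¹ (pull fst b)`.
1. Gauge (`intAt_mUp`) and `star_fibre`: `z ≡ ã + δ' e_u` near `K₀ × S₊`, `z ≡ b̃ + δ' e_d` near
`K₀ × S₋`, with `a, b ∈ Zc g K₀`.
2. Near the wall segment `i`, `act (mUp t) b̃ ≡ pull fst (t_i b)`; pulling back along
`x ↦ (x, a_i, 0)` gives `a - t_i b ∈ Bd g K₀`, `i = 1, 2`, so `a, b ∈ Bd g K₀`; absorb them:
`z ≡ δ' e_u`, `z ≡ δ' e_d`.
3. `e_u - e_d` is a cocycle near each segment; `star_fibre` on the segment: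
`act (mUp t) (e_u - e_d) ≡ pull fst c_i + δ f_i`.  Solve `a' - t_i b' = c_i` for `i = 1, 2` and
replace `e_u, e_d` by `e_u - ã'`, `e_d - b̃'`; now `c₁ = c₂ = 0`.  Glue the `f_i` by cuts to `f`.
4. `e = cut up (e_u - δ' f) + cut upᶜ e_d` satisfies `z - δ' e + kap g t N₃ c₃ ∈ Van (K₀ × S)`. -/
theorem halves {g : Sys X V} {t : ℝ → (Module.End ℝ V)ˣ}
    (hc : ∀ x y s, g x y * t s = t s * g x y) {K₀ : Set X} (hK : IsCompact K₀)
    (hg : ∀ x ∈ K₀, CocAt g x) {S : Set (ℝ × ℝ)} (hS : IsCompact S) {su sd : ℝ × ℝ}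
    (hu : su ∈ S ∩ {w | 0 ≤ w.2}) (hu' : StarConvex ℝ su (S ∩ {w | 0 ≤ w.2}))
    (hd : sd ∈ S ∩ {w | w.2 ≤ 0}) (hd' : StarConvex ℝ sd (S ∩ {w | w.2 ≤ 0}))
    {a₁ b₁ a₂ b₂ a₃ b₃ : ℝ} (h₁ : a₁ ≤ b₁) (h₁₂ : b₁ < a₂) (h₂ : a₂ ≤ b₂)
    (hwall : ∀ s, (s, (0 : ℝ)) ∈ S ↔ s ∈ Icc a₁ b₁ ∨ s ∈ Icc a₂ b₂ ∨ s ∈ Icc a₃ b₃)
    {N₃ : Set ℝ} (hN : ∀ s ∈ Icc a₃ b₃, N₃ ∈ 𝓝 s) (hN' : ∀ s ∈ Icc a₁ b₁ ∪ Icc a₂ b₂, N₃ᶜ ∈ 𝓝 s)
    {t₁ t₂ : (Module.End ℝ V)ˣ} (ht₁ : ∀ s ∈ Icc a₁ b₁, ∀ᶠ s' in 𝓝 s, t s' = t₁)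
    (ht₂ : ∀ s ∈ Icc a₂ b₂, ∀ᶠ s' in 𝓝 s, t s' = t₂)
    (ht₃ : ∀ s ∈ Icc a₃ b₃, ∀ᶠ s' in 𝓝 s, t s' = 1)
    (hinv : IsUnit ((t₁ : Module.End ℝ V) - t₂)) {z : Coch (X × ℝ × ℝ) V}
    (hz : z ∈ Zc (sheet g t) (K₀ ×ˢ S)) :
    ∃ c ∈ Zc g K₀, z - kap g t N₃ c ∈ Bd (sheet g t) (K₀ ×ˢ S) := by
  -- notation
  set sh := sheet g t with hsh
  set Sp := S ∩ {w : ℝ × ℝ | 0 ≤ w.2} with hSp
  set Sm := S ∩ {w : ℝ × ℝ | w.2 ≤ 0} with hSm
  have cSp : IsCompact Sp := hS.inter_right (isClosed_le continuous_const continuous_snd)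
  have cSm : IsCompact Sm := hS.inter_right (isClosed_le continuous_snd continuous_const)
  have hloc : ∀ s, (s, (0 : ℝ)) ∈ S → ∀ᶠ s' in 𝓝 s, t s' = t s := by
    intro s hs
    rcases (hwall s).1 hs with h | h | h
    · filter_upwards [ht₁ s h] with s' hs'; rw [hs', (ht₁ s h).self_of_nhds]
    · filter_upwards [ht₂ s h] with s' hs'; rw [hs', (ht₂ s h).self_of_nhds]
    · filter_upwards [ht₃ s h] with s' hs'; rw [hs', (ht₃ s h).self_of_nhds]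
  have hloc' : ∀ q : X × ℝ × ℝ, q.2 ∈ S → q.2.2 = 0 → ∀ᶠ s' in 𝓝 q.2.1, t s' = t q.2.1 := by
    intro q hq h0
    apply hloc
    rw [← h0]; exact hq
  have intU : ∀ q ∈ K₀ ×ˢ Sp,
      IntAt (fun q : X × ℝ × ℝ => (mUp t q.2 : Module.End ℝ V)) sh (pullS Prod.fst g) q := by
    intro q hq
    apply intAt_mUp hc
    rcases (show (0 : ℝ) ≤ q.2.2 from hq.2.2).lt_or_eq with h | h
    · exact Or.inl h
    · exact Or.inr ⟨h.symm, hloc' q hq.2.1 h.symm⟩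
  have intD : ∀ q ∈ K₀ ×ˢ Sm,
      IntAt (fun q : X × ℝ × ℝ => (mDn t q.2 : Module.End ℝ V)) sh (pullS Prod.fst g) q := by
    intro q hq
    apply intAt_mDn hc
    rcases (show q.2.2 ≤ (0 : ℝ) from hq.2.2).lt_or_eq with h | h
    · exact Or.inl h
    · exact Or.inr ⟨h, hloc' q hq.2.1 h⟩
  have hcoc : ∀ q ∈ K₀ ×ˢ S, CocAt sh q := by
    intro q hq
    apply cocAt_sheet hc (hg _ hq.1)
    by_cases h : q.2.2 = 0
    · exact Or.inr (hloc' q hq.2 h)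
    · exact Or.inl h
  set lu := Halves_lift (X := X) (fun q => mUp t q.2) with hlu
  set ld := Halves_lift (X := X) (fun q => mDn t q.2) with hld
  -- segments
  let seg : ℝ → ℝ → Set (ℝ × ℝ) := fun a b => Icc a b ×ˢ {0}
  have seg_cpt : ∀ a b, IsCompact (seg a b) := fun a b => isCompact_Icc.prod isCompact_singleton
  have seg_cvx : ∀ a b, Convex ℝ (seg a b) := fun a b =>
    (convex_Icc a b).prod (convex_singleton 0)
  have seg_sub : ∀ a b, (∀ s ∈ Icc a b, (s, (0 : ℝ)) ∈ S) → seg a b ⊆ Sp ∧ seg a b ⊆ Sm := by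
    intro a b h
    have : ∀ w ∈ seg a b, w ∈ S ∧ w.2 = 0 := by
      rintro ⟨s, r⟩ ⟨hs, hr⟩
      have hr' : r = 0 := hr
      subst hr'
      exact ⟨h s hs, rfl⟩
    exact ⟨fun w hw => ⟨(this w hw).1, (this w hw).2.ge⟩,
      fun w hw => ⟨(this w hw).1, (this w hw).2.le⟩⟩
  have s₁ := seg_sub a₁ b₁ fun s hs => (hwall s).2 (Or.inl hs)
  have s₂ := seg_sub a₂ b₂ fun s hs => (hwall s).2 (Or.inr (Or.inl hs))
  have s₃ := seg_sub a₃ b₃ fun s hs => (hwall s).2 (Or.inr (Or.inr hs))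
  have m₁ : ((a₁, 0) : ℝ × ℝ) ∈ seg a₁ b₁ := ⟨left_mem_Icc.2 h₁, rfl⟩
  have m₂ : ((a₂, 0) : ℝ × ℝ) ∈ seg a₂ b₂ := ⟨left_mem_Icc.2 h₂, rfl⟩
  have wall : ∀ {a b : ℝ} {t₀ : (Module.End ℝ V)ˣ}, (∀ s ∈ Icc a b, ∀ᶠ s' in 𝓝 s, t s' = t₀) →
      ∀ β : Coch X V, ld β - lu (act (fun _ => (t₀ : Module.End ℝ V)) β) ∈
        Van V (K₀ ×ˢ seg a b) :=
    fun ht β q hq => Halves_wall (ht _ hq.2.1) β
  -- commutation
  have ct₁ : ∀ x y, g x y * t₁ = t₁ * g x y := by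
    intro x y; rw [← (ht₁ a₁ (left_mem_Icc.2 h₁)).self_of_nhds]; exact hc x y a₁
  have ct₂ : ∀ x y, g x y * t₂ = t₂ * g x y := by
    intro x y; rw [← (ht₂ a₂ (left_mem_Icc.2 h₂)).self_of_nhds]; exact hc x y a₂
  obtain ⟨u, hu₀⟩ := hinv
  have cu : ∀ x y, g x y * (u⁻¹ : (Module.End ℝ V)ˣ) = (u⁻¹ : (Module.End ℝ V)ˣ) * g x y := by
    intro x y
    have : Commute (g x y) (u : Module.End ℝ V) := by
      rw [hu₀]; exact Commute.sub_right (ct₁ x y) (ct₂ x y)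
    exact (Commute.units_inv_right this).eq
  have aZ : ∀ {f : Module.End ℝ V}, (∀ x y, g x y * f = f * g x y) → ∀ {β : Coch X V},
      β ∈ Zc g K₀ → act (fun _ => f) β ∈ Zc g K₀ :=
    fun hf _ hβ => act_mem_Zc (fun x _ => intAt_const hf x) hβ
  have aB : ∀ {f : Module.End ℝ V}, (∀ x y, g x y * f = f * g x y) → ∀ {β : Coch X V},
      β ∈ Bd g K₀ → act (fun _ => f) β ∈ Bd g K₀ :=
    fun hf _ hβ => act_mem_Bd (fun x _ => intAt_const hf x) hβ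
  have hu₁ : ∀ β : Coch X V, act (fun _ => ((u⁻¹ : (Module.End ℝ V)ˣ) : Module.End ℝ V))
      (act (fun _ => (t₁ : Module.End ℝ V)) β - act (fun _ => (t₂ : Module.End ℝ V)) β) = β := by
    intro β; funext x l
    simp only [act_apply, Pi.sub_apply]
    rw [← LinearMap.sub_apply, ← hu₀, ← Module.End.mul_apply, Units.inv_mul,
      Module.End.one_apply]
  have hu₂ : ∀ β : Coch X V, act (fun _ => (t₁ : Module.End ℝ V))
        (act (fun _ => ((u⁻¹ : (Module.End ℝ V)ˣ) : Module.End ℝ V)) β) -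
      act (fun _ => (t₂ : Module.End ℝ V))
        (act (fun _ => ((u⁻¹ : (Module.End ℝ V)ˣ) : Module.End ℝ V)) β) = β := by
    intro β; funext x l
    simp only [act_apply, Pi.sub_apply]
    rw [← LinearMap.sub_apply, ← hu₀, ← Module.End.mul_apply, Units.mul_inv,
      Module.End.one_apply]
  -- steps 1 and 2
  obtain ⟨a, -, hza⟩ := Halves_exists_lift hK hg cSp hu hu' intU
    (Zc_mono _ (prod_mono Subset.rfl inter_subset_left) hz)
  obtain ⟨b, -, hzb⟩ := Halves_exists_lift hK hg cSm hd hd' intD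
    (Zc_mono _ (prod_mono Subset.rfl inter_subset_left) hz)
  have rel : ∀ {a' b' : ℝ} {t₀ : (Module.End ℝ V)ˣ}, (seg a' b' ⊆ Sp ∧ seg a' b' ⊆ Sm) →
      ((a', 0) : ℝ × ℝ) ∈ seg a' b' → (∀ s ∈ Icc a' b', ∀ᶠ s' in 𝓝 s, t s' = t₀) →
      a - act (fun _ => (t₀ : Module.End ℝ V)) b ∈ Bd g K₀ := by
    intro a' b' t₀ hs hm ht
    refine Halves_Bd_of_lift (fun q hq => intU q ⟨hq.1, hs.1 hq.2⟩) hm ?_
    have e1 := Bd_mono sh (prod_mono (Subset.refl K₀) hs.1) hza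
    have e2 := Bd_mono sh (prod_mono (Subset.refl K₀) hs.2) hzb
    have e3 := Van_le_Bd sh _ (wall ht b)
    have := (Submodule.sub_mem _ e2 e1)
    have := Submodule.add_mem _ this e3
    convert this using 1
    rw [map_sub]; abel
  have r₁ := rel s₁ m₁ ht₁
  have r₂ := rel s₂ m₂ ht₂
  have hbB : b ∈ Bd g K₀ := by
    have := aB cu (Submodule.sub_mem _ r₂ r₁)
    rw [sub_sub_sub_cancel_left, hu₁] at this
    exact this
  have haB : a ∈ Bd g K₀ := by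
    have := Submodule.add_mem _ r₁ (aB ct₁ hbB)
    rwa [sub_add_cancel] at this
  obtain ⟨eu, heu⟩ : ∃ e, z - delta sh e ∈ Van V (K₀ ×ˢ Sp) := by
    have := Submodule.add_mem _ hza (Halves_lift_Bd intU haB)
    rw [sub_add_cancel] at this
    exact mem_Bd.1 this
  obtain ⟨ed, hed⟩ : ∃ e, z - delta sh e ∈ Van V (K₀ ×ˢ Sm) := by
    have := Submodule.add_mem _ hzb (Halves_lift_Bd intD hbB)
    rw [sub_add_cancel] at this
    exact mem_Bd.1 this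
  -- step 3
  have dZ : ∀ {eu ed : Coch (X × ℝ × ℝ) V}, z - delta sh eu ∈ Van V (K₀ ×ˢ Sp) →
      z - delta sh ed ∈ Van V (K₀ ×ˢ Sm) → ∀ {T : Set (ℝ × ℝ)}, (T ⊆ Sp ∧ T ⊆ Sm) →
      eu - ed ∈ Zc sh (K₀ ×ˢ T) := by
    intro eu ed h1 h2 T hT
    have e1 := Van_mono (prod_mono (Subset.refl K₀) hT.1) h1
    have e2 := Van_mono (prod_mono (Subset.refl K₀) hT.2) h2
    rw [mem_Zc, map_sub]
    convert Submodule.sub_mem _ e2 e1 using 1
    abel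
  obtain ⟨c₁, hc₁, hc₁'⟩ := Halves_exists_lift hK hg (seg_cpt a₁ b₁) m₁
    ((seg_cvx a₁ b₁).starConvex m₁) (fun q hq => intU q ⟨hq.1, s₁.1 hq.2⟩) (dZ heu hed s₁)
  obtain ⟨c₂, hc₂, hc₂'⟩ := Halves_exists_lift hK hg (seg_cpt a₂ b₂) m₂
    ((seg_cvx a₂ b₂).starConvex m₂) (fun q hq => intU q ⟨hq.1, s₂.1 hq.2⟩) (dZ heu hed s₂)
  set b' := act (fun _ => ((u⁻¹ : (Module.End ℝ V)ˣ) : Module.End ℝ V)) (c₂ - c₁) with hb'
  have hb'Z : b' ∈ Zc g K₀ := aZ cu (Submodule.sub_mem _ hc₂ hc₁)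
  set a' := c₁ + act (fun _ => (t₁ : Module.End ℝ V)) b' with ha'
  have ha'Z : a' ∈ Zc g K₀ := Submodule.add_mem _ hc₁ (aZ ct₁ hb'Z)
  have ha'₂ : a' = c₂ + act (fun _ => (t₂ : Module.End ℝ V)) b' := by
    have := hu₂ (c₂ - c₁)
    rw [← hb'] at this
    rw [ha', ← sub_eq_zero]
    rw [← sub_eq_zero] at this
    rw [← this]; abel
  set Eu := eu - lu a' with hEu
  set Ed := ed - ld b' with hEd
  have hEu' : z - delta sh Eu ∈ Van V (K₀ ×ˢ Sp) := by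
    have := Submodule.add_mem _ heu (mem_Zc.1 (Halves_lift_Zc intU ha'Z))
    convert this using 1
    rw [hEu, map_sub]; abel
  have hEd' : z - delta sh Ed ∈ Van V (K₀ ×ˢ Sm) := by
    have := Submodule.add_mem _ hed (mem_Zc.1 (Halves_lift_Zc intD hb'Z))
    convert this using 1
    rw [hEd, map_sub]; abel
  have B₁ : Eu - Ed ∈ Bd sh (K₀ ×ˢ seg a₁ b₁) := by
    have := Submodule.add_mem _ hc₁' (Van_le_Bd sh _ (wall ht₁ b'))
    convert this using 1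
    rw [hEu, hEd, ha', map_add]; abel
  have B₂ : Eu - Ed ∈ Bd sh (K₀ ×ˢ seg a₂ b₂) := by
    have := Submodule.add_mem _ hc₂' (Van_le_Bd sh _ (wall ht₂ b'))
    convert this using 1
    rw [hEu, hEd, ha'₂, map_add]; abel
  obtain ⟨c₃, hc₃, hc₃'⟩ : ∃ c₃ ∈ Zc g K₀, Eu - Ed - lu c₃ ∈ Bd sh (K₀ ×ˢ seg a₃ b₃) := by
    by_cases h₃ : a₃ ≤ b₃
    · have m₃ : ((a₃, 0) : ℝ × ℝ) ∈ seg a₃ b₃ := ⟨left_mem_Icc.2 h₃, rfl⟩
      exact Halves_exists_lift hK hg (seg_cpt a₃ b₃) m₃ ((seg_cvx a₃ b₃).starConvex m₃)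
        (fun q hq => intU q ⟨hq.1, s₃.1 hq.2⟩) (dZ hEu' hEd' s₃)
    · refine ⟨0, Submodule.zero_mem _, Van_le_Bd _ _ fun q hq => ?_⟩
      exact absurd (hq.2.1.1.trans hq.2.1.2) h₃
  set NN : Set (X × ℝ × ℝ) := {q | q.2.1 ∈ N₃} with hNN
  have cN : ∀ q : X × ℝ × ℝ, ContinuousAt (fun q : X × ℝ × ℝ => q.2.1) q := fun q => by fun_prop
  set κ := cut NN (pull Prod.fst c₃) with hκ
  have hκ0 : ∀ {a b : ℝ}, Icc a b ⊆ Icc a₁ b₁ ∪ Icc a₂ b₂ → κ ∈ Van V (K₀ ×ˢ seg a b) :=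
    fun h q hq => vanAt_cut_of_compl_mem ((cN q).preimage_mem_nhds (hN' _ (h hq.2.1))) _
  have Y₁ : Eu - Ed - κ ∈ Bd sh (K₀ ×ˢ seg a₁ b₁) :=
    Submodule.sub_mem _ B₁ (Van_le_Bd _ _ (hκ0 subset_union_left))
  have Y₂ : Eu - Ed - κ ∈ Bd sh (K₀ ×ˢ seg a₂ b₂) :=
    Submodule.sub_mem _ B₂ (Van_le_Bd _ _ (hκ0 subset_union_right))
  have Y₃ : Eu - Ed - κ ∈ Bd sh (K₀ ×ˢ seg a₃ b₃) := by
    have : lu c₃ - κ ∈ Van V (K₀ ×ˢ seg a₃ b₃) := fun q hq =>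
      (Halves_mid (ht₃ _ hq.2.1) c₃).trans_sub
        (vanAt_cut_sub ((cN q).preimage_mem_nhds (hN _ hq.2.1)) _).symm_sub
    have := Submodule.add_mem _ hc₃' (Van_le_Bd sh _ this)
    convert this using 1
    abel
  have cl : ∀ a b, IsClosed (K₀ ×ˢ seg a b) := fun a b => (hK.prod (seg_cpt a b)).isClosed
  have Y₁₂ : Eu - Ed - κ ∈ Bd sh (K₀ ×ˢ seg a₁ b₁ ∪ K₀ ×ˢ seg a₂ b₂) := by
    rw [Bd_union_of_disjoint sh (cl _ _) (cl _ _)]
    · exact ⟨Y₁, Y₂⟩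
    · rw [Set.disjoint_left]
      intro q h h'
      have := h.2.1.2
      have := h'.2.1.1
      linarith
  have Y : Eu - Ed - κ ∈ Bd sh (K₀ ×ˢ seg a₁ b₁ ∪ K₀ ×ˢ seg a₂ b₂ ∪ K₀ ×ˢ seg a₃ b₃) := by
    rw [Bd_union_of_disjoint sh ((cl _ _).union (cl _ _)) (cl _ _)]
    · exact ⟨Y₁₂, Y₃⟩
    · rw [Set.disjoint_left]
      intro q h h'
      have h1 : q.2.1 ∈ Icc a₁ b₁ ∪ Icc a₂ b₂ := h.imp (fun h => h.2.1) (fun h => h.2.1)
      exact mem_of_mem_nhds (hN' _ h1) (mem_of_mem_nhds (hN _ h'.2.1))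
  obtain ⟨f, hf⟩ := mem_Bd.1 Y
  -- step 4
  refine ⟨-c₃, Submodule.neg_mem _ hc₃,
    mem_Bd.2 ⟨cut (upS X) (Eu - delta sh f) + cut (upS X)ᶜ Ed, fun q hq => ?_⟩⟩
  have c22 : Continuous (fun q : X × ℝ × ℝ => q.2.2) := by fun_prop
  rcases lt_trichotomy q.2.2 0 with h | h | h
  · have hn : (upS X)ᶜ ∈ 𝓝 q := by
      filter_upwards [(isOpen_lt c22 continuous_const).mem_nhds h] with y hy
      exact not_lt.2 (le_of_lt hy)
    have e1 := hEd' q ⟨hq.1, hq.2, h.le⟩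
    have e2 := (vanAt_cut_of_compl_mem hn (Eu - delta sh f)).delta sh
    have e3 := (vanAt_cut_sub hn Ed).delta sh
    have e4 := Halves_kap_off (t := t) N₃ (hc₃ _ hq.1) h.ne
    convert ((e1.sub e2).sub e3).add e4 using 1
    simp only [map_add, map_sub, map_neg]; abel
  · have hw : q ∈ K₀ ×ˢ seg a₁ b₁ ∪ K₀ ×ˢ seg a₂ b₂ ∪ K₀ ×ˢ seg a₃ b₃ := by
      have hqS : (q.2.1, (0 : ℝ)) ∈ S := by rw [← h]; exact hq.2
      rcases (hwall _).1 hqS with h' | h' | h'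
      · exact Or.inl (Or.inl ⟨hq.1, h', h⟩)
      · exact Or.inl (Or.inr ⟨hq.1, h', h⟩)
      · exact Or.inr ⟨hq.1, h', h⟩
    have hfr : q ∉ frontier NN := by
      have : NN ∈ 𝓝 q ∨ NNᶜ ∈ 𝓝 q := by
        rcases hw with h' | h'
        · exact Or.inr ((cN q).preimage_mem_nhds
            (hN' _ (h'.imp (fun h => h.2.1) (fun h => h.2.1))))
        · exact Or.inl ((cN q).preimage_mem_nhds (hN _ h'.2.1))
      rcases this with h' | h'
      · exact fun hf => hf.2 (mem_interior_iff_mem_nhds.2 h')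
      · intro hf
        rw [← frontier_compl] at hf
        exact hf.2 (mem_interior_iff_mem_nhds.2 h')
    have e1 := hEd' q ⟨hq.1, hq.2, h.le⟩
    have e2 := ((hf q hw).cut (upS X)).delta sh
    have e3 := vanAt_delta_cut hfr sh (cut (upS X) (pull Prod.fst c₃))
    have e4 : cut NN (cut (upS X) (pull Prod.fst c₃)) = cut (upS X) κ := by
      rw [hκ, cut_cut, cut_cut, inter_comm]
    have e5 : kap g t N₃ c₃ = cut NN (delta sh (cut (upS X) (pull Prod.fst c₃))) := rfl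
    rw [e4, ← e5] at e3
    convert (e1.sub e2).sub e3 using 1
    simp only [cut_compl, map_add, map_sub, map_neg]; abel
  · have hn : upS X ∈ 𝓝 q := (isOpen_lt continuous_const c22).mem_nhds h
    have e1 := hEu' q ⟨hq.1, hq.2, h.le⟩
    have e2 := (vanAt_cut_sub hn (Eu - delta sh f)).delta sh
    have e3 := (vanAt_cut_of_compl_mem (S := (upS X)ᶜ) (by rwa [compl_compl]) Ed).delta sh
    have e4 := Halves_kap_off (t := t) N₃ (hc₃ _ hq.1) h.ne'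
    have e5 := vanAt_delta_delta (hcoc q hq) f
    convert (((e1.sub e2).sub e3).add e4).add e5 using 1
    simp only [map_add, map_sub, map_neg]; abel

end Crest.Agent.R217
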