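import Crest.Agent.R217.Homotopy0

set_option autoImplicit false
set_option linter.unusedSectionVars false
open Set Filter Topology

namespace Crest.Agent.R217

/-! Homotopy invariance. -/

variable {X Y V : Type*} [AddCommGroup V] [Module ℝ V]

section General

variable [TopologicalSpace X] [TopologicalSpace Y]

/-- Compactly supported version for scalar cochains. -/
theorem homotopy_cpt [T2Space Y] (H : ℝ → Y → X) {A U : Set Y} (hA : IsCompact A) (hU : IsOpen U)
    (hUA : U ⊆ A)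
    (hH : ∀ t ∈ Icc (0 : ℝ) 1, ∀ y ∈ A, ContinuousAt (fun q : ℝ × Y => H q.1 q.2) (t, y))
    {z : Coch X ℝ} (hz : ∀ t ∈ Icc (0 : ℝ) 1, ∀ y ∈ A, VanAt (delta 1 z) (H t y))
    (hz₀ : ∀ t ∈ Icc (0 : ℝ) 1, ∀ y ∈ A \ U, VanAt z (H t y)) :
    ∃ e : Coch Y ℝ, IsCompact (supp e) ∧ supp e ⊆ U ∧
      cut A (pull (H 1) z - pull (H 0) z) - delta 1 e ∈ Van ℝ univ := by
  have hc : ∀ t ∈ Icc (0 : ℝ) 1, ∀ y ∈ A, ContinuousAt (H t) y := fun t ht y hy =>
    ContinuousAt.comp (f := fun y : Y => (t, y)) (hH t ht y hy) (by fun_prop)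
  obtain ⟨e, he, h⟩ := homotopy (g := (1 : Sys X ℝ)) H hA (hA.diff hU) sdiff_subset hH
    (fun y _ => ⟨univ, univ_mem, univ, cocOn_one _, fun _ _ => mapsTo_univ _ _⟩) hz hz₀
  have h' : pull (H 1) z - pull (H 0) z - delta 1 e ∈ Van ℝ A := by
    convert h using 3
    all_goals rfl
  have hA' : ∀ x, x ∉ A → Aᶜ ∈ 𝓝 x := fun x hx => hA.isClosed.isOpen_compl.mem_nhds hx
  have hv : ∀ x, x ∉ U → VanAt (cut A e) x := fun x hx => by
    by_cases hxA : x ∈ A
    · exact (he x ⟨hxA, hx⟩).cut A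
    · exact vanAt_cut_of_compl_mem (hA' x hxA) e
  refine ⟨cut A e, isCompact_supp_of_subset hA fun x hx => hv x fun h => hx (hUA h),
    supp_subset_iff.2 hv, fun x _ => ?_⟩
  by_cases hx : x ∈ U
  · have hn : A ∈ 𝓝 x := mem_of_superset (hU.mem_nhds hx) hUA
    have := ((vanAt_cut_sub hn (pull (H 1) z - pull (H 0) z)).add (h' x (hUA hx))).sub
      ((vanAt_cut_sub hn e).delta 1)
    convert this using 1
    simp only [map_sub]; abel
  · refine VanAt.sub ?_ ((hv x hx).delta 1)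
    by_cases hxA : x ∈ A
    · exact (((hz₀ 1 (by simp) x ⟨hxA, hx⟩).pull (hc 1 (by simp) x hxA)).sub
        ((hz₀ 0 (by simp) x ⟨hxA, hx⟩).pull (hc 0 (by simp) x hxA))).cut A
    · exact vanAt_cut_of_compl_mem (hA' x hxA) _

/-- Contraction of a star-shaped fibre, relative to `A₀`. -/
theorem star_fibre {F : Type*} [NormedAddCommGroup F] [NormedSpace ℝ F] {g : Sys X V}
    {A A₀ : Set X} {S : Set F} {s₀ : F} (hA : IsCompact A) (hA₀ : IsCompact A₀) (hsub : A₀ ⊆ A)
    (hS : IsCompact S) (hs₀ : s₀ ∈ S) (hst : StarConvex ℝ s₀ S) (hg : ∀ x ∈ A, CocAt g x)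
    {z : Coch (X × F) V} (hz : z ∈ Zc (pullS Prod.fst g) (A ×ˢ S)) (hz₀ : z ∈ Van V (A₀ ×ˢ S)) :
    ∃ e ∈ Van V (A₀ ×ˢ S), z - pull Prod.fst (pull (fun x => (x, s₀)) z) -
      delta (pullS Prod.fst g) e ∈ Van V (A ×ˢ S) := by
  let H : ℝ → X × F → X × F := fun t y => (y.1, (1 - t) • s₀ + t • y.2)
  have hm : ∀ B : Set X, ∀ t ∈ Icc (0 : ℝ) 1, ∀ y ∈ B ×ˢ S, H t y ∈ B ×ˢ S := fun B t ht y hy =>
    ⟨hy.1, hst hy.2 (sub_nonneg.2 ht.2) ht.1 (by ring)⟩
  obtain ⟨e, he, h⟩ := homotopy (g := pullS Prod.fst g) H (hA.prod hS) (hA₀.prod hS)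
    (prod_mono hsub subset_rfl) (fun t _ y _ => by fun_prop)
    (fun y hy => by
      obtain ⟨N, hN, hg'⟩ := hg y.1 hy.1
      exact ⟨Prod.fst ⁻¹' N, continuous_fst.continuousAt.preimage_mem_nhds hN, Prod.fst ⁻¹' N,
        ⟨fun x hx => hg'.1 _ hx, fun x hx y hy z hz => hg'.2 _ hx _ hy _ hz⟩,
        fun t _ y hy => hy⟩)
    (fun t ht y hy => hz _ (hm A t ht y hy)) (fun t ht y hy => hz₀ _ (hm A₀ t ht y hy))
  have h1 : H 1 = id := by funext y; simp [H]
  have h0 : H 0 = (fun x => (x, s₀)) ∘ Prod.fst := by funext y; simp [H]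
  refine ⟨e, he, fun y hy => ?_⟩
  obtain ⟨N, hN, hg'⟩ := hg y.1 hy.1
  have h2 : VanAt (act (fun y : X × F => g y.1 y.1) z - z) y := by
    refine vanAt_act_sub ?_ z
    filter_upwards [continuous_fst.continuousAt.preimage_mem_nhds hN] with y' hy' using hg'.1 _ hy'
  have h3 := h y hy
  change VanAt (act (fun y : X × F => g y.1 y.1) (pull (H 1) z) - pull (H 0) z -
    delta (pullS Prod.fst g) e) y at h3
  rw [h1, h0, pull_id, ← pull_pull] at h3
  convert h3.sub h2 using 1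
  abel

end General

section Convex

variable [NormedAddCommGroup X] [NormedSpace ℝ X]

theorem sec_mem_Zc {g : Sys X V} {A N : Set X} {a : X} (ha : a ∈ N) (hN : N ∈ 𝓝ˢ A)
    (hg : CocOn g N) (v : V) : sec (fun x => g x a v) ∈ Zc g A := by
  intro x hx
  exact ⟨N, mem_nhdsSet_iff_forall.1 hN x hx, vanOn_delta_sec fun x hx y hy =>
    LinearMap.congr_fun (hg.2 x hx y hy a ha) v⟩

/-- Cohomology of a compact star-shaped set.  Hint: homotopy to the constant map `a`, then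
`cone_identity`. -/
theorem star_H0 {g : Sys X V} {A N : Set X} {a : X} (hA : IsCompact A) (ha : a ∈ A)
    (hst : StarConvex ℝ a A) (hN : N ∈ 𝓝ˢ A) (hg : CocOn g N) {z : Coch X V} (hz : z ∈ Zc g A) :
    ∃ v : V, z - sec (fun x => g x a v) ∈ Bd g A := by
  let H : ℝ → X → X := fun t y => (1 - t) • a + t • y
  have hn := mem_nhdsSet_iff_forall.1 hN
  have haN : a ∈ N := mem_of_mem_nhds (hn a ha)
  have hm : ∀ t ∈ Icc (0 : ℝ) 1, ∀ y ∈ A, H t y ∈ A := fun t ht y hy =>
    hst hy (sub_nonneg.2 ht.2) ht.1 (by ring)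
  obtain ⟨e, -, h⟩ := homotopy (g := g) H hA isCompact_empty (empty_subset _)
    (fun t _ y _ => by fun_prop)
    (fun y hy => by
      have : ∀ᶠ y' in 𝓝 y, ∀ t ∈ Icc (0 : ℝ) 1, H t y' ∈ N := by
        refine isCompact_Icc.eventually_forall_of_forall_eventually fun t ht => ?_
        have hc : ContinuousAt (fun q : X × ℝ => H q.2 q.1) (y, t) := by fun_prop
        exact hc.preimage_mem_nhds (hn _ (hm t ht y hy))
      exact ⟨_, this, N, hg, fun t ht y' hy' => hy' t ht⟩)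
    (fun t ht y hy => hz _ (hm t ht y hy)) (fun _ _ _ h => h.elim)
  have h1 : H 1 = id := by funext y; simp [H]
  have h0 : H 0 = fun _ => a := by funext y; simp [H]
  have hS : pullS (fun _ : X => a) g = 1 := by funext x y; exact hg.1 a haN
  rw [h1, h0, pull_id, hS] at h
  have hd : delta 1 (pull (fun _ : X => a) z) = 0 := by
    rw [← hS, delta_pull]
    obtain ⟨M, hM, hv⟩ := hz a ha
    funext x l
    exact hv a (mem_of_mem_nhds hM) _ fun y hy => by
      obtain ⟨_, -, rfl⟩ := List.mem_map.1 hy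
      exact mem_of_mem_nhds hM
  have hc := cone_identity a (pull (fun _ : X => a) z)
  rw [hd] at hc
  refine ⟨z a [], ?_⟩
  have h2 : act (fun y => g a y) z - sec (fun _ => z a []) ∈ Bd (1 : Sys X V) A := by
    refine mem_Bd.2 ⟨e + fun x l => pull (fun _ : X => a) z a (x :: l), ?_⟩
    convert h using 1
    conv_rhs => rw [hc]
    rw [map_add, show (fun x l => (0 : Coch X V) a (x :: l)) = (0 : Coch X V) from rfl]
    simp only [id, pull_apply, List.map_nil]
    abel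
  have h3 := act_mem_Bd (γ := fun y => g y a) (g' := g) (fun x hx =>
    ⟨N, hn x hx, fun x hx y hy => hg.2 x hx y hy a haN⟩) h2
  rw [map_sub, act_act, act_sec] at h3
  have h4 : act (fun x => g x a ∘ₗ g a x) z - z ∈ Van V A := fun x hx => by
    refine vanAt_act_sub ?_ z
    filter_upwards [hn x hx] with y hy using (hg.2 y hy a haN y hy).trans (hg.1 y hy)
  convert sub_mem h3 (Van_le_Bd g A h4) using 1
  abel

end Convex

end Crest.Agent.R217
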