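import Crest.Agent.R217.Alg

set_option autoImplicit false
set_option linter.unusedSectionVars false
open Set Filter Topology

namespace Crest.Agent.R217

/-! The prism identity. -/

variable {X Y V : Type*} [AddCommGroup V] [Module ℝ V]

theorem Prism_dL_sub (l : List X) (f f' : List X → V) :
    dL l (fun k => f k - f' k) = dL l f - dL l f' := by
  induction l generalizing f f' with
  | nil => simp
  | cons y l ih => simp only [dL_cons, ih]; abel

theorem Prism_dL_comp (φ : Y → X) (l : List Y) (f : List X → V) :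
    dL l (fun k => f (k.map φ)) = dL (l.map φ) f := by
  induction l generalizing f with
  | nil => simp
  | cons y l ih => simp only [dL_cons, List.map_cons]; rw [ih (fun l' => f (φ y :: l'))]

theorem Prism_sub (φ₀ φ₁ : Y → X) (l : List Y) (f f' : List X → V) :
    prismL φ₀ φ₁ l (fun k => f k - f' k) = prismL φ₀ φ₁ l f - prismL φ₀ φ₁ l f' := by
  induction l generalizing f f' with
  | nil => simp [prismL]
  | cons y l ih => simp only [prismL, ih]; abel

theorem Prism_map (φ₀ φ₁ : Y → X) (a : Module.End ℝ V) (l : List Y) (f : List X → V) :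
    prismL φ₀ φ₁ l (fun k => a (f k)) = a (prismL φ₀ φ₁ l f) := by
  induction l generalizing f with
  | nil => simp [prismL]
  | cons y l ih => simp only [prismL, map_sub]; rw [ih (fun l' => f (φ₀ y :: l'))]

theorem Prism_core (φ₀ φ₁ : Y → X) (l : List Y) (f : List X → V) :
    dL l (fun k => prismL φ₀ φ₁ k f) + prismL φ₀ φ₁ l (fun m => dL m f) =
      f (l.map φ₁) - f (l.map φ₀) := by
  induction l generalizing f with
  | nil => simp [prismL]
  | cons y l ih =>
    have h1 := ih (fun l' => f (φ₀ y :: l'))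
    have h2 := Prism_dL_comp φ₁ l (fun k => f (φ₀ y :: φ₁ y :: k))
    simp only [prismL, dL_cons, List.map_cons, Prism_dL_sub, Prism_sub, h2]
    rw [eq_sub_of_add_eq h1]
    abel

theorem Prism_at {g : Sys X V} {φ₀ φ₁ : Y → X} (c : Coch X V) (y : Y)
    (hg : g (φ₀ y) (φ₀ y) = 1) (l : List Y) :
    delta (pullS φ₀ g) (prism φ₀ φ₁ c) y l + prism φ₀ φ₁ (delta g c) y l =
      g (φ₀ y) (φ₁ y) (c (φ₁ y) (l.map φ₁)) - c (φ₀ y) (l.map φ₀) := by
  let f : List X → V := fun m => match m with
    | [] => 0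
    | x :: m => g (φ₀ y) x (c x m)
  have hf : (fun m => f (φ₀ y :: m)) = c (φ₀ y) := by
    funext m
    simp only [f, hg, Module.End.one_apply]
  have h1 : ∀ y' k, prismL φ₀ φ₁ (y' :: k) f = g (φ₀ y) (φ₀ y') (prism φ₀ φ₁ c y' k) := by
    intro y' k
    simp only [prismL, prism, map_sub, f, Prism_map]
  have h2 : (fun k => prismL φ₀ φ₁ (y :: k) f) = prism φ₀ φ₁ c y := by
    funext k
    rw [h1, hg, Module.End.one_apply]
  have h3 : (fun m => dL (φ₀ y :: m) f) = delta g c (φ₀ y) := by
    funext m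
    rw [dL_cons, hf]
    cases m with
    | nil => simp [f]
    | cons x m => rw [delta_cons]
  have h4 : dL (y :: l) (fun k => prismL φ₀ φ₁ k f) = delta (pullS φ₀ g) (prism φ₀ φ₁ c) y l := by
    rw [dL_cons, h2]
    cases l with
    | nil => simp [prismL]
    | cons y' l => rw [delta_cons, h1, pullS_apply]
  have h5 : prismL φ₀ φ₁ (y :: l) (fun m => dL m f) = prism φ₀ φ₁ (delta g c) y l := by
    rw [prism, ← h3, prismL]
  rw [← h4, ← h5, Prism_core, List.map_cons, List.map_cons, congrFun hf]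

theorem prism_one (φ₀ φ₁ : Y → X) (c : Coch X V) :
    delta 1 (prism φ₀ φ₁ c) + prism φ₀ φ₁ (delta 1 c) = pull φ₁ c - pull φ₀ c := by
  funext y l
  exact Prism_at (g := 1) (φ₀ := φ₀) (φ₁ := φ₁) c y rfl l

theorem vanOn_prism_identity {g : Sys X V} {N : Set X} (hg : CocOn g N) {φ₀ φ₁ : Y → X}
    {N' : Set Y} (h₀ : MapsTo φ₀ N' N) (h₁ : MapsTo φ₁ N' N) (c : Coch X V) :
    VanOn (delta (pullS φ₀ g) (prism φ₀ φ₁ c) + prism φ₀ φ₁ (delta g c) -
      (act (fun y => g (φ₀ y) (φ₁ y)) (pull φ₁ c) - pull φ₀ c)) N' := by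
  intro y hy l _
  exact sub_eq_zero.2 (Prism_at c y (hg.1 _ (h₀ hy)) l)

end Crest.Agent.R217
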