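import Crest.Agent.R217.VanMV
import Crest.Agent.R217.Prism

set_option autoImplicit false
set_option linter.unusedSectionVars false
open Set Filter Topology

namespace Crest.Agent.R217

/-! Homotopy invariance. -/

variable {X Y V : Type*} [AddCommGroup V] [Module ℝ V]

section General

variable [TopologicalSpace X] [TopologicalSpace Y]

theorem contiguity {g : Sys X V} {φ₀ φ₁ : Y → X} {c : Coch X V} {y : Y} {N' : Set Y} {N : Set X}
    (hN' : N' ∈ 𝓝 y) (hg : CocOn g N) (hc : VanOn (delta g c) N) (h₀ : MapsTo φ₀ N' N)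
    (h₁ : MapsTo φ₁ N' N) :
    VanAt (act (fun y => g (φ₀ y) (φ₁ y)) (pull φ₁ c) - pull φ₀ c -
      delta (pullS φ₀ g) (prism φ₀ φ₁ c)) y := by
  refine ⟨N', hN', fun x hx l hl => ?_⟩
  have h1 := vanOn_prism_identity hg h₀ h₁ c x hx l hl
  have h2 := hc.prism h₀ h₁ x hx l hl
  simp only [Pi.sub_apply, Pi.add_apply, h2, add_zero] at h1 ⊢
  rw [← neg_sub, h1, neg_zero]

theorem Homotopy0_near (H : ℝ → Y → X) {A : Set Y} (hA : IsCompact A) {t : ℝ}
    (hH : ∀ y ∈ A, ContinuousAt (fun q : ℝ × Y => H q.1 q.2) (t, y)) {d : Coch X V}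
    (hd : ∀ y ∈ A, VanAt d (H t y)) :
    ∀ᶠ s in 𝓝 t, ∀ y ∈ A, ∃ N' ∈ 𝓝 y, ∃ N, VanOn d N ∧ MapsTo (H t) N' N ∧ MapsTo (H s) N' N := by
  refine hA.eventually_forall_of_forall_eventually fun y hy => ?_
  obtain ⟨N, hN, h⟩ := hd y hy
  obtain ⟨U, hU, W, hW, hUW⟩ := mem_nhds_prod_iff.1 (hH y hy hN)
  filter_upwards [prod_mem_nhds hU (eventually_mem_nhds_iff.2 hW)] with z hz
  exact ⟨W, hz.2, N, h, fun w hw => hUW (mk_mem_prod (mem_of_mem_nhds hU) hw),
    fun w hw => hUW (mk_mem_prod hz.1 hw)⟩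

/-- Relative homotopy invariance on a compact pair.  Hint: by compactness of `[0,1] × A` and
`[0,1] × A₀` there is `η > 0` such that for `|s - t| < η` every `y ∈ A` (resp. `A₀`) has a
neighbourhood mapped by `H s`, `H t` into a set on which `δ c` (resp. `c`) vanishes (and `g` is a
cocycle: intersect with the set from `hg`).  Induct on steps `t ↦ t + η/2` with
`e ↦ e + act (fun y => g (H 0 y) (H t y)) (prism (H t) (H t') c)`. -/
theorem homotopy {g : Sys X V} (H : ℝ → Y → X) {A A₀ : Set Y} (hA : IsCompact A)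
    (hA₀ : IsCompact A₀) (hsub : A₀ ⊆ A)
    (hH : ∀ t ∈ Icc (0 : ℝ) 1, ∀ y ∈ A, ContinuousAt (fun q : ℝ × Y => H q.1 q.2) (t, y))
    (hg : ∀ y ∈ A, ∃ N' ∈ 𝓝 y, ∃ N, CocOn g N ∧ ∀ t ∈ Icc (0 : ℝ) 1, MapsTo (H t) N' N)
    {c : Coch X V} (hc : ∀ t ∈ Icc (0 : ℝ) 1, ∀ y ∈ A, VanAt (delta g c) (H t y))
    (hc₀ : ∀ t ∈ Icc (0 : ℝ) 1, ∀ y ∈ A₀, VanAt c (H t y)) :
    ∃ e ∈ Van V A₀, act (fun y => g (H 0 y) (H 1 y)) (pull (H 1) c) - pull (H 0) c -
      delta (pullS (H 0) g) e ∈ Van V A := by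
  have h0 : (0 : ℝ) ∈ Icc (0 : ℝ) 1 := left_mem_Icc.2 zero_le_one
  let a : ℝ → Coch Y V := fun t => act (fun y => g (H 0 y) (H t y)) (pull (H t) c)
  have key := isPreconnected_Icc.induction₂
    (fun t s => ∃ e ∈ Van V A₀, a s - a t - delta (pullS (H 0) g) e ∈ Van V A) (fun t ht => ?_)
    ?_ ?_ h0 (right_mem_Icc.2 zero_le_one)
  · obtain ⟨e, he, h⟩ := key
    refine ⟨e, he, fun y hy => ?_⟩
    obtain ⟨N', hN', N, hN, hm⟩ := hg y hy
    have h1 : VanAt (a 0 - pull (H 0) c) y :=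
      vanAt_act_sub (mem_of_superset hN' fun z hz => hN.1 _ (hm 0 h0 hz)) _
    convert (h y hy).add h1 using 1
    abel
  · filter_upwards [self_mem_nhdsWithin,
      mem_nhdsWithin_of_mem_nhds (Homotopy0_near H hA (hH t ht) (hc t ht)),
      mem_nhdsWithin_of_mem_nhds (Homotopy0_near H hA₀ (fun y hy => hH t ht y (hsub hy)) (hc₀ t ht))]
      with s hs h1 h2
    refine ⟨act (fun y => g (H 0 y) (H t y)) (prism (H t) (H s) c), fun y hy => ?_, fun y hy => ?_⟩
    · obtain ⟨N', hN', N, h, h3, h4⟩ := h2 y hy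
      exact VanAt.act ⟨N', hN', h.prism h3 h4⟩ _
    · obtain ⟨N', hN', N, h, h3, h4⟩ := h1 y hy
      obtain ⟨M', hM', M, hM, hm⟩ := hg y hy
      have h5 := (contiguity (inter_mem hN' hM') (hM.mono inter_subset_right) (h.mono inter_subset_left)
        (h3.inter_inter (hm t ht)) (h4.inter_inter (hm s hs))).act fun y => g (H 0 y) (H t y)
      have h6 := vanAt_delta_act (γ := fun y => g (H 0 y) (H t y)) (g := pullS (H t) g)
        (g' := pullS (H 0) g) ⟨M', hM', fun x hx z hz =>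
          (hM.2 _ (hm 0 h0 hx) _ (hm 0 h0 hz) _ (hm t ht hz)).trans
            (hM.2 _ (hm 0 h0 hx) _ (hm t ht hx) _ (hm t ht hz)).symm⟩ (prism (H t) (H s) c)
      have h7 := vanAt_act_sub_act (γ := fun y => g (H 0 y) (H t y) ∘ₗ g (H t y) (H s y))
        (γ' := fun y => g (H 0 y) (H s y))
        (mem_of_superset hM' fun z hz => hM.2 _ (hm 0 h0 hz) _ (hm t ht hz) _ (hm s hs hz)) (pull (H s) c)
      convert (h5.sub h6).sub h7 using 1
      simp only [map_sub, act_act, a]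
      abel
  · rintro r s t - - - ⟨e, he, h⟩ ⟨e', he', h'⟩
    refine ⟨e + e', add_mem he he', ?_⟩
    convert add_mem h h' using 1
    rw [map_add]
    abel
  · rintro s t - - ⟨e, he, h⟩
    refine ⟨-e, neg_mem he, ?_⟩
    convert neg_mem h using 1
    rw [map_neg]
    abel

end General

section Convex

variable [NormedAddCommGroup X] [NormedSpace ℝ X]

end Convex

end Crest.Agent.R217
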