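import Crest.Agent.R217.OrientCvx
import Crest.Agent.R217.Cover
import Crest.Agent.R217.Flux

set_option autoImplicit false
set_option linter.unusedSectionVars false
open Set Filter Topology

namespace Crest.Agent.R217

/-! Orientation preserving homeomorphisms. -/

variable {X : Type*} [NormedAddCommGroup X] [NormedSpace ℝ X] [FiniteDimensional ℝ X]

/-- Hint: `homotopy_cpt` with `A = closedBall c (2 r)`, `U = ball c (19/10 r)`,
`H t x = x + t • (T x - x)`. -/
theorem jinv_of_close (o : Orient X) {W W' : Set X} {T : X → X} {c : X} {r : ℝ} (hr : 0 < r)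
    (hW' : IsOpen W') (hT : ContinuousOn T W') (hB : Metric.closedBall c (2 * r) ⊆ W')
    (hd : ∀ x ∈ Metric.closedBall c (2 * r), dist (T x) x ≤ r / 10)
    (hW : W ⊆ Metric.ball c (17 / 10 * r))
    (hinv : ∀ x ∈ Metric.closedBall c (2 * r), T x ∈ W → x ∈ W) : JInv o W T := by
  intro z z' hz hs hz' hs' hd'
  have hTc : ∀ y ∈ Metric.closedBall c (2 * r), ContinuousAt T y := fun y hy =>
    hT.continuousAt (hW'.mem_nhds (hB hy))
  obtain ⟨e, he, -, he'⟩ := homotopy_cpt (fun (t : ℝ) (x : X) => x + t • (T x - x))
    (isCompact_closedBall c (2 * r)) (Metric.isOpen_ball (x := c) (ε := 19 / 10 * r))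
    (Metric.ball_subset_closedBall.trans (Metric.closedBall_subset_closedBall (by linarith)))
    (fun t _ y hy => by
      have h1 : ContinuousAt (fun q : ℝ × X => T q.2) (t, y) :=
        ContinuousAt.comp (f := Prod.snd) (hTc y hy) continuousAt_snd
      exact continuousAt_snd.add (continuousAt_fst.smul (h1.sub continuousAt_snd)))
    (z := z) (fun t _ y _ => hz.2 _ (mem_univ _))
    (fun t ht y hy => by
      refine supp_subset_iff.1 hs _ fun hm => ?_
      have h1 := Metric.mem_ball.1 (hW hm)
      have h2 : 19 / 10 * r ≤ dist y c := not_lt.1 fun h => hy.2 (Metric.mem_ball.2 h)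
      have h3 : dist y (y + t • (T y - y)) ≤ r / 10 := by
        rw [dist_self_add_right, norm_smul, Real.norm_of_nonneg ht.1, ← dist_eq_norm]
        exact (mul_le_of_le_one_left dist_nonneg ht.2).trans (hd y hy.1)
      have h4 := dist_triangle y (y + t • (T y - y)) c
      linarith)
  have e1 : (fun x : X => x + (1 : ℝ) • (T x - x)) = T := by funext x; simp
  have e0 : (fun x : X => x + (0 : ℝ) • (T x - x)) = id := by funext x; simp
  simp only [e1, e0, pull_id] at he'
  have h1 : o.J (cut (Metric.closedBall c (2 * r)) (pull T z - z)) = 0 := by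
    rw [o.J_congr fun x => he' x (mem_univ x), o.J_delta e he]
  rw [← sub_eq_zero, ← map_sub, ← h1]
  refine o.J_congr fun x => ?_
  by_cases hx : x ∈ W
  · have h2 : Metric.closedBall c (2 * r) ∈ 𝓝 x :=
      mem_of_superset (Metric.isOpen_ball.mem_nhds (hW hx))
        (Metric.ball_subset_closedBall.trans (Metric.closedBall_subset_closedBall (by linarith)))
    convert (hd' x hx).sub (vanAt_cut_sub h2 (pull T z - z)) using 1
    abel
  · have h2 := supp_subset_iff.1 hs x hx
    refine ((supp_subset_iff.1 hs' x hx).sub h2).sub ?_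
    by_cases hxA : x ∈ Metric.closedBall c (2 * r)
    · exact (((supp_subset_iff.1 hs _ fun h => hx (hinv x hxA h)).pull (hTc x hxA)).sub h2).cut _
    · exact vanAt_cut_of_compl_mem (Metric.isClosed_closedBall.isOpen_compl.mem_nhds hxA) _

end Crest.Agent.R217
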