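import Crest.Agent.R217.Alg

set_option autoImplicit false
set_option linter.unusedSectionVars false
open Set Filter Topology

namespace Crest.Agent.R217

/-! Leibniz rule, reversal, prism identity. -/

variable {X Y V : Type*} [AddCommGroup V] [Module ℝ V]

/-- A cochain as a function on all lists. -/
def Leibniz_bar (c : Coch X V) : List X → V
  | [] => 0
  | x :: l => c x l

theorem Leibniz_ext {c c' : Coch X V} (h : ∀ L, Leibniz_bar c L = Leibniz_bar c' L) : c = c' := by
  funext x l
  exact h (x :: l)

theorem Leibniz_revFun (c : Coch X V) (x : X) (acc l : List X) :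
    revFun c x acc l = Leibniz_bar c (l.reverse ++ x :: acc) := by
  induction l generalizing x acc with
  | nil => rfl
  | cons y l ih => rw [revFun, ih]; simp

theorem Leibniz_bar_rev (c : Coch X V) (L : List X) :
    Leibniz_bar (rev c) L = Leibniz_bar c L.reverse := by
  cases L with
  | nil => rfl
  | cons x l =>
    rw [List.reverse_cons]
    exact Leibniz_revFun c x [] l

theorem Leibniz_bar_delta (c : Coch X V) (L : List X) :
    Leibniz_bar (delta 1 c) L = dL L (Leibniz_bar c) := by
  cases L with
  | nil => rfl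
  | cons x l =>
    cases l with
    | nil => simp [Leibniz_bar]
    | cons y l => rfl

theorem Leibniz_bar_eps (c : Coch X V) (L : List X) :
    Leibniz_bar (eps c) L = (-(-1 : ℝ) ^ L.length) • Leibniz_bar c L := by
  cases L with
  | nil => simp [Leibniz_bar]
  | cons x l => simp [Leibniz_bar, eps_apply, pow_succ]

theorem Leibniz_dL_concat (l : List X) (x : X) (f : List X → V) :
    dL (l ++ [x]) f = dL l (fun k => f (k ++ [x])) + ((-1 : ℝ) ^ l.length) • f l := by
  induction l generalizing f with
  | nil => simp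
  | cons y l ih =>
    rw [List.cons_append, dL_cons, ih, dL_cons, List.length_cons, pow_succ, mul_neg_one, neg_smul]
    simp only [List.cons_append]
    abel

theorem Leibniz_dL_reverse (L : List X) (f : List X → V) :
    dL L.reverse f = (-(-1 : ℝ) ^ L.length) • dL L (fun k => f k.reverse) := by
  induction L generalizing f with
  | nil => simp
  | cons y l ih =>
    rw [List.reverse_cons, Leibniz_dL_concat, ih, dL_cons, List.length_cons, pow_succ, mul_neg_one,
      neg_neg, List.length_reverse, smul_sub, neg_smul]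
    simp only [List.reverse_cons]
    abel

theorem Leibniz_sq (n : ℕ) : (-1 : ℝ) ^ n * (-1) ^ n = 1 := by
  rw [← mul_pow]; simp

/-- The pairing of functions on lists. -/
def Leibniz_R (h : V →ₗ[ℝ] V →ₗ[ℝ] ℝ) (G : List X → V) : List X → (List X → V) → ℝ
  | [], _ => 0
  | y :: l, F => h (F [y]) (G (y :: l)) + Leibniz_R h G l (fun k => F (k ++ [y]))

theorem Leibniz_pairFun (h : V →ₗ[ℝ] V →ₗ[ℝ] ℝ) (c c' : Coch X V) (x : X) (acc l : List X) :
    pairFun h c c' x acc l =
      Leibniz_R h (Leibniz_bar c') (x :: l) (fun k => Leibniz_bar c (k ++ acc)) := by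
  induction l generalizing x acc with
  | nil => simp [pairFun, Leibniz_R, Leibniz_bar]
  | cons y l ih =>
    rw [pairFun, ih]
    conv_rhs => rw [Leibniz_R]
    simp only [List.append_assoc, List.cons_append, List.nil_append]
    rfl

theorem Leibniz_bar_pair (h : V →ₗ[ℝ] V →ₗ[ℝ] ℝ) (c c' : Coch X V) (L : List X) :
    Leibniz_bar (pair h c c') L = Leibniz_R h (Leibniz_bar c') L (Leibniz_bar c) := by
  cases L with
  | nil => rfl
  | cons x l =>
    have := Leibniz_pairFun h c c' x [] l
    simp only [List.append_nil] at this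
    exact this

theorem Leibniz_R_concat (h : V →ₗ[ℝ] V →ₗ[ℝ] ℝ) (G : List X → V) (L : List X) (x : X)
    (F : List X → V) : Leibniz_R h G (L ++ [x]) F =
      Leibniz_R h (fun k => G (k ++ [x])) L F + h (F (x :: L.reverse)) (G [x]) := by
  induction L generalizing F with
  | nil => simp [Leibniz_R]
  | cons y l ih =>
    rw [List.cons_append, Leibniz_R, ih, Leibniz_R, List.reverse_cons]
    simp only [List.cons_append]
    ring

theorem Leibniz_R_reverse {h : V →ₗ[ℝ] V →ₗ[ℝ] ℝ} {σ : ℝ} (hσ : ∀ u v, h v u = σ * h u v)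
    (F : List X → V) (L : List X) (G : List X → V) :
    Leibniz_R h G L.reverse F = σ * Leibniz_R h F L G := by
  induction L generalizing G with
  | nil => simp [Leibniz_R]
  | cons y l ih =>
    rw [List.reverse_cons, Leibniz_R_concat, ih, Leibniz_R, List.reverse_reverse, hσ]
    ring

theorem Leibniz_R_sub (h : V →ₗ[ℝ] V →ₗ[ℝ] ℝ) (G : List X → V) (L : List X) (F F' : List X → V) :
    Leibniz_R h G L (fun k => F k - F' k) = Leibniz_R h G L F - Leibniz_R h G L F' := by
  induction L generalizing F F' with
  | nil => simp [Leibniz_R]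
  | cons y l ih =>
    rw [Leibniz_R, Leibniz_R, Leibniz_R, ih (fun k => F (k ++ [y])) (fun k => F' (k ++ [y])),
      map_sub, LinearMap.sub_apply]
    ring

theorem Leibniz_R_neg (h : V →ₗ[ℝ] V →ₗ[ℝ] ℝ) (G : List X → V) (L : List X) (F : List X → V) :
    Leibniz_R h G L (fun k => - F k) = - Leibniz_R h G L F := by
  induction L generalizing F with
  | nil => simp [Leibniz_R]
  | cons y l ih =>
    rw [Leibniz_R, Leibniz_R, ih (fun k => F (k ++ [y])), map_neg, LinearMap.neg_apply]
    ring

theorem Leibniz_R_dL (h : V →ₗ[ℝ] V →ₗ[ℝ] ℝ) {G : List X → V} (hG : G [] = 0) (L : List X)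
    (F : List X → V) :
    dL L (fun k => Leibniz_R h G k F) + h (F []) (G L) =
      Leibniz_R h G L (fun k => (-(-1 : ℝ) ^ k.length) • dL k F) +
        Leibniz_R h (fun k => dL k G) L (fun k => (-(-1 : ℝ) ^ k.length) • F k) := by
  induction L generalizing F with
  | nil => simp [Leibniz_R, hG]
  | cons y l ih =>
    have e1 : (fun k : List X => (-(-1 : ℝ) ^ (k ++ [y]).length) • dL (k ++ [y]) F) =
        fun k => F k - (-(-1 : ℝ) ^ k.length) • dL k (fun k => F (k ++ [y])) := by
      funext k
      rw [Leibniz_dL_concat, List.length_append, List.length_singleton, pow_succ, mul_neg_one,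
        neg_neg, smul_add, smul_smul, Leibniz_sq, one_smul, neg_smul]
      abel
    have e2 : (fun k : List X => (-(-1 : ℝ) ^ (k ++ [y]).length) • F (k ++ [y])) =
        fun k => -((-(-1 : ℝ) ^ k.length) • F (k ++ [y])) := by
      funext k
      rw [List.length_append, List.length_singleton, pow_succ, mul_neg_one, neg_neg, neg_smul,
        neg_neg]
    have e3 := ih (fun k => F (k ++ [y]))
    have e4 : dL l (fun l' => Leibniz_R h G (y :: l') F) = h (F [y]) (dL l fun l' => G (y :: l')) +
        dL l (fun k => Leibniz_R h G k fun k => F (k ++ [y])) := by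
      rw [← dL_map (h (F [y])), ← dL_add]
      rfl
    rw [dL_cons, e4, Leibniz_R, Leibniz_R, e1, e2, Leibniz_R_sub, Leibniz_R_neg]
    simp only [List.nil_append, List.length_singleton, pow_one, neg_neg, one_smul, dL_cons, dL_nil,
      sub_zero, map_sub] at e3 ⊢
    linarith

theorem rev_rev (c : Coch X V) : rev (rev c) = c := by
  refine Leibniz_ext fun L => ?_
  rw [Leibniz_bar_rev, Leibniz_bar_rev, List.reverse_reverse]

theorem rev_eps (c : Coch X V) : rev (eps c) = eps (rev c) := by
  refine Leibniz_ext fun L => ?_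
  rw [Leibniz_bar_rev, Leibniz_bar_eps, Leibniz_bar_eps, Leibniz_bar_rev, List.length_reverse]

theorem delta_rev (c : Coch X V) : delta 1 (rev c) = rev (eps (delta 1 c)) := by
  refine Leibniz_ext fun L => ?_
  rw [Leibniz_bar_delta, Leibniz_bar_rev, Leibniz_bar_eps, Leibniz_bar_delta, Leibniz_dL_reverse,
    List.length_reverse, smul_smul, neg_mul_neg, Leibniz_sq, one_smul]
  congr 1
  funext k
  exact Leibniz_bar_rev c k

theorem rev_pair {h : V →ₗ[ℝ] V →ₗ[ℝ] ℝ} {σ : ℝ} (hσ : ∀ u v, h v u = σ * h u v)
    (c c' : Coch X V) : rev (pair h c c') = σ • pair h c' c := by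
  funext x l
  change Leibniz_bar (rev (pair h c c')) (x :: l) = σ * Leibniz_bar (pair h c' c) (x :: l)
  rw [Leibniz_bar_rev, Leibniz_bar_pair, Leibniz_bar_pair, Leibniz_R_reverse hσ]

theorem leibniz_one (h : V →ₗ[ℝ] V →ₗ[ℝ] ℝ) (c c' : Coch X V) :
    delta 1 (pair h c c') = pair h (eps (delta 1 c)) c' + pair h (eps c) (delta 1 c') := by
  funext x l
  change Leibniz_bar (delta 1 (pair h c c')) (x :: l) =
    Leibniz_bar (pair h (eps (delta 1 c)) c') (x :: l) +
      Leibniz_bar (pair h (eps c) (delta 1 c')) (x :: l)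
  have e := Leibniz_R_dL h (G := Leibniz_bar c') rfl (x :: l) (Leibniz_bar c)
  rw [show Leibniz_bar c [] = 0 from rfl, map_zero, LinearMap.zero_apply, add_zero] at e
  rw [Leibniz_bar_delta, Leibniz_bar_pair, Leibniz_bar_pair, funext (Leibniz_bar_pair h c c'), e,
    funext (Leibniz_bar_eps (delta 1 c)), funext (Leibniz_bar_eps c), funext (Leibniz_bar_delta c')]
  simp only [Leibniz_bar_delta]

theorem vanOn_leibniz {h : V →ₗ[ℝ] V →ₗ[ℝ] ℝ} {g : Sys X V} {N : Set X} (hg : CocOn g N)
    (ho : ∀ x y, IsOrth h (g x y)) (c c' : Coch X V) :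
    VanOn (delta 1 (pair h c c') - pair h (eps (delta g c)) c' - pair h (eps c) (delta g c'))
      N := by
  intro b hb l hl
  have hγ : IntOn (fun x => g b x) g (1 : Sys X V) N := fun x hx y hy => (hg.2 b hb x hx y hy).symm
  have hp : ∀ u v : Coch X V, pair h u v = pair h (act (fun x => g b x) u) (act (fun x => g b x) v) :=
    fun u v => (pair_act_act (fun x u v => ho b x u v) u v).symm
  have h1 := vanOn_delta_act hγ c
  have h2 := vanOn_delta_act hγ c'
  have h1' : VanOn (eps (delta 1 (act (fun x => g b x) c) - act (fun x => g b x) (delta g c))) N :=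
    fun x hx k hk => by rw [eps_apply, h1 x hx k hk, smul_zero]
  have h3 := h1'.pair_left h (act (fun x => g b x) c') b hb l hl
  have h4 := h2.pair_right h (eps (act (fun x => g b x) c)) b hb l hl
  rw [hp c c', leibniz_one, hp (eps (delta g c)) c', hp (eps c) (delta g c'), ← eps_act, ← eps_act]
  simp only [map_sub, LinearMap.sub_apply, Pi.sub_apply, Pi.add_apply] at h3 h4 ⊢
  linarith

end Crest.Agent.R217
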