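import Crest.Agent.R217.Tau

set_option autoImplicit false
set_option linter.unusedSectionVars false
open Set Filter Topology

namespace Crest.Agent.R217

/-! Local actions of compact groups. -/

variable {K X : Type*} [Group K] [TopologicalSpace K] [IsTopologicalGroup K] [CompactSpace K]
  [T2Space K] [SecondCountableTopology K]

/-- Saturation. -/
def LocAct.sat [TopologicalSpace X] (L : LocAct K X) (S : Set X) : Set X := ⋃ k, L.act k '' S

/-- Restriction to an invariant open subset. -/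
def LocAct.restrict [TopologicalSpace X] (L : LocAct K X) (W₀ : Set X) (ho : IsOpen W₀)
    (hs : W₀ ⊆ L.W) (hm : ∀ k, MapsTo (L.act k) W₀ W₀) : LocAct K X where
  W := W₀
  act := L.act
  isOpen_W := ho
  mapsTo := hm
  cont := L.cont.mono (prod_mono Subset.rfl hs)
  act_one := fun x hx => L.act_one x (hs hx)
  act_mul := fun k k' x hx => L.act_mul k k' x (hs hx)

section Metric

variable [MetricSpace X] (L : LocAct K X)

theorem LocAct.continuousOn_act (k : K) : ContinuousOn (L.act k) L.W := by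
  exact L.cont.comp (f := fun x => (k, x)) (by fun_prop) fun x hx => ⟨mem_univ _, hx⟩

theorem LocAct0_continuous_orbit {x : X} (hx : x ∈ L.W) : Continuous fun k => L.act k x := by
  rw [← continuousOn_univ]
  exact L.cont.comp (f := fun k => (k, x)) (by fun_prop) fun k _ => ⟨mem_univ _, hx⟩

theorem LocAct0_inv_act (k : K) {x : X} (hx : x ∈ L.W) : L.act k⁻¹ (L.act k x) = x := by
  rw [← L.act_mul _ _ _ hx, inv_mul_cancel, L.act_one _ hx]

theorem LocAct0_act_inv (k : K) {x : X} (hx : x ∈ L.W) : L.act k (L.act k⁻¹ x) = x := by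
  rw [← L.act_mul _ _ _ hx, mul_inv_cancel, L.act_one _ hx]

theorem LocAct.subset_sat {S : Set X} (hS : S ⊆ L.W) : S ⊆ L.sat S := by
  exact fun x hx => mem_iUnion.2 ⟨1, x, hx, L.act_one x (hS hx)⟩

theorem LocAct.sat_subset {S : Set X} (hS : S ⊆ L.W) : L.sat S ⊆ L.W := by
  intro x hx
  obtain ⟨k, y, hy, rfl⟩ := mem_iUnion.1 hx
  exact L.mapsTo k (hS hy)

theorem LocAct.mapsTo_sat {S : Set X} (hS : S ⊆ L.W) (k : K) :
    MapsTo (L.act k) (L.sat S) (L.sat S) := by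
  intro x hx
  obtain ⟨k', y, hy, rfl⟩ := mem_iUnion.1 hx
  exact mem_iUnion.2 ⟨k * k', y, hy, L.act_mul k k' y (hS hy)⟩

theorem LocAct.mem_sat_of_act_mem {S : Set X} (hS : S ⊆ L.W) {k : K} {x : X} (hx : x ∈ L.W)
    (h : L.act k x ∈ L.sat S) : x ∈ L.sat S := by
  have := L.mapsTo_sat hS k⁻¹ h
  rwa [LocAct0_inv_act L k hx] at this

theorem LocAct.isOpen_sat {S : Set X} (hS : S ⊆ L.W) (ho : IsOpen S) : IsOpen (L.sat S) := by
  refine isOpen_iUnion fun k => ?_
  have : L.act k '' S = L.W ∩ L.act k⁻¹ ⁻¹' S := by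
    ext x
    constructor
    · rintro ⟨y, hy, rfl⟩
      refine ⟨L.mapsTo k (hS hy), ?_⟩
      rwa [mem_preimage, LocAct0_inv_act L k (hS hy)]
    · rintro ⟨hx, hxS⟩
      exact ⟨_, hxS, LocAct0_act_inv L k hx⟩
  rw [this]
  exact (L.continuousOn_act k⁻¹).isOpen_inter_preimage L.isOpen_W ho

theorem LocAct.isCompact_sat {S : Set X} (hS : S ⊆ L.W) (hc : IsCompact S) :
    IsCompact (L.sat S) := by
  have : L.sat S = (fun q : K × X => L.act q.1 q.2) '' (univ ×ˢ S) := by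
    ext x
    constructor
    · intro hx
      obtain ⟨k, y, hy, rfl⟩ := mem_iUnion.1 hx
      exact ⟨(k, y), ⟨mem_univ _, hy⟩, rfl⟩
    · rintro ⟨⟨k, y⟩, ⟨-, hy⟩, rfl⟩
      exact mem_iUnion.2 ⟨k, y, hy, rfl⟩
  rw [this]
  exact (isCompact_univ.prod hc).image_of_continuousOn (L.cont.mono (prod_mono Subset.rfl hS))

theorem LocAct0_act_mem {κ : K} (hκ : DenseRange (fun n : ℤ => κ ^ n)) {Y : Set X}
    (hY : IsClosed Y) (hi : InvS L.W (L.act κ) Y) {x : X} (hx : x ∈ L.W) (hxY : x ∈ Y) (k : K) :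
    L.act k x ∈ Y := by
  have step : ∀ n : ℤ, L.act (κ ^ (n + 1)) x ∈ Y ↔ L.act (κ ^ n) x ∈ Y := fun n => by
    rw [add_comm, zpow_one_add, L.act_mul _ _ _ hx]
    exact hi _ (L.mapsTo _ hx)
  have all : ∀ n : ℤ, L.act (κ ^ n) x ∈ Y := fun n => by
    induction n using Int.induction_on with
    | zero => rwa [zpow_zero, L.act_one _ hx]
    | succ n ih => exact (step n).2 ih
    | pred n ih => exact (step _).1 (by rwa [sub_add_cancel])
  exact hκ.induction_on (p := fun k => L.act k x ∈ Y) k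
    (hY.preimage (LocAct0_continuous_orbit L hx)) all

theorem LocAct.act_eq_of_fixed {κ : K} (hκ : DenseRange (fun n : ℤ => κ ^ n)) {x : X}
    (hx : x ∈ L.W) (h : L.act κ x = x) (k : K) : L.act k x = x := by
  refine LocAct0_act_mem L hκ (Y := {x}) isClosed_singleton (fun y hy => ?_) hx rfl k
  simp only [mem_singleton_iff]
  constructor
  · intro hy'
    have h1 := LocAct0_inv_act L κ hx
    rw [h] at h1
    rw [← LocAct0_inv_act L κ hy, hy', h1]
  · rintro rfl
    exact h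

theorem LocAct.iterate_act (κ : K) (n : ℕ) {x : X} (hx : x ∈ L.W) :
    (L.act κ)^[n] x = L.act (κ ^ n) x := by
  induction n with
  | zero => simp [L.act_one x hx]
  | succ n ih => rw [Function.iterate_succ_apply', ih, pow_succ', L.act_mul _ _ _ hx]

theorem LocAct.recur {κ : K} {p : ℕ} (hp : PP κ p) {C : Set X} (hC : IsCompact C) (hCW : C ⊆ L.W)
    {η : ℝ} (hη : 0 < η) : ∃ k : ℕ, ∀ x ∈ C, dist ((L.act κ)^[p ^ (k + 1)] x) x < η := by
  have hcont : ContinuousOn (fun q : K × X => dist (L.act q.1 q.2) q.2) (univ ×ˢ L.W) :=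
    continuous_dist.comp_continuousOn (L.cont.prodMk continuousOn_snd)
  have hopen := hcont.isOpen_inter_preimage (isOpen_univ.prod L.isOpen_W) (isOpen_Iio (a := η))
  obtain ⟨u, v, hu, -, h1u, hCv, huv⟩ := generalized_tube_lemma (isCompact_singleton (x := (1 : K)))
    hC hopen (by
      rintro ⟨k, x⟩ ⟨rfl, hx⟩
      refine ⟨⟨mem_univ _, hCW hx⟩, ?_⟩
      simp only [mem_preimage, mem_Iio]
      rwa [L.act_one _ (hCW hx), dist_self])
  obtain ⟨k, hk⟩ := hp u (hu.mem_nhds (h1u rfl))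
  refine ⟨k, fun x hx => ?_⟩
  rw [L.iterate_act κ _ (hCW hx), pow_succ]
  exact (huv (mk_mem_prod (hk p) (hCv hx))).2

theorem LocAct.nbhd [ProperSpace X] {κ : K} (hκ : DenseRange (fun n : ℤ => κ ^ n)) {Y U : Set X}
    (hY : IsCompact Y) (hYW : Y ⊆ L.W) (hi : InvS L.W (L.act κ) Y) (hU : IsOpen U) (hYU : Y ⊆ U) :
    ∃ Q, IsCompact Q ∧ InvS L.W (L.act κ) Q ∧ Y ⊆ interior Q ∧ Q ⊆ U ∩ L.W := by
  have hopen := L.cont.isOpen_inter_preimage (isOpen_univ.prod L.isOpen_W) hU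
  obtain ⟨u, v, -, hv, hu, hYv, huv⟩ := generalized_tube_lemma (isCompact_univ (X := K))
    hY hopen (by
      rintro ⟨k, x⟩ ⟨-, hx⟩
      exact ⟨⟨mem_univ _, hYW hx⟩, hYU (LocAct0_act_mem L hκ hY.isClosed hi (hYW hx) hx k)⟩)
  obtain ⟨Q₀, hQ₀, hYQ, hQv⟩ := exists_compact_between hY hv hYv
  have hQW : Q₀ ⊆ L.W := fun x hx => (huv (mk_mem_prod (hu (mem_univ 1)) (hQv hx))).1.2
  refine ⟨L.sat Q₀, L.isCompact_sat hQW hQ₀, fun x hx =>
    ⟨L.mem_sat_of_act_mem hQW hx, fun h => L.mapsTo_sat hQW κ h⟩,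
    hYQ.trans (interior_mono (L.subset_sat hQW)), fun x hx => ⟨?_, L.sat_subset hQW hx⟩⟩
  obtain ⟨k, y, hy, rfl⟩ := mem_iUnion.1 hx
  exact (huv (mk_mem_prod (hu (mem_univ k)) (hQv hy))).2

end Metric

end Crest.Agent.R217
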