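import Crest.Agent.R217.Defs

set_option autoImplicit false
set_option linter.unusedSectionVars false
open Set Filter Topology

namespace Crest.Agent.R217

/-! Abstract homological algebra. -/

variable {M : Type*} [AddCommGroup M] [Module ℝ M]

theorem AcycMod.sup {D : M →ₗ[ℝ] M} {N₀ P₁ P₂ : Submodule ℝ M} (h₁ : N₀ ≤ P₁) (h₂ : N₀ ≤ P₂)
    (hD₁ : ∀ m ∈ P₁, D m ∈ P₁) (hD₂ : ∀ m ∈ P₂, D m ∈ P₂) (hDD : ∀ m ∈ P₁, D (D m) ∈ N₀)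
    (a₁ : AcycMod D N₀ P₁) (a₂ : AcycMod D N₀ P₂) (a₁₂ : AcycMod D N₀ (P₁ ⊓ P₂)) :
    AcycMod D N₀ (P₁ ⊔ P₂) := by
  intro m hm hD
  obtain ⟨m₁, hm₁, m₂, hm₂, rfl⟩ := Submodule.mem_sup.1 hm
  obtain ⟨m', hm', h⟩ := a₁₂ (D m₁) ⟨hD₁ _ hm₁, by simpa using sub_mem (h₂ hD) (hD₂ _ hm₂)⟩ (hDD _ hm₁)
  obtain ⟨e₁, he₁, k₁⟩ := a₁ (m₁ - m') (sub_mem hm₁ hm'.1) (by rwa [map_sub])
  obtain ⟨e₂, he₂, k₂⟩ := a₂ (m₂ + m') (add_mem hm₂ hm'.2) (by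
    convert sub_mem hD h using 1
    simp only [map_add]
    abel)
  refine ⟨e₁ + e₂, Submodule.add_mem_sup he₁ he₂, ?_⟩
  convert add_mem k₁ k₂ using 1
  rw [map_add]
  abel

theorem exists_fg_of_le_sup {S B F : Submodule ℝ M} (hF : F.FG) (h : S ≤ B ⊔ F) :
    ∃ F' : Submodule ℝ M, F' ≤ S ∧ F'.FG ∧ S ≤ (S ⊓ B) ⊔ F' := by
  have h1 : (S.map B.mkQ).FG := (hF.map B.mkQ).of_le (by
    simpa [Submodule.map_sup] using Submodule.map_mono (f := B.mkQ) h)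
  obtain ⟨n, v, hv⟩ := Submodule.fg_iff_exists_fin_generating_family.1 h1
  choose w hw hw' using fun i => show v i ∈ S.map B.mkQ from hv ▸ Submodule.subset_span (mem_range_self i)
  have h2 : Submodule.span ℝ (range w) ≤ S := Submodule.span_le.2 (range_subset_iff.2 hw)
  refine ⟨_, h2, Submodule.fg_span (finite_range w), fun x hx => ?_⟩
  have h3 : B.mkQ x ∈ (Submodule.span ℝ (range w)).map B.mkQ := by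
    rw [Submodule.map_span, ← range_comp, show B.mkQ ∘ w = v from funext hw', hv]
    exact Submodule.mem_map_of_mem hx
  obtain ⟨f, hf, e⟩ := h3
  exact Submodule.mem_sup.2 ⟨x - f, ⟨sub_mem hx (h2 hf), (Submodule.Quotient.eq B).1 e.symm⟩, f, hf,
    sub_add_cancel x f⟩

/-- Hint: `Z = comap D (N₁ ⊓ N₂)`.  Apply `exists_fg_of_le_sup` twice to reduce to
`z = D e₁ + n₁ = D e₂ + n₂`.  Then `e₁ - e₂` is a cycle modulo `N₁ ⊔ N₂`, so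
`e₁ - e₂ = D e + a₁ + a₂ + f` with `f ∈ F₁₂ ≤ comap D (N₁ ⊔ N₂)` finitely generated; for generators
write `D f = m₁ + m₂`; `D (e₂ + a₂) - z + m₂ ∈ N₁ ⊓ N₂`. -/
theorem FinMod.inf {D : M →ₗ[ℝ] M} {N₁ N₂ : Submodule ℝ M} (hD₁ : ∀ m ∈ N₁, D m ∈ N₁)
    (hD₂ : ∀ m ∈ N₂, D m ∈ N₂) (hDD : ∀ m, D (D m) ∈ N₁ ⊓ N₂) (f₁ : FinMod D N₁)
    (f₂ : FinMod D N₂) (f₁₂ : FinMod D (N₁ ⊔ N₂)) : FinMod D (N₁ ⊓ N₂) := by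
  obtain ⟨F₁, hF₁, k₁⟩ := f₁
  obtain ⟨F₂, hF₂, k₂⟩ := f₂
  obtain ⟨F, hF, k⟩ := f₁₂
  obtain ⟨G₁, -, hG₁, l₁⟩ := exists_fg_of_le_sup hF₁
    ((Submodule.comap_mono (inf_le_left : N₁ ⊓ N₂ ≤ N₁)).trans k₁)
  obtain ⟨G₂, -, hG₂, l₂⟩ := exists_fg_of_le_sup (S := (N₁ ⊓ N₂).comap D ⊓ (LinearMap.range D ⊔ N₁)) hF₂
    (inf_le_left.trans ((Submodule.comap_mono inf_le_right).trans k₂))
  obtain ⟨G, -, hG, l⟩ := exists_fg_of_le_sup (S := N₂ ⊓ (N₁ ⊔ F.map D)) (hF.map D) inf_le_right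
  refine ⟨G ⊔ G₂ ⊔ G₁, (hG.sup hG₂).sup hG₁, l₁.trans ?_⟩
  rw [← sup_assoc, ← sup_assoc]
  refine sup_le_sup_right (l₂.trans (sup_le_sup_right ?_ _)) _
  rintro z ⟨⟨-, hz₁⟩, hz₂⟩
  obtain ⟨_, ⟨e₁, rfl⟩, n₁, hn₁, rfl⟩ := Submodule.mem_sup.1 hz₁
  obtain ⟨_, ⟨e₂, rfl⟩, n₂, hn₂, e⟩ := Submodule.mem_sup.1 hz₂
  have e' : D (e₁ - e₂) = n₂ - n₁ := by rw [map_sub, sub_eq_sub_iff_add_eq_add, ← e, add_comm]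
  obtain ⟨_, hx, f, hf, e''⟩ := Submodule.mem_sup.1 (k (show D (e₁ - e₂) ∈ N₁ ⊔ N₂ from
    e' ▸ sub_mem (Submodule.mem_sup_right hn₂) (Submodule.mem_sup_left hn₁)))
  obtain ⟨_, ⟨x, rfl⟩, _, ha, rfl⟩ := Submodule.mem_sup.1 hx
  obtain ⟨a₁, ha₁, a₂, ha₂, rfl⟩ := Submodule.mem_sup.1 ha
  rw [← e''] at e'
  have hu : n₂ - D a₂ ∈ N₂ ⊓ (N₁ ⊔ F.map D) := by
    refine ⟨sub_mem hn₂ (hD₂ _ ha₂), Submodule.mem_sup.2 ⟨n₁ + D (D x) + D a₁,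
      add_mem (add_mem hn₁ (hDD x).1) (hD₁ _ ha₁), D f, Submodule.mem_map_of_mem hf, ?_⟩⟩
    rw [← sub_add_cancel n₂ n₁, ← e']
    simp only [map_add]
    abel
  obtain ⟨w, hw, g, hg, e3⟩ := Submodule.mem_sup.1 (l hu)
  refine Submodule.mem_sup.2 ⟨_, Submodule.add_mem_sup ⟨e₂ + a₂, rfl⟩ ⟨hw.2, hw.1.1⟩, g, hg, ?_⟩
  rw [add_assoc, e3, ← e, map_add]
  abel

theorem exists_dual_comp (D : M →ₗ[ℝ] M) (N : Submodule ℝ M) (ψ : Module.Dual ℝ M)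
    (hψ : ∀ x, D x ∈ N → ψ x = 0) :
    ∃ φ : Module.Dual ℝ M, (∀ x ∈ N, φ x = 0) ∧ φ ∘ₗ D = ψ := by
  obtain ⟨φ, hφ⟩ : ψ ∈ LinearMap.range (N.mkQ ∘ₗ D).dualMap := by
    rw [LinearMap.range_dualMap_eq_dualAnnihilator_ker, Submodule.mem_dualAnnihilator]
    exact fun x hx => hψ x ((Submodule.Quotient.mk_eq_zero N).1 hx)
  exact ⟨φ ∘ₗ N.mkQ, fun x hx => by simp [(Submodule.Quotient.mk_eq_zero N).2 hx], hφ⟩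

end Crest.Agent.R217
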