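import Crest.Agent.R217.Model1

set_option autoImplicit false
set_option linter.unusedSectionVars false
open Set Filter Topology

namespace Crest.Agent.R217

/-! Existence of models in all odd dimensions. -/

variable {X Y V : Type*} [AddCommGroup V] [Module ℝ V]

/-- The dot product on the plane. -/
noncomputable def Model_dot : (ℝ × ℝ) →ₗ[ℝ] (ℝ × ℝ) →ₗ[ℝ] ℝ :=
  prodForm (LinearMap.mul ℝ ℝ) (LinearMap.mul ℝ ℝ)

theorem Model_dot_apply (u v : ℝ × ℝ) : Model_dot u v = u.1 * v.1 + u.2 * v.2 := rfl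

/-- The quarter turn. -/
def Model_rot : Module.End ℝ (ℝ × ℝ) :=
  LinearMap.prod (-LinearMap.snd ℝ ℝ ℝ) (LinearMap.fst ℝ ℝ ℝ)

theorem Model_rot_apply (u : ℝ × ℝ) : Model_rot u = (-u.2, u.1) := rfl

/-- Constant sections. -/
def Model_const (X V : Type*) [AddCommGroup V] [Module ℝ V] : V →ₗ[ℝ] Coch X V where
  toFun v := sec (fun _ => v)
  map_add' u v := by funext x l; cases l <;> simp
  map_smul' a v := by funext x l; cases l <;> simp

theorem Model_const_apply (v : V) : Model_const X V v = sec (fun _ : X => v) := rfl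

/-- `V = ℝ × ℝ` with the dot product, `I (u, v) = (-v, u)`, `G = 1`, `C = univ × [-1, 1]`,
`Θ = {0 < t}`, orientation `orient_susp (orient_point)`.  `sig_of_map` with
`v ↦ sec (fun _ => v)` (`star_H0`, `pair_sec_left`), `sig_posDef`. -/
theorem hasModel_base : HasModel ((Fin 0 → ℝ) × ℝ) := by
  obtain ⟨o, hz, hJ⟩ := orient_point (Fin 0 → ℝ)
  obtain ⟨o', ho'⟩ := orient_susp o
  set C : Set ((Fin 0 → ℝ) × ℝ) := univ ×ˢ Icc (-1) 1 with hC
  set Θ : Set ((Fin 0 → ℝ) × ℝ) := {q | 0 < q.2} with hΘ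
  have hCc : IsCompact C := (toFinite _).isCompact.prod isCompact_Icc
  have hint : ∀ q : (Fin 0 → ℝ) × ℝ, q.2 = 0 → C ∈ 𝓝 q := fun q hq =>
    prod_mem_nhds univ_mem (by rw [hq]; exact Icc_mem_nhds (by norm_num) (by norm_num))
  have hfr : ∀ q : (Fin 0 → ℝ) × ℝ, q ∈ frontier Θ → q.2 = 0 := fun q hq => by
    by_contra h
    exact Susp0_fr h hq
  have hA : Adm C Θ := ⟨hCc, fun q hq => mem_interior_iff_mem_nhds.2 (hint q (hfr q hq.1))⟩
  have hcoc : ∀ x ∈ C, CocAt (1 : Sys ((Fin 0 → ℝ) × ℝ) (ℝ × ℝ)) x := fun x _ => cocAt_one x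
  have horth : ∀ x y, IsOrth Model_dot ((1 : Sys ((Fin 0 → ℝ) × ℝ) (ℝ × ℝ)) x y) :=
    fun _ _ _ _ => rfl
  have hmem : ∀ v : ℝ × ℝ, Model_const ((Fin 0 → ℝ) × ℝ) (ℝ × ℝ) v ∈
      Zc (1 : Sys ((Fin 0 → ℝ) × ℝ) (ℝ × ℝ)) C := fun v =>
    sec_mem_Zc (g := (1 : Sys ((Fin 0 → ℝ) × ℝ) (ℝ × ℝ))) (a := 0) (N := univ) (mem_univ _)
      univ_mem (cocOn_one _) v
  have hone : flux o' C Θ (sec (fun _ => (1 : ℝ))) = 1 := by
    have h2 := (ho' _ hz).trans hJ
    rw [suspAt_apply, pull_sec] at h2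
    rw [flux_apply]
    refine Eq.trans (o'.J_congr fun q => ?_) h2
    by_cases hq : q.2 = 0
    · exact vanAt_cut_sub (hint q hq) _
    · have h1 : VanAt (delta 1 (cut Θ (sec (fun _ : (Fin 0 → ℝ) × ℝ => (1 : ℝ))))) q :=
        vanAt_delta_cut_of_cocycle (Susp0_fr hq)
          ⟨univ, univ_mem, vanOn_delta_sec fun _ _ _ _ => rfl⟩
      exact (h1.cut C).sub h1
  refine ⟨o', ℝ × ℝ, inferInstance, inferInstance, inferInstance, Model_dot, Model_rot, 1, C, Θ,
    ⟨Or.inl fun u v => ?_, fun u hu => ?_⟩, ?_, fun u v => ?_, horth, fun x y => ?_, hA, hcoc, ?_⟩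
  · simp only [Model_dot_apply]; ring
  · have := hu u
    rw [Model_dot_apply] at this
    ext
    · show u.1 = 0
      nlinarith [sq_nonneg u.1, sq_nonneg u.2]
    · show u.2 = 0
      nlinarith [sq_nonneg u.1, sq_nonneg u.2]
  · refine LinearMap.ext fun u => ?_
    simp [Model_rot_apply, Prod.ext_iff]
  · simp only [Model_dot_apply, Model_rot_apply]; ring
  · show 1 * Model_rot = Model_rot * 1
    rw [one_mul, mul_one]
  · unfold sig0
    rw [sig_of_map (b := Model_dot) (S := ⊤) (Model_const ((Fin 0 → ℝ) × ℝ) (ℝ × ℝ))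
      (fun v _ => hmem v) (fun u _ v _ => ?_) (fun y hy => ?_), sig_posDef]
    · simp
    · intro x hx
      rw [Model_dot_apply]
      by_contra hle
      apply hx
      ext
      · show x.1 = 0
        nlinarith [sq_nonneg x.1, sq_nonneg x.2]
      · show x.2 = 0
        nlinarith [sq_nonneg x.1, sq_nonneg x.2]
    · rw [form_apply, Model_const_apply, Model_const_apply, pair_sec_left, act_sec]
      have : (sec (fun _ : (Fin 0 → ℝ) × ℝ => Model_dot u v) : Coch _ ℝ) =
          Model_dot u v • sec (fun _ => (1 : ℝ)) := by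
        rw [← map_smul]; congr 1; funext x; simp
      rw [this, map_smul, hone, smul_eq_mul, mul_one]
    · have h0 : (0 : (Fin 0 → ℝ) × ℝ) ∈ C := ⟨mem_univ _, by simp⟩
      obtain ⟨v, hv⟩ := star_H0 (N := univ) hCc h0
        ((convex_univ.prod (convex_Icc _ _)) h0) univ_mem (cocOn_one _) hy
      have hv' : Model_const ((Fin 0 → ℝ) × ℝ) (ℝ × ℝ) v - y ∈
          Bd (1 : Sys ((Fin 0 → ℝ) × ℝ) (ℝ × ℝ)) C := by
        have := neg_mem hv
        rw [neg_sub] at this
        exact this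
      exact ⟨v, Submodule.mem_top, fun w hw =>
        ⟨form_Bd_left o' hA hcoc horth hv' hw, form_Bd_right o' hA hcoc horth hw hv'⟩⟩

theorem hasModel_step [NormedAddCommGroup X] [NormedSpace ℝ X] [FiniteDimensional ℝ X]
    (hX : HasModel X) : HasModel (X × ℝ × ℝ) := by
  obtain ⟨o, V, _, _, _, h, I, G, C, Θ, hm⟩ := hX
  have : ProperSpace X := FiniteDimensional.proper_real X
  obtain ⟨o', ho'⟩ := orient_susp2 o
  obtain ⟨A, B, QL, QR, Qu, Qd, a, b, hs, hab, hcomm⟩ := exists_stepOK hm.orth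
  have hf : IsForm ((omegaForm h).compl₂ (a - b)) := by
    rw [hab]; exact hm.form.diag (by norm_num) (by norm_num)
  obtain ⟨C', Θ', hA', hcoc', hsig⟩ := step_sig (o := o) (o' := o') ho' hs hf hm.adm
    (fun x hx => (hm.coc x hx).diagSys)
  refine ⟨o', V × V, inferInstance, inferInstance, inferInstance, omegaForm h, I.prodMap I,
    dbl (diagSys G) Θ A B QL QR Qu Qd, C', Θ', hm.form.omega, ?_, fun u v => ?_,
    hs.orth_dbl Θ, fun x y => ?_, hA', hcoc', ?_⟩
  · refine LinearMap.ext fun u => ?_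
    have := fun w => LinearMap.congr_fun hm.I_sq w
    simp only [Module.End.mul_apply, LinearMap.neg_apply, Module.End.one_apply] at this
    simp [this, Prod.ext_iff]
  · simp only [omegaForm_apply, LinearMap.prodMap_apply, hm.I_orth _ _]
  · refine dbl_comm (fun x y => ?_) (hcomm I _ (by simp)) (hcomm I _ (by simp))
      (hcomm I _ (by simp)) (hcomm I _ (by simp)) (hcomm I _ (by simp)) (hcomm I _ (by simp)) Θ x y
    refine LinearMap.ext fun u => ?_
    have := fun w => LinearMap.congr_fun (hm.comm x y) w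
    simp only [Module.End.mul_apply] at this
    simp [diagSys, this]
  · rw [hsig, hab, sig0_diag o hm.form hm.orth hm.adm hm.coc (by norm_num) (by norm_num)]
    have := hm.sig_ne
    omega

theorem Model_pi (m : ℕ) : HasModel (Fin (2 * m + 1) → ℝ) := by
  induction m with
  | zero =>
    exact HasModel.of_homeomorph (ContinuousLinearEquiv.ofFinrankEq
      (𝕜 := ℝ) (E := Fin (2 * 0 + 1) → ℝ) (F := (Fin 0 → ℝ) × ℝ) (by simp)).toHomeomorph
      hasModel_base
  | succ m ih =>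
    exact HasModel.of_homeomorph (ContinuousLinearEquiv.ofFinrankEq
      (𝕜 := ℝ) (E := Fin (2 * (m + 1) + 1) → ℝ) (F := (Fin (2 * m + 1) → ℝ) × ℝ × ℝ)
      (by simp; ring)).toHomeomorph (hasModel_step ih)

theorem hasModel_of_odd (m : ℕ) (X : Type*) [NormedAddCommGroup X] [NormedSpace ℝ X]
    [FiniteDimensional ℝ X] (hX : Module.finrank ℝ X = 2 * m + 1) : HasModel X :=
  HasModel.of_homeomorph (ContinuousLinearEquiv.ofFinrankEq
    (𝕜 := ℝ) (E := X) (F := Fin (2 * m + 1) → ℝ) (by simp [hX])).toHomeomorph (Model_pi m)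

end Crest.Agent.R217
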