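import Crest.Agent.R217.Susp0

set_option autoImplicit false
set_option linter.unusedSectionVars false
open Set Filter Topology

namespace Crest.Agent.R217

/-! Orientations: point, transport, suspension. -/

variable {X Y : Type*}

variable [MetricSpace X] [ProperSpace X]

/-- Injectivity.  Hint: `y = cut θ (pr z) - e` is a cocycle, equal to `pr z` near level `R` and to
zero near level `-R`; `homotopy_cpt` with `H t x = (x, -R + 2 R t)`. -/
theorem suspAt_inj {z : Coch X ℝ} (hz : IsZc z) {e : Coch (X × ℝ) ℝ} (he : IsCompact (supp e))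
    (h : suspAt 0 z - delta 1 e ∈ Van ℝ univ) :
    ∃ e' : Coch X ℝ, IsCompact (supp e') ∧ z - delta 1 e' ∈ Van ℝ univ := by
  obtain ⟨R₀, hR₀⟩ := (he.image continuous_snd).isBounded.exists_norm_le
  obtain ⟨R, hR, hRe⟩ : ∃ R : ℝ, 0 < R ∧ ∀ (x : X) (s : ℝ), R ≤ |s| → VanAt e (x, s) := by
    refine ⟨|R₀| + 1, by positivity, fun x s hs => notMem_supp.1 fun hx => ?_⟩
    have h1 := hR₀ s ⟨_, hx, rfl⟩
    rw [Real.norm_eq_abs] at h1
    linarith [le_abs_self R₀]
  obtain ⟨A, hA, hKA⟩ := exists_compact_superset (hz.1.union (he.image continuous_fst))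
  have hzout : ∀ x, x ∉ interior A → VanAt z x := fun x hx =>
    notMem_supp.1 fun h' => hx (hKA (Or.inl h'))
  have heout : ∀ x s, x ∉ interior A → VanAt e (x, s) := fun x s hx =>
    notMem_supp.1 fun h' => hx (hKA (Or.inr ⟨_, h', rfl⟩))
  set y : Coch (X × ℝ) ℝ := cut {q : X × ℝ | 0 < q.2} (pull Prod.fst z) - e with hy
  set H : ℝ → X → X × ℝ := fun t x => (x, -R + 2 * R * t) with hH
  obtain ⟨e', he1, -, he3⟩ := homotopy_cpt H hA isOpen_interior interior_subset
    (fun t _ x _ => Continuous.continuousAt (by simp only [hH]; fun_prop)) (z := y)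
    (fun t _ x _ => by rw [hy, map_sub]; exact h _ (mem_univ _))
    (fun t _ x hx => by
      refine VanAt.sub (VanAt.cut (VanAt.pull ?_ continuous_fst.continuousAt) _) (heout _ _ hx.2)
      exact hzout x hx.2)
  refine ⟨e', he1, fun x hx => ?_⟩
  have hc : ∀ t, Continuous (H t) := fun t => by simp only [hH]; fun_prop
  have e1 : pull (H 1) y = z - pull (H 1) e := by
    have h1 : H 1 ⁻¹' {q : X × ℝ | 0 < q.2} = univ := by
      refine eq_univ_of_forall fun x => ?_
      simp only [hH, mem_preimage, mem_ofPred_eq]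
      linarith
    rw [hy, map_sub, pull_cut, h1, cut_univ, pull_pull]
    congr 1
    exact pull_id z
  have e0 : pull (H 0) y = -pull (H 0) e := by
    have h1 : H 0 ⁻¹' {q : X × ℝ | 0 < q.2} = ∅ := by
      refine eq_empty_of_forall_notMem fun x => ?_
      simp only [hH, mem_preimage, mem_ofPred_eq]
      linarith
    rw [hy, map_sub, pull_cut, h1, cut_empty, zero_sub]
  have hd : VanAt (pull (H 1) y - pull (H 0) y - z) x := by
    have a1 : VanAt (pull (H 1) e) x :=
      VanAt.pull (hRe _ _ (by rw [show -R + 2 * R * 1 = R by ring, abs_of_pos hR]))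
        (hc 1).continuousAt
    have a0 : VanAt (pull (H 0) e) x :=
      VanAt.pull (hRe _ _ (by rw [show -R + 2 * R * 0 = -R by ring, abs_neg, abs_of_pos hR]))
        (hc 0).continuousAt
    convert a0.sub a1 using 1
    rw [e1, e0]; abel
  have hcut : VanAt (cut A (pull (H 1) y - pull (H 0) y) - z) x := by
    by_cases hxA : x ∈ interior A
    · exact (vanAt_cut_sub (mem_interior_iff_mem_nhds.1 hxA) _).trans_sub hd
    · exact ((hd.of_sub (hzout x hxA)).cut A).sub (hzout x hxA)
  exact hcut.symm_sub.trans_sub (he3 x hx)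

end Crest.Agent.R217
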