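import Crest.Agent.R217.Susp1
import Crest.Agent.R217.Susp2

set_option autoImplicit false
set_option linter.unusedSectionVars false
open Set Filter Topology

namespace Crest.Agent.R217

/-! Orientations: point, transport, suspension. -/

variable {X Y : Type*}

variable [MetricSpace X] [ProperSpace X]

/-- Compactly supported coboundaries modulo locally vanishing cochains. -/
def Susp_B (Y : Type*) [TopologicalSpace Y] : Submodule ℝ (Coch Y ℝ) where
  carrier := {c | ∃ e, IsCompact (supp e) ∧ c - delta 1 e ∈ Van ℝ univ}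
  add_mem' := by
    rintro c c' ⟨e, he, h⟩ ⟨e', he', h'⟩
    refine ⟨e + e', isCompact_supp_of_subset (he.union he') fun x hx => ?_, ?_⟩
    · rw [mem_union, not_or] at hx
      exact (notMem_supp.1 hx.1).add (notMem_supp.1 hx.2)
    · convert add_mem h h' using 1
      rw [map_add]; abel
  zero_mem' := ⟨0, isCompact_supp_of_subset isCompact_empty fun x _ => vanAt_zero x, by simp⟩
  smul_mem' := by
    rintro a c ⟨e, he, h⟩
    refine ⟨a • e, isCompact_supp_of_subset he fun x hx => (notMem_supp.1 hx).smul a, ?_⟩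
    convert Submodule.smul_mem _ a h using 1
    rw [map_smul, smul_sub]

theorem Susp_mem_B {Y : Type*} [TopologicalSpace Y] {c : Coch Y ℝ} :
    c ∈ Susp_B Y ↔ ∃ e, IsCompact (supp e) ∧ c - delta 1 e ∈ Van ℝ univ := Iff.rfl

theorem Susp_van_B {Y : Type*} [TopologicalSpace Y] {c : Coch Y ℝ} (hc : c ∈ Van ℝ univ) :
    c ∈ Susp_B Y :=
  ⟨0, isCompact_supp_of_subset isCompact_empty fun x _ => vanAt_zero x, by simpa using hc⟩

theorem Susp_delta_B {Y : Type*} [TopologicalSpace Y] {c : Coch Y ℝ} (hc : IsCompact (supp c)) :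
    delta 1 c ∈ Susp_B Y := ⟨c, hc, by simp⟩

theorem Susp_J_B {Y : Type*} [TopologicalSpace Y] (o : Orient Y) {c : Coch Y ℝ}
    (hc : c ∈ Susp_B Y) : o.J c = 0 := by
  obtain ⟨e, he, h⟩ := hc
  have := o.J_van _ h
  rwa [map_sub, o.J_delta e he, sub_zero] at this

theorem Susp_cpt_proj {Y : Type*} [TopologicalSpace Y] {c : Coch Y ℝ} (hc : IsCompact (supp c))
    (k : ℕ) : IsCompact (supp (proj k c)) :=
  isCompact_supp_of_subset hc fun _ hx => (notMem_supp.1 hx).proj k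

theorem Susp_isZc_proj {Y : Type*} [TopologicalSpace Y] {c : Coch Y ℝ} (hc : IsZc c) (k : ℕ) :
    IsZc (proj k c) := by
  refine ⟨Susp_cpt_proj hc.1 k, fun x hx => ?_⟩
  rw [delta_proj]
  exact (hc.2 x hx).proj _

theorem Susp_proj_susp (k : ℕ) (z : Coch X ℝ) :
    proj (k + 1) (suspAt 0 z) = suspAt 0 (proj k z) := by
  rw [suspAt_apply, suspAt_apply, ← delta_proj, proj_cut, proj_pull]

theorem Susp_susp_B {z : Coch X ℝ} (hz : z ∈ Susp_B X) : suspAt 0 z ∈ Susp_B (X × ℝ) := by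
  obtain ⟨e, he, h⟩ := hz
  have h1 : suspAt 0 (z - delta 1 e) ∈ Susp_B (X × ℝ) := Susp_van_B (suspAt_mem_Van 0 h)
  have h2 : suspAt 0 (delta 1 e) ∈ Susp_B (X × ℝ) := suspAt_delta 0 he
  convert add_mem h1 h2 using 1
  rw [map_sub]; abel

/-- Hint: with `u` the generator of `o`, `u' = suspAt 0 (proj n u)` is not in the submodule
`B = {δ e + v | supp e compact, v ∈ Van univ}` (by `suspAt_inj`); take a functional `J₁` killing
`B` with `J₁ u' = 1` (`Submodule.exists_dual_forall_apply_eq_zero` or a complement), and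
`J' = J₁ ∘ proj (n + 1)`. -/
theorem orient_susp (o : Orient X) :
    ∃ o' : Orient (X × ℝ), ∀ z, IsZc z → o'.J (suspAt 0 z) = o.J z := by
  obtain ⟨u, hu, hJu⟩ := o.exists_gen
  have hu₀ := Susp_isZc_proj hu o.n
  have hJu₀ : o.J (proj o.n u) = 1 := by rw [o.J_proj, hJu]
  have hnot : suspAt 0 (proj o.n u) ∉ Susp_B (X × ℝ) := by
    rintro ⟨e, he, h⟩
    have := Susp_J_B o (c := proj o.n u) (suspAt_inj hu₀ he h)
    rw [hJu₀] at this
    exact one_ne_zero this
  obtain ⟨J₁, hJ₁u, hJ₁B⟩ : ∃ J₁ : Coch (X × ℝ) ℝ →ₗ[ℝ] ℝ, J₁ (suspAt 0 (proj o.n u)) = 1 ∧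
      ∀ c ∈ Susp_B (X × ℝ), J₁ c = 0 := by
    obtain ⟨f, hf, hB⟩ := Submodule.exists_dual_map_eq_bot_of_notMem hnot inferInstance
    refine ⟨(f (suspAt 0 (proj o.n u)))⁻¹ • f, by simp [inv_mul_cancel₀ hf], fun c hc => ?_⟩
    have : f c ∈ Submodule.map f (Susp_B (X × ℝ)) := ⟨c, hc, rfl⟩
    rw [hB, Submodule.mem_bot] at this
    simp [this]
  have main : ∀ z, IsZc z → J₁ (proj (o.n + 1) (suspAt 0 z)) = o.J z := by
    intro z hz
    have hz₀ := Susp_isZc_proj hz o.n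
    have h0 : o.J (proj o.n z - o.J z • proj o.n u) = 0 := by
      rw [map_sub, map_smul, hJu₀, o.J_proj]; simp
    have hB := hJ₁B _ (Susp_susp_B (o.exact _ (hz₀.sub (hu₀.smul _)) h0))
    rw [map_sub, map_smul, map_sub, map_smul, hJ₁u] at hB
    rw [Susp_proj_susp]
    simpa [sub_eq_zero] using hB
  have hvan : ∀ c ∈ Van ℝ (univ : Set (X × ℝ)), J₁ (proj (o.n + 1) c) = 0 := fun c hc =>
    hJ₁B _ (Susp_van_B fun x hx => (hc x hx).proj _)
  have hdel : ∀ c : Coch (X × ℝ) ℝ, IsCompact (supp c) → J₁ (proj (o.n + 1) (delta 1 c)) = 0 := by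
    intro c hc
    rw [← delta_proj]
    exact hJ₁B _ (Susp_delta_B (Susp_cpt_proj hc _))
  refine ⟨⟨o.n + 1, J₁ ∘ₗ proj (o.n + 1), fun c => ?_, hvan, hdel,
    ⟨suspAt 0 u, isZc_suspAt 0 hu, ?_⟩, fun w hw hJ => ?_⟩, main⟩
  · simp [proj_proj]
  · rw [LinearMap.comp_apply, main u hu, hJu]
  · obtain ⟨z, hz, e, he, h⟩ := suspAt_surj hw
    have h1 := hvan _ h
    rw [LinearMap.comp_apply] at hJ
    rw [map_sub, map_sub, map_sub, map_sub, hJ, hdel e he, main z hz] at h1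
    have h2 : o.J z = 0 := by simpa using h1
    have h3 := Susp_susp_B (o.exact z hz h2)
    have h4 : w - suspAt 0 z ∈ Susp_B (X × ℝ) := ⟨e, he, h⟩
    have h5 := add_mem h4 h3
    rw [sub_add_cancel] at h5
    exact h5

theorem orient_susp2 (o : Orient X) :
    ∃ o' : Orient (X × ℝ × ℝ), ∀ z, IsZc z →
      o'.J (delta 1 (cut {q : X × ℝ × ℝ | 0 < q.2.1} (delta 1 (cut {q : X × ℝ × ℝ | 0 < q.2.2}
        (pull Prod.fst z))))) = o.J z := by
  obtain ⟨o₁, h₁⟩ := orient_susp o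
  obtain ⟨o₂, h₂⟩ := orient_susp o₁
  let e : (X × ℝ × ℝ) ≃ₜ (X × ℝ) × ℝ :=
    { toFun := fun q => ((q.1, q.2.2), q.2.1)
      invFun := fun q => (q.1.1, q.2, q.1.2)
      left_inv := fun _ => rfl
      right_inv := fun _ => rfl
      continuous_toFun := by fun_prop
      continuous_invFun := by fun_prop }
  obtain ⟨o', h'⟩ := o₂.exists_map e
  refine ⟨o', fun z hz => ?_⟩
  rw [← h₁ z hz, ← h₂ _ (isZc_suspAt 0 hz), ← h', suspAt_apply, suspAt_apply, ← delta_one_pull,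
    pull_cut, pull_pull, ← delta_one_pull, pull_cut, pull_pull]
  rfl

end Crest.Agent.R217
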