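import Crest.Agent.R217.Step
import Crest.Agent.R217.Susp

set_option autoImplicit false
set_option linter.unusedSectionVars false
open Set Filter Topology

namespace Crest.Agent.R217

/-! Existence of models in all odd dimensions. -/

variable {X Y V : Type*} [AddCommGroup V] [Module ℝ V]

/-- The tensor product with the area form. -/
def omegaForm (h : V →ₗ[ℝ] V →ₗ[ℝ] ℝ) : (V × V) →ₗ[ℝ] (V × V) →ₗ[ℝ] ℝ :=
  h.compl₁₂ (LinearMap.fst ℝ V V) (LinearMap.snd ℝ V V) -
    h.compl₁₂ (LinearMap.snd ℝ V V) (LinearMap.fst ℝ V V)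

theorem omegaForm_apply (h : V →ₗ[ℝ] V →ₗ[ℝ] ℝ) (u v : V × V) :
    omegaForm h u v = h u.1 v.2 - h u.2 v.1 := rfl

/-- The diagonal system. -/
def diagSys (g : Sys X V) : Sys X (V × V) := fun x y => (g x y).prodMap (g x y)

theorem IsForm.omega {h : V →ₗ[ℝ] V →ₗ[ℝ] ℝ} (hf : IsForm h) : IsForm (omegaForm h) := by
  refine ⟨?_, fun u hu => ?_⟩
  · rcases hf.symm with hs | hs
    · right
      intro u v
      rw [omegaForm_apply, omegaForm_apply, hs u.2 v.1, hs u.1 v.2]
      ring
    · left
      intro u v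
      rw [omegaForm_apply, omegaForm_apply, hs u.2 v.1, hs u.1 v.2]
      ring
  · have h1 : u.1 = 0 := hf.nondeg _ fun v => by
      simpa [omegaForm_apply] using hu (0, v)
    have h2 : u.2 = 0 := hf.nondeg _ fun v => by
      simpa [omegaForm_apply] using hu (v, 0)
    exact Prod.ext h1 h2

theorem IsForm.diag {h : V →ₗ[ℝ] V →ₗ[ℝ] ℝ} (hf : IsForm h) {c₀ c₁ : ℝ} (h₀ : 0 < c₀)
    (h₁ : 0 < c₁) : IsForm (prodForm (c₀ • h) (c₁ • h)) := by
  refine ⟨?_, fun u hu => ?_⟩
  · rcases hf.symm with hs | hs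
    · left
      intro u v
      simp only [prodForm_apply, LinearMap.smul_apply, smul_eq_mul]
      rw [hs u.1 v.1, hs u.2 v.2]
    · right
      intro u v
      simp only [prodForm_apply, LinearMap.smul_apply, smul_eq_mul]
      rw [hs u.1 v.1, hs u.2 v.2]
      ring
  · have h1 : u.1 = 0 := hf.nondeg _ fun v => by
      simpa [h₀.ne'] using hu (v, 0)
    have h2 : u.2 = 0 := hf.nondeg _ fun v => by
      simpa [h₁.ne'] using hu (0, v)
    exact Prod.ext h1 h2

/-- A scalar two by two matrix acting on `V × V`. -/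
def Model0_mat (V : Type*) [AddCommGroup V] [Module ℝ V] (p q r s : ℝ) : Module.End ℝ (V × V) :=
  (p • LinearMap.fst ℝ V V + q • LinearMap.snd ℝ V V).prod
    (r • LinearMap.fst ℝ V V + s • LinearMap.snd ℝ V V)

theorem Model0_mat_apply (p q r s : ℝ) (v : V × V) :
    Model0_mat V p q r s v = (p • v.1 + q • v.2, r • v.1 + s • v.2) := rfl

theorem Model0_mat_mul (p q r s p' q' r' s' : ℝ) :
    Model0_mat V p q r s * Model0_mat V p' q' r' s' =
      Model0_mat V (p * p' + q * r') (p * q' + q * s') (r * p' + s * r') (r * q' + s * s') := by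
  refine LinearMap.ext fun v => ?_
  simp only [Module.End.mul_apply, Model0_mat_apply]
  refine Prod.ext ?_ ?_ <;> simp only <;> module

theorem Model0_mat_one : Model0_mat V 1 0 0 1 = 1 := by
  refine LinearMap.ext fun v => ?_
  simp [Model0_mat_apply]

theorem Model0_mat_sub (p q r s p' q' r' s' : ℝ) :
    Model0_mat V p q r s - Model0_mat V p' q' r' s' =
      Model0_mat V (p - p') (q - q') (r - r') (s - s') := by
  refine LinearMap.ext fun v => ?_
  simp only [LinearMap.sub_apply, Model0_mat_apply]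
  refine Prod.ext ?_ ?_ <;> simp only [Prod.fst_sub, Prod.snd_sub] <;> module

theorem Model0_mat_congr {p q r s p' q' r' s' : ℝ} (hp : p = p') (hq : q = q') (hr : r = r')
    (hs : s = s') : Model0_mat V p q r s = Model0_mat V p' q' r' s' := by
  rw [hp, hq, hr, hs]

theorem Model0_mat_comm (p q r s : ℝ) (f : Module.End ℝ V) :
    Model0_mat V p q r s * f.prodMap f = f.prodMap f * Model0_mat V p q r s := by
  refine LinearMap.ext fun v => ?_
  simp [Model0_mat_apply]

theorem Model0_mat_orth (h : V →ₗ[ℝ] V →ₗ[ℝ] ℝ) {p q r s : ℝ} (hd : p * s - q * r = 1) :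
    IsOrth (omegaForm h) (Model0_mat V p q r s) := by
  intro u v
  simp only [omegaForm_apply, Model0_mat_apply, map_add, map_smul, LinearMap.add_apply,
    LinearMap.smul_apply, smul_eq_mul]
  linear_combination (h u.1 v.2 - h u.2 v.1) * hd

/-- A matrix of determinant one as a unit. -/
def Model0_unit (V : Type*) [AddCommGroup V] [Module ℝ V] (p q r s : ℝ)
    (hd : p * s - q * r = 1) : (Module.End ℝ (V × V))ˣ where
  val := Model0_mat V p q r s
  inv := Model0_mat V s (-q) (-r) p
  val_inv := by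
    rw [Model0_mat_mul, ← Model0_mat_one]
    exact Model0_mat_congr (by linarith) (by ring) (by ring) (by linarith)
  inv_val := by
    rw [Model0_mat_mul, ← Model0_mat_one]
    exact Model0_mat_congr (by linarith) (by ring) (by ring) (by linarith)

theorem Model0_unit_val (p q r s : ℝ) (hd : p * s - q * r = 1) :
    (Model0_unit V p q r s hd : Module.End ℝ (V × V)) = Model0_mat V p q r s := rfl

/-- Matrices (rows; `[[p, q], [r, s]]` acts by `(v₀, v₁) ↦ (p v₀ + q v₁, r v₀ + s v₁)`), all of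
determinant one: `A = [[5/3, 2/3], [8/3, 5/3]]`, `B = [[5/3, 20/3], [4/15, 5/3]]`,
`QL = [[0, 1/2], [-2, 0]]`, `QR = [[0, 5], [-1/5, 0]]`, `Qd = [[-19/15, 5/3], [2/3, -5/3]]`,
`Qu = [[5/3, 5/3], [2/3, 19/15]]`; `a = [[-1/2, 1/2], [2, -1/2]]`,
`b = [[-1/2, 5], [1/5, -1/2]]`. -/
theorem exists_stepOK {h : V →ₗ[ℝ] V →ₗ[ℝ] ℝ} {g : Sys X V} (ho : ∀ x y, IsOrth h (g x y)) :
    ∃ (A B QL QR Qu Qd : (Module.End ℝ (V × V))ˣ) (a b : Module.End ℝ (V × V)),
      StepOK (omegaForm h) (diagSys g) A B QL QR Qu Qd a b ∧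
      (omegaForm h).compl₂ (a - b) = prodForm ((9 / 5 : ℝ) • h) ((9 / 2 : ℝ) • h) ∧
      ∀ f : Module.End ℝ V, ∀ Z ∈ ({A, B, QL, QR, Qu, Qd} : Set (Module.End ℝ (V × V))ˣ),
        (Z : Module.End ℝ (V × V)) * f.prodMap f = f.prodMap f * Z := by
  have hcomm : ∀ (x y : X) (p q r s : ℝ), diagSys g x y * Model0_mat V p q r s =
      Model0_mat V p q r s * diagSys g x y := fun x y p q r s =>
    (Model0_mat_comm p q r s (g x y)).symm
  refine ⟨Model0_unit V (5 / 3) (2 / 3) (8 / 3) (5 / 3) (by norm_num),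
    Model0_unit V (5 / 3) (20 / 3) (4 / 15) (5 / 3) (by norm_num),
    Model0_unit V 0 (1 / 2) (-2) 0 (by norm_num),
    Model0_unit V 0 5 (-1 / 5) 0 (by norm_num),
    Model0_unit V (5 / 3) (5 / 3) (2 / 3) (19 / 15) (by norm_num),
    Model0_unit V (-19 / 15) (5 / 3) (2 / 3) (-5 / 3) (by norm_num),
    Model0_mat V (-1 / 2) (1 / 2) 2 (-1 / 2), Model0_mat V (-1 / 2) 5 (1 / 5) (-1 / 2),
    ⟨⟨?_, Model0_mat_orth h (by norm_num), Model0_mat_orth h (by norm_num),
      fun x y => hcomm x y _ _ _ _, fun x y => hcomm x y _ _ _ _, ?_, ?_, ?_, ?_, ?_⟩,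
      Model0_mat_orth h (by norm_num), Model0_mat_orth h (by norm_num),
      Model0_mat_orth h (by norm_num), Model0_mat_orth h (by norm_num),
      fun x y => hcomm x y _ _ _ _, fun x y => hcomm x y _ _ _ _,
      fun x y => hcomm x y _ _ _ _, fun x y => hcomm x y _ _ _ _, ?_, ?_, ?_, ?_⟩, ?_, ?_⟩
  · intro x y u v
    simp only [omegaForm_apply, diagSys, LinearMap.prodMap_apply]
    rw [ho x y, ho x y]
  · rw [Model0_unit_val, ← Model0_mat_one, Model0_mat_sub, Model0_mat_mul]
    exact Model0_mat_congr (by norm_num) (by norm_num) (by norm_num) (by norm_num)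
  · rw [Model0_unit_val, ← Model0_mat_one, Model0_mat_sub, Model0_mat_mul]
    exact Model0_mat_congr (by norm_num) (by norm_num) (by norm_num) (by norm_num)
  · rw [Model0_unit_val, ← Model0_mat_one, Model0_mat_sub, Model0_mat_mul]
    exact Model0_mat_congr (by norm_num) (by norm_num) (by norm_num) (by norm_num)
  · rw [Model0_unit_val, ← Model0_mat_one, Model0_mat_sub, Model0_mat_mul]
    exact Model0_mat_congr (by norm_num) (by norm_num) (by norm_num) (by norm_num)
  · rw [Model0_unit_val, Model0_unit_val, Model0_mat_sub]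
    refine ⟨⟨Model0_mat V (5 / 3 - 5 / 3) (2 / 3 - 20 / 3) (8 / 3 - 4 / 15) (5 / 3 - 5 / 3),
      Model0_mat V 0 (5 / 12) (-1 / 6) 0, ?_, ?_⟩, rfl⟩
    · rw [Model0_mat_mul, ← Model0_mat_one]
      exact Model0_mat_congr (by norm_num) (by norm_num) (by norm_num) (by norm_num)
    · rw [Model0_mat_mul, ← Model0_mat_one]
      exact Model0_mat_congr (by norm_num) (by norm_num) (by norm_num) (by norm_num)
  · apply Units.ext
    simp only [Units.val_mul, Model0_unit_val, Model0_mat_mul]
    exact Model0_mat_congr (by norm_num) (by norm_num) (by norm_num) (by norm_num)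
  · apply Units.ext
    simp only [Units.val_mul, Model0_unit_val, Model0_mat_mul]
    exact Model0_mat_congr (by norm_num) (by norm_num) (by norm_num) (by norm_num)
  · apply Units.ext
    simp only [Units.val_mul, Model0_unit_val, Model0_mat_mul]
    exact Model0_mat_congr (by norm_num) (by norm_num) (by norm_num) (by norm_num)
  · apply Units.ext
    simp only [Units.val_mul, Model0_unit_val, Model0_mat_mul]
    exact Model0_mat_congr (by norm_num) (by norm_num) (by norm_num) (by norm_num)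
  · refine LinearMap.ext fun u => LinearMap.ext fun v => ?_
    rw [Model0_mat_sub]
    simp only [LinearMap.compl₂_apply, omegaForm_apply, Model0_mat_apply, prodForm_apply, map_add,
      map_smul, LinearMap.smul_apply, smul_eq_mul]
    ring
  · intro f Z hZ
    simp only [mem_insert_iff, mem_singleton_iff] at hZ
    rcases hZ with rfl | rfl | rfl | rfl | rfl | rfl <;> exact Model0_mat_comm _ _ _ _ f

theorem CocAt.diagSys [TopologicalSpace X] {g : Sys X V} {x : X} (hg : CocAt g x) :
    CocAt (diagSys g) x := by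
  obtain ⟨N, hN, h1, h2⟩ := hg
  refine ⟨N, hN, fun y hy => ?_, fun y hy z hz w hw => ?_⟩
  · simp only [Crest.Agent.R217.diagSys, h1 y hy]
    exact LinearMap.prodMap_one
  · simp only [Crest.Agent.R217.diagSys]
    rw [← h2 y hy z hz w hw]
    exact LinearMap.prodMap_mul _ _ _ _

end Crest.Agent.R217
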