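import Crest.Agent.R217.Model0

set_option autoImplicit false
set_option linter.unusedSectionVars false
open Set Filter Topology

namespace Crest.Agent.R217

/-! Existence of models in all odd dimensions. -/

variable {X Y V : Type*} [AddCommGroup V] [Module ℝ V]

theorem Model1_symOn {M : Type*} [AddCommGroup M] [Module ℝ M] {b : M →ₗ[ℝ] M →ₗ[ℝ] ℝ}
    {S : Submodule ℝ M} (h : SymOn b S) (c : ℝ) : SymOn (c • b) S := by
  rcases h with h | h
  · exact Or.inl fun x hx y hy => by simp [h x hx y hy]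
  · exact Or.inr fun x hx y hy => by simp [h x hx y hy]

theorem Model1_finRk {M : Type*} [AddCommGroup M] [Module ℝ M] {b : M →ₗ[ℝ] M →ₗ[ℝ] ℝ}
    {S : Submodule ℝ M} (h : FinRk b S) (c : ℝ) : FinRk (c • b) S := by
  obtain ⟨F, h1, h2, h3⟩ := h
  refine ⟨F, h1, h2, fun x hx => ?_⟩
  obtain ⟨f, hf, h4⟩ := h3 x hx
  exact ⟨f, hf, fun y hy => by rw [LinearMap.smul_apply, LinearMap.smul_apply, h4 y hy, smul_zero]⟩

theorem Model1_pull_pull [TopologicalSpace X] [TopologicalSpace Y] (e : Y ≃ₜ X) (c : Coch X V) :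
    pull e.symm (pull e c) = c := by
  rw [pull_pull, e.self_comp_symm, pull_id]

theorem Model1_supp [TopologicalSpace X] [TopologicalSpace Y] (e : Y ≃ₜ X) {c : Coch X V}
    (hc : IsCompact (supp c)) : IsCompact (supp (pull e c)) :=
  isCompact_supp_of_subset (e.isCompact_preimage.2 hc) fun _ hy =>
    (notMem_supp.1 hy).pull e.continuous.continuousAt

theorem Model1_van [TopologicalSpace X] [TopologicalSpace Y] (e : Y ≃ₜ X) {c : Coch X V}
    (hc : c ∈ Van V (univ : Set X)) : pull e c ∈ Van V (univ : Set Y) :=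
  pull_mem_Van (fun _ _ => e.continuous.continuousAt) (mapsTo_univ _ _) hc

theorem Model1_isZc [TopologicalSpace X] [TopologicalSpace Y] (e : Y ≃ₜ X) {z : Coch X ℝ}
    (hz : IsZc z) : IsZc (pull e z) :=
  ⟨Model1_supp e hz.1, by rw [delta_one_pull]; exact Model1_van e hz.2⟩

/-- Transport of an orientation. -/
noncomputable def Model1_orient [TopologicalSpace X] [TopologicalSpace Y] (e : Y ≃ₜ X)
    (o : Orient X) : Orient Y where
  n := o.n
  J := o.J ∘ₗ pull e.symm
  J_proj c := by rw [LinearMap.comp_apply, LinearMap.comp_apply, ← proj_pull, o.J_proj]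
  J_van c hc := o.J_van _ (Model1_van e.symm hc)
  J_delta c hc := by
    rw [LinearMap.comp_apply, ← delta_one_pull]
    exact o.J_delta _ (Model1_supp e.symm hc)
  exists_gen := by
    obtain ⟨u, hu, h1⟩ := o.exists_gen
    exact ⟨pull e u, Model1_isZc e hu, by rw [LinearMap.comp_apply, Model1_pull_pull, h1]⟩
  exact z hz h0 := by
    obtain ⟨w, hw, h1⟩ := o.exact _ (Model1_isZc e.symm hz) h0
    refine ⟨pull e w, Model1_supp e hw, ?_⟩
    have h2 := Model1_van e h1
    have h3 : pull e (pull e.symm z) = z := Model1_pull_pull e.symm z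
    rwa [map_sub, h3, ← delta_one_pull] at h2

/-- The two components of a cochain. -/
def Model1_split : Coch X (V × V) →ₗ[ℝ] Coch X V × Coch X V :=
  (act fun _ => LinearMap.fst ℝ V V).prod (act fun _ => LinearMap.snd ℝ V V)

theorem Model1_split_apply (c : Coch X (V × V)) : Model1_split c =
    (act (fun _ => LinearMap.fst ℝ V V) c, act (fun _ => LinearMap.snd ℝ V V) c) := rfl

theorem Model1_split_mem [TopologicalSpace X] {g : Sys X V} {C : Set X} {x : Coch X (V × V)}
    (hx : x ∈ Zc (diagSys g) C) : Model1_split x ∈ (Zc g C).prod (Zc g C) := by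
  have h1 : ∀ x y, g x y ∘ₗ LinearMap.fst ℝ V V = LinearMap.fst ℝ V V ∘ₗ diagSys g x y :=
    fun x y => LinearMap.ext fun v => rfl
  have h2 : ∀ x y, g x y ∘ₗ LinearMap.snd ℝ V V = LinearMap.snd ℝ V V ∘ₗ diagSys g x y :=
    fun x y => LinearMap.ext fun v => rfl
  rw [Model1_split_apply]
  exact Submodule.mem_prod.2 ⟨act_mem_Zc (fun y _ => intAt_const h1 y) hx,
    act_mem_Zc (fun y _ => intAt_const h2 y) hx⟩

theorem Model1_split_form [TopologicalSpace X] (o : Orient X) (h : V →ₗ[ℝ] V →ₗ[ℝ] ℝ) (C Θ : Set X)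
    (c₀ c₁ : ℝ) (x y : Coch X (V × V)) :
    prodForm (c₀ • form o h C Θ) (c₁ • form o h C Θ) (Model1_split x) (Model1_split y) =
      form o (prodForm (c₀ • h) (c₁ • h)) C Θ x y := by
  rw [prodForm_apply, form_apply, prodForm, pair_add_form, pair_compl₁₂, pair_compl₁₂,
    pair_smul_form, pair_smul_form, map_add, map_smul, map_smul, Model1_split_apply,
    Model1_split_apply]
  simp only [LinearMap.smul_apply, form_apply]

theorem Model1_split_surj [TopologicalSpace X] {g : Sys X V} {C : Set X} {y : Coch X V × Coch X V}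
    (hy : y ∈ (Zc g C).prod (Zc g C)) : ∃ x ∈ Zc (diagSys g) C, Model1_split x = y := by
  have h1 : ∀ x y, diagSys g x y ∘ₗ LinearMap.inl ℝ V V = LinearMap.inl ℝ V V ∘ₗ g x y :=
    fun x y => LinearMap.ext fun v => by simp [diagSys]
  have h2 : ∀ x y, diagSys g x y ∘ₗ LinearMap.inr ℝ V V = LinearMap.inr ℝ V V ∘ₗ g x y :=
    fun x y => LinearMap.ext fun v => by simp [diagSys]
  refine ⟨act (fun _ => LinearMap.inl ℝ V V) y.1 + act (fun _ => LinearMap.inr ℝ V V) y.2,
    add_mem (act_mem_Zc (fun x _ => intAt_const h1 x) (Submodule.mem_prod.1 hy).1)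
      (act_mem_Zc (fun x _ => intAt_const h2 x) (Submodule.mem_prod.1 hy).2), ?_⟩
  rw [Model1_split_apply]
  refine Prod.ext ?_ ?_ <;> funext x l <;> simp

/-- Hint: `sig_of_map` with `(x, y) ↦ act inl x + act inr y`, `sig_prod`, `sig_smul`. -/
theorem sig0_diag [FiniteDimensional ℝ V] [NormedAddCommGroup X] [NormedSpace ℝ X]
    [FiniteDimensional ℝ X] (o : Orient X) {h : V →ₗ[ℝ] V →ₗ[ℝ] ℝ} (hf : IsForm h) {g : Sys X V}
    (ho : ∀ x y, IsOrth h (g x y)) {C Θ : Set X} (hA : Adm C Θ) (hg : ∀ x ∈ C, CocAt g x)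
    {c₀ c₁ : ℝ} (h₀ : 0 < c₀) (h₁ : 0 < c₁) :
    sig0 o (prodForm (c₀ • h) (c₁ • h)) (diagSys g) C Θ = 2 * sig0 o h g C Θ := by
  have hs := form_symOn o hf hA hg ho
  have hr := form_finRk o hA hg ho
  have key : sig (prodForm (c₀ • form o h C Θ) (c₁ • form o h C Θ)) ((Zc g C).prod (Zc g C)) =
      sig (form o (prodForm (c₀ • h) (c₁ • h)) C Θ) (Zc (diagSys g) C) := by
    refine sig_of_map Model1_split (fun x hx => Model1_split_mem hx)
      (fun x _ y _ => Model1_split_form o h C Θ c₀ c₁ x y) fun y hy => ?_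
    obtain ⟨x, hx, rfl⟩ := Model1_split_surj hy
    refine ⟨x, hx, fun w _ => ?_⟩
    rw [sub_self, map_zero, map_zero, LinearMap.zero_apply]
    exact ⟨rfl, rfl⟩
  rw [sig0, sig0, ← key, sig_prod (Model1_symOn hs _) (Model1_finRk hr _) (Model1_symOn hs _)
    (Model1_finRk hr _), sig_smul h₀, sig_smul h₁, two_mul]

theorem HasModel.of_homeomorph [TopologicalSpace X] [TopologicalSpace Y] (e : Y ≃ₜ X)
    (hX : HasModel X) : HasModel Y := by
  obtain ⟨o, V, _, _, _, h, I, G, C, Θ, hM⟩ := hX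
  refine ⟨Model1_orient e o, V, _, _, inferInstance, h, I, pullS e G, e ⁻¹' C, e ⁻¹' Θ,
    hM.form, hM.I_sq, hM.I_orth, fun x y => hM.orth _ _, fun x y => hM.comm _ _,
    ⟨e.isCompact_preimage.2 hM.adm.cpt, ?_⟩,
    fun y hy => (hM.coc _ hy).pullS e.continuous.continuousAt, ?_⟩
  · rw [← e.preimage_frontier, ← e.preimage_interior, ← preimage_inter]
    exact preimage_mono hM.adm.fr
  · have key : sig0 (Model1_orient e o) h (pullS e G) (e ⁻¹' C) (e ⁻¹' Θ) = sig0 o h G C Θ := by
      refine sig_of_map (pull e)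
        (fun x hx => pull_mem_Zc (fun _ _ => e.continuous.continuousAt) (mapsTo_preimage _ _) hx)
        (fun x _ y _ => ?_) fun y hy => ⟨pull e.symm y, ?_, fun w _ => ?_⟩
      · rw [form_apply, form_apply, flux_apply, flux_apply, ← pull_pair, ← pull_cut, delta_one_pull,
          ← pull_cut]
        exact congrArg o.J (Model1_pull_pull e _)
      · have h1 := pull_mem_Zc (φ := e.symm) (B := C) (fun _ _ => e.symm.continuous.continuousAt)
          (fun x hx => by simpa using hx) hy
        have h2 : pullS e.symm (pullS e G) = G := by funext x y; simp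
        rwa [h2] at h1
      · have h3 : pull e (pull e.symm y) = y := Model1_pull_pull e.symm y
        rw [h3, sub_self]
        simp
    rw [key]
    exact hM.sig_ne

end Crest.Agent.R217
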