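import Crest.Agent.R217.NSS.Gleason
import Crest.Agent.R217.NSS.Smooth
import Crest.Agent.R217.NSS.Local

set_option autoImplicit false
open Topology
open scoped Manifold ContDiff

namespace Crest.Agent.R217

theorem lie_of_LD {G E L : Type*} [Group G] [TopologicalSpace G] [IsTopologicalGroup G]
    [T2Space G] [NormedAddCommGroup E] [NormedSpace ℝ E] [CompleteSpace E]
    [NormedAddCommGroup L] [NormedSpace ℝ L] [CompleteSpace L] (D : NSS.LD G E L) :
    ∃ (d : ℕ) (c : ChartedSpace (EuclideanSpace ℝ (Fin d)) G),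
      @LieGroup ℝ _ (EuclideanSpace ℝ (Fin d)) _ (EuclideanSpace ℝ (Fin d)) _ _
        𝓘(ℝ, EuclideanSpace ℝ (Fin d)) ∞ G _ _ c := by
  have := D.finiteDimensional_L
  obtain ⟨e, h1, he, hes⟩ := D.exists_chart
  have he1 : e 1 = 0 := by rw [he, D.lg_one]
  refine NSS.lie_of_local_euclid e h1 ?_ ?_ ?_
  · rw [he1, he, hes]
    exact D.contDiffOn_m
  · rw [he1, he, hes]
    refine (contDiff_neg.contDiffAt (x := (0 : L))).congr_of_eventuallyEq ?_
    filter_upwards [Metric.closedBall_mem_nhds (0 : L) (show (0 : ℝ) < 1 / 20 by norm_num)]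
      with x hx
    rw [← D.ex_neg, D.lg_ex]
    rw [norm_neg]
    exact mem_closedBall_zero_iff.mp hx
  · intro g
    rw [he1, he, hes]
    refine ((D.Ad g).contDiff.contDiffAt (x := (0 : L))).congr_of_eventuallyEq ?_
    have hc : ContinuousAt (D.Ad g) 0 := (D.Ad g).continuous.continuousAt
    have hb : Metric.closedBall (0 : L) (1 / 20) ∈ 𝓝 (D.Ad g 0) := by
      rw [map_zero]
      exact Metric.closedBall_mem_nhds _ (by norm_num)
    filter_upwards [hc hb] with x hx
    rw [← D.ex_Ad, D.lg_ex]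
    exact mem_closedBall_zero_iff.mp hx

/-- A locally compact group without small subgroups is a Lie group. -/
theorem lie_of_nss (G : Type*) [Group G] [TopologicalSpace G] [IsTopologicalGroup G] [T2Space G]
    [SecondCountableTopology G] [LocallyCompactSpace G]
    (h : ∃ U ∈ 𝓝 (1 : G), ∀ H : Subgroup G, (H : Set G) ⊆ U → H = ⊥) :
    ∃ (d : ℕ) (c : ChartedSpace (EuclideanSpace ℝ (Fin d)) G),
      @LieGroup ℝ _ (EuclideanSpace ℝ (Fin d)) _ (EuclideanSpace ℝ (Fin d)) _ _
        𝓘(ℝ, EuclideanSpace ℝ (Fin d)) ∞ G _ _ c := by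
  obtain ⟨U, K, hS⟩ := NSS.exists_setup h
  obtain ⟨D₀⟩ := hS.exists_GD
  obtain ⟨D⟩ := D₀.exists_LD
  have := D₀.completeSpace_L
  exact lie_of_LD D

end Crest.Agent.R217
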