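import Crest.Agent.R217.FormSym

set_option autoImplicit false
set_option linter.unusedSectionVars false
open Set Filter Topology

namespace Crest.Agent.R217

/-! The intersection form is symmetric or skew, of finite rank. -/

variable {X V : Type*} [AddCommGroup V] [Module ℝ V] {h : V →ₗ[ℝ] V →ₗ[ℝ] ℝ} {g : Sys X V}

variable [NormedAddCommGroup X] [NormedSpace ℝ X] [FiniteDimensional ℝ X] [FiniteDimensional ℝ V]

/-- The heart of Novikov's cobordism lemma: one-sided extension modulo the radical.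
Let `F ≤ Zc g C` be finitely generated from `form_finRk`.  Choose a compact neighbourhood `N` of
`C` on which `g` is a local system, `y` and the generators of `F` are cocycles, and with
`frontier Θ ∩ N ⊆ C` (as `frontier Θ \ interior C` is closed and misses `C`).  Take the duality
pair `C₁ ⊆ U ⊆ A ⊆ {CocAt g} ∩ (interior N ∪ interior Θ)`.  `z = cut C (δ (cut Θ y))` is orthogonal
to `Zc g A` (`J_pair_eq_form`, `eps_mem_Zc`), so `z ≡ δ z'`, `supp z' ⊆ U`.  Put
`x = cut Θᶜ y + z'`; it is a cocycle near `N ∪ C₁`.  For a generator `w`, `q = pair h (x - y) w` is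
a cocycle near `N`, `flux C Θ q = - flux C Θᶜ q = - flux N Θᶜ q`, and `cut Θᶜ q` has
`supp ∩ N ⊆ (frontier Θ ∩ C) ∪ (A \ interior Θ) ⊆ interior N`, so `J_cut_delta` gives zero.  For
`w` in the radical use `form_symOn`. -/
theorem novikov_ext (o : Orient X) (hf : IsForm h) (ho : ∀ x y, IsOrth h (g x y)) {C C₁ Θ : Set X}
    (hA : Adm C Θ) (hC₁ : IsCompact C₁) (hsub : C ⊆ C₁) (hside : C₁ \ C ⊆ interior Θ)
    (hg : ∀ x ∈ C₁, CocAt g x) {y : Coch X V} (hy : y ∈ Zc g C)
    (hperp : ∀ x ∈ Zc g C₁, form o h C Θ x y = 0) :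
    ∃ x ∈ Zc g C₁, ∀ w ∈ Zc g C, form o h C Θ (x - y) w = 0 := by
  have hCc : IsClosed C := hA.cpt.isClosed
  have hgC : ∀ x ∈ C, CocAt g x := fun x hx => hg x (hsub hx)
  obtain ⟨F, hF, ⟨s, rfl⟩, hrad⟩ := form_finRk (h := h) o hA hgC ho
  -- the compact neighbourhood `N`
  obtain ⟨N, hN, hCN, hNG⟩ : ∃ N : Set X, IsCompact N ∧ C ⊆ interior N ∧
      N ⊆ ({p | CocAt g p} ∩ {p | VanAt (delta g y) p} ∩ ⋂ w ∈ s, {p | VanAt (delta g w) p}) ∩
        (frontier Θ \ interior C)ᶜ := by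
    refine exists_compact_between hA.cpt ((((isOpen_setOf_cocAt g).inter
      (isOpen_setOf_vanAt _)).inter (isOpen_biInter_finset fun w _ => isOpen_setOf_vanAt _)).inter
      (isClosed_frontier.sdiff isOpen_interior).isOpen_compl) fun p hp => ?_
    refine ⟨⟨⟨hgC p hp, hy p hp⟩, mem_iInter₂.2 fun w hw => ?_⟩, fun h' => h'.2 (hA.fr ⟨h'.1, hp⟩)⟩
    exact hF (Submodule.subset_span hw) p hp
  have hgN : ∀ p ∈ N, CocAt g p := fun p hp => (hNG hp).1.1.1
  have hyN : y ∈ Zc g N := fun p hp => (hNG hp).1.1.2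
  have hFN : Submodule.span ℝ (s : Set (Coch X V)) ≤ Zc g N :=
    Submodule.span_le.2 fun w hw p hp => mem_iInter₂.1 (hNG hp).1.2 w hw
  have hfrN : ∀ p ∈ N, p ∈ frontier Θ → p ∈ interior C := fun p hp h1 =>
    by_contra fun h2 => (hNG hp).2 ⟨h1, h2⟩
  have hCN' : C ⊆ N := hCN.trans interior_subset
  -- the duality pair
  obtain ⟨U, A, hUA, hU, hAO, hpd⟩ := exists_pd_pair o hf ho hC₁
    (O := {p | CocAt g p} ∩ (interior N ∪ interior Θ))
    ((isOpen_setOf_cocAt g).inter (isOpen_interior.union isOpen_interior))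
    (fun p hp => ⟨hg p hp, by
      by_cases h1 : p ∈ C
      · exact Or.inl (hCN h1)
      · exact Or.inr (hside ⟨hp, h1⟩)⟩)
    fun p hp => hp.1
  obtain ⟨z', hz', hzz'⟩ := hpd (cut C (delta g (cut Θ y)))
    (mem_Van_compl.2 ((supp_cut_delta_cut hCc hy).trans fun p hp => hU (hsub hp.2)))
    (delta_cut_delta_cut hCc hgC hy fun p hp => hA.fr ⟨hp.1.1, hp.2⟩)
    fun x hx => by
      have hx1 : x ∈ Zc g C₁ := Zc_mono g (hU.trans hUA.sub) hx
      rw [J_pair_eq_form o hA hgC ho (Zc_mono g hsub hx1) hy]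
      exact hperp _ (eps_mem_Zc hx1)
  have hxN : cut Θᶜ y + z' ∈ Zc g N := by
    intro p hp
    have h1 := hzz' p (mem_univ p)
    have h2 : VanAt (cut C (delta g (cut Θ y)) - delta g (cut Θ y)) p := by
      by_cases h3 : p ∈ interior C
      · exact vanAt_cut_sub (mem_interior_iff_mem_nhds.1 h3) _
      · have h4 := vanAt_delta_cut_of_cocycle (S := Θ) (fun h5 => h3 (hfrN p hp h5)) (hyN p hp)
        exact (h4.cut C).sub h4
    have h3 := ((hyN p hp).add h2).sub h1
    convert h3 using 1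
    rw [cut_compl, map_add, map_sub]
    abel
  have hxC₁ : cut Θᶜ y + z' ∈ Zc g C₁ := by
    intro p hp
    by_cases h0 : p ∈ C
    · exact hxN p (hCN' h0)
    have h1 := hzz' p (mem_univ p)
    have h2 : VanAt (cut Θᶜ y) p := vanAt_cut_of_compl_mem
      (by rw [compl_compl]; exact mem_interior_iff_mem_nhds.1 (hside ⟨hp, h0⟩)) _
    have h3 : VanAt (cut C (delta g (cut Θ y))) p :=
      vanAt_cut_of_compl_mem (hCc.isOpen_compl.mem_nhds h0) _
    have h4 := ((h2.delta g).add h3).sub h1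
    convert h4 using 1
    rw [map_add]
    abel
  have hxy : cut Θᶜ y + z' - y ∈ Zc g N := (Zc g N).sub_mem hxN hyN
  have key : ∀ w ∈ Zc g N, form o h C Θ (cut Θᶜ y + z' - y) w = 0 := by
    intro w hw
    have hq := pair_mem_Zc hgN ho hxy hw
    have h1 := flux_compl o hCc Θ (Zc_mono 1 hCN' hq)
    have h2 : flux o C Θᶜ (pair h (cut Θᶜ y + z' - y) w) =
        flux o N Θᶜ (pair h (cut Θᶜ y + z' - y) w) := by
      refine flux_restrict o hCc hN.isClosed (Zc_mono 1 (union_subset hCN' Subset.rfl) hq)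
        fun p hp => ?_
      have h3 := hfrN p (union_subset hCN' Subset.rfl hp.2) (frontier_compl Θ ▸ hp.1.1)
      exact ⟨h3, hCN (interior_subset h3)⟩
    have h3 : flux o N Θᶜ (pair h (cut Θᶜ y + z' - y) w) = 0 := by
      rw [flux_apply]
      refine J_cut_delta o hN fun p hp => by_contra fun h4 => hp.1 ?_
      have h5 : p ∉ frontier Θ := fun h6 => h4 (hCN (interior_subset (hfrN p hp.2 h6)))
      rcases mem_nhds_or_compl_mem_nhds h5 with h6 | h6
      · exact vanAt_cut_of_compl_mem (by rwa [compl_compl]) _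
      · have h7 : p ∉ U := fun h8 => (hAO (hUA.sub h8)).2.elim h4 fun h9 =>
          mem_of_mem_nhds h6 (interior_subset h9)
        have h8 : VanAt (cut Θᶜ y + z' - y) p := by
          convert (vanAt_cut_sub h6 y).add (hz' p h7) using 1
          abel
        exact (h8.pair_left h w).cut _
    rw [form_apply, ← neg_eq_zero, ← h1, h2, h3]
  refine ⟨cut Θᶜ y + z', hxC₁, fun w hw => ?_⟩
  obtain ⟨f, hf', hwf⟩ := hrad w hw
  have hxyC := Zc_mono g hCN' hxy
  have h1 := hwf _ hxyC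
  have h2 : form o h C Θ (cut Θᶜ y + z' - y) (w - f) = 0 := by
    rcases form_symOn o hf hA hgC ho with hs | hs
    · rw [hs _ ((Zc g C).sub_mem hw (hF hf')) _ hxyC, h1]
    · rw [hs _ ((Zc g C).sub_mem hw (hF hf')) _ hxyC, h1, neg_zero]
  rw [map_sub, key f (hFN hf'), sub_zero] at h2
  exact h2

end Crest.Agent.R217
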