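import Crest.Agent.R217.Tau
import Crest.Agent.R217.NovExt

set_option autoImplicit false
set_option linter.unusedSectionVars false
open Set Filter Topology

namespace Crest.Agent.R217

/-! Properties of the equivariant signature. -/

variable {X V : Type*} [AddCommGroup V] [Module ℝ V] [FiniteDimensional ℝ V]
  [NormedAddCommGroup X] [NormedSpace ℝ X] [FiniteDimensional ℝ X] {o : Orient X} {p : ℕ}
  [NeZero p] {D : Dyn o p} {h : V →ₗ[ℝ] V →ₗ[ℝ] ℝ} {ζ : AddChar (ZMod p) (Module.End ℝ V)}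
  {g : Sys X V} {j : X → ZMod p}

theorem sigT_move {C Θ Θ' : Set X} (hC : IsCompact C)
    (hm : ∀ x ∈ C, x ∉ interior C → ∀ᶠ y in 𝓝 x, (y ∈ Θ ↔ y ∈ Θ')) :
    sigT D h ζ g j C Θ = sigT D h ζ g j C Θ' := by
  refine sig_congr fun x _ => ?_
  rw [form_apply, form_apply]
  exact flux_move o hC fun y hy hy' => vanAt_cut_sub_cut (hm y hy hy') _

theorem sigT_compl (ht : Tw D h ζ g j) {C Θ : Set X} (hH : Hyp D ζ g j C Θ) :
    sigT D h ζ g j C Θᶜ = - sigT D h ζ g j C Θ := by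
  unfold sigT
  rw [← sig_neg]
  refine sig_congr fun x hx => ?_
  rw [LinearMap.neg_apply, LinearMap.neg_apply, form_apply, form_apply]
  exact flux_compl o hH.adm.cpt.isClosed Θ
    (pair_mem_Zc (fun y hy => (hH.good y hy).2.1) ht.orth hx.1 hx.1)

theorem sigT_of_frontier_empty (ht : Tw D h ζ g j) {C Θ : Set X} (hH : Hyp D ζ g j C Θ)
    (he : frontier Θ ∩ C = ∅) : sigT D h ζ g j C Θ = 0 := by
  refine sig_eq_zero fun x hx => ?_
  rw [form_apply]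
  refine flux_of_frontier_empty o hH.adm.cpt.isClosed
    (pair_mem_Zc (fun y hy => (hH.good y hy).2.1) ht.orth hx.1 hx.1) ?_
  refine subset_empty_iff.1 ?_
  rw [← he]
  exact fun y hy => ⟨hy.1.1, hy.2⟩

/-- Hint: `sig_of_coisotropic` with `Zt C₁ ≤ Zt C`, `novikov_ext`, averaging on `C₁`
(`exists_tau_pow`, `avg_mem_Zt`, `form_avg`), `form_restrict`. -/
theorem novikov_one_sided (ht : Tw D h ζ g j) {C C₁ Θ : Set X} (hH : Hyp D ζ g j C Θ)
    (hH₁ : Hyp D ζ g j C₁ Θ) (hsub : C ⊆ C₁) (hside : C₁ \ C ⊆ interior Θ) :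
    sigT D h ζ g j C₁ Θ = sigT D h ζ g j C Θ := by
  have hg : ∀ x ∈ C, CocAt g x := fun y hy => (hH.good y hy).2.1
  have hg₁ : ∀ x ∈ C₁, CocAt g x := fun y hy => (hH₁.good y hy).2.1
  have hfr : frontier Θ ∩ C₁ ⊆ interior C := by
    intro x hx
    by_cases hxC : x ∈ C
    · exact hH.adm.fr ⟨hx.1, hxC⟩
    · exact absurd (hside ⟨hx.2, hxC⟩) hx.1.2
  have hle : Zt D ζ g j C ≤ Zc g C := inf_le_left
  have e : sigT D h ζ g j C₁ Θ = sig (form o h C Θ) (Zt D ζ g j C₁) :=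
    sig_congr fun x hx => form_restrict o hH.adm.cpt.isClosed hH₁.adm.cpt.isClosed hsub hfr hg₁
      ht.orth hx.1 hx.1
  rw [e]
  refine sig_of_coisotropic (Zt_mono D ζ g j hsub) ((form_symOn o ht.form hH.adm hg ht.orth).mono hle)
    ((form_finRk o hH.adm hg ht.orth).mono hle) fun y hy hperp => ?_
  have havg : ∀ x ∈ Zc g C₁, ∃ x' ∈ Zt D ζ g j C₁, ∀ w ∈ Zt D ζ g j C,
      form o h C Θ x' w = form o h C Θ x w := by
    intro x hx
    obtain ⟨q, hq, hq'⟩ := exists_tau_pow ht hH₁.adm.cpt hH₁.good hx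
    exact ⟨avg D ζ j q x, avg_mem_Zt hH₁.good hH₁.invC hx hq',
      fun w hw => form_avg ht hH (Zc_mono g hsub hx) hw hq⟩
  obtain ⟨x, hx, hx'⟩ := novikov_ext o ht.form ht.orth hH.adm hH₁.adm.cpt hsub hside hg₁ hy.1
    (fun x hx => by
      obtain ⟨x', h1, h2⟩ := havg x hx
      rw [← h2 y hy, hperp x' h1])
  obtain ⟨x', h1, h2⟩ := havg x hx
  refine ⟨x', h1, fun w hw => ?_⟩
  rw [← hx' w hw.1, map_sub, map_sub, LinearMap.sub_apply, LinearMap.sub_apply, h2 w hw]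

/-- Novikov's lemma.  Hint: `C₁ = C ∪ (C' ∩ closure Θ)`; one-sided step for `Θ` from `C` to `C₁`
and for `Θᶜ` from `C₁` to `C'`. -/
theorem novikov (ht : Tw D h ζ g j) {C C' Θ : Set X} (hH' : Hyp D ζ g j C' Θ) (hC : IsCompact C)
    (hinv : InvS D.W D.T C) (hsub : C ⊆ C') (hfr : frontier Θ ∩ C' ⊆ interior C) :
    Hyp D ζ g j C Θ ∧ sigT D h ζ g j C' Θ = sigT D h ζ g j C Θ := by
  have hH : Hyp D ζ g j C Θ :=
    ⟨⟨hC, fun x hx => hfr ⟨hx.1, hsub hx.2⟩⟩, fun x hx => hH'.good x (hsub hx), hinv, hH'.invΘ⟩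
  refine ⟨hH, ?_⟩
  have hsub₁ : C ∪ C' ∩ closure Θ ⊆ C' := union_subset hsub inter_subset_left
  have hH₁ : Hyp D ζ g j (C ∪ C' ∩ closure Θ) Θ :=
    ⟨⟨hC.union (hH'.adm.cpt.inter_right isClosed_closure),
      fun x hx => interior_mono subset_union_left (hfr ⟨hx.1, hsub₁ hx.2⟩)⟩,
      fun x hx => hH'.good x (hsub₁ hx), hinv.union (hH'.invC.inter hH'.invΘ.closure), hH'.invΘ⟩
  have hc : ∀ {A : Set X}, Hyp D ζ g j A Θ → Hyp D ζ g j A Θᶜ := fun hA =>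
    ⟨⟨hA.adm.cpt, by rw [frontier_compl]; exact hA.adm.fr⟩, hA.good, hA.invC, hA.invΘ.compl⟩
  have e1 := novikov_one_sided ht hH hH₁ subset_union_left (by
    rintro x ⟨hx | hx, hx'⟩
    · exact absurd hx hx'
    · by_contra hi
      exact hx' (interior_subset (hfr ⟨⟨hx.2, hi⟩, hx.1⟩)))
  have e2 := novikov_one_sided ht (hc hH₁) (hc hH') hsub₁ (by
    rintro x ⟨hx, hx'⟩
    rw [interior_compl]
    exact fun hcl => hx' (Or.inr ⟨hx, hcl⟩))
  rw [sigT_compl ht hH', sigT_compl ht hH₁, neg_inj] at e2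
  rw [e2, e1]

end Crest.Agent.R217
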