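import Crest.Agent.R217.Tau
import Crest.Agent.R217.FormSym

set_option autoImplicit false
set_option linter.unusedSectionVars false
open Set Filter Topology

namespace Crest.Agent.R217

/-! Properties of the equivariant signature. -/

variable {X V : Type*} [AddCommGroup V] [Module ℝ V] [FiniteDimensional ℝ V]
  [NormedAddCommGroup X] [NormedSpace ℝ X] [FiniteDimensional ℝ X] {o : Orient X} {p : ℕ}
  [NeZero p] {D : Dyn o p} {h : V →ₗ[ℝ] V →ₗ[ℝ] ℝ} {ζ : AddChar (ZMod p) (Module.End ℝ V)}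
  {g : Sys X V} {j : X → ZMod p}

theorem Nov1_mem_Zt {C : Set X} {x : Coch X V} :
    x ∈ Zt D ζ g j C ↔ x ∈ Zc g C ∧ tau D ζ j x - x ∈ Bd g C := Iff.rfl

theorem Nov1_form_van_left {C : Set X} (hC : IsClosed C) (Θ : Set X) {x : Coch X V}
    (hx : x ∈ Van V C) (y : Coch X V) : form o h C Θ x y = 0 := by
  rw [form_apply, flux_congr o hC Θ (w' := 0) fun z hz => by
    rw [sub_zero]; exact (hx z hz).pair_left h y, map_zero]

theorem Nov1_form_van_right {C : Set X} (hC : IsClosed C) (Θ : Set X) (x : Coch X V)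
    {y : Coch X V} (hy : y ∈ Van V C) : form o h C Θ x y = 0 := by
  rw [form_apply, flux_congr o hC Θ (w' := 0) fun z hz => by
    rw [sub_zero]; exact (hy z hz).pair_right h x, map_zero]

theorem Nov1_Van_le_Zt {C : Set X} (hW : C ⊆ D.W) (hinv : InvS D.W D.T C) :
    Van V C ≤ Zt D ζ g j C := fun _ hx =>
  Nov1_mem_Zt.2 ⟨Van_le_Zc g C hx, Van_le_Bd g C ((Van V C).sub_mem (tau_mem_Van hW hinv hx) hx)⟩

theorem Nov1_act_mem_Zt {g' : Sys X V} {j' : X → ZMod p} {C : Set X} {γ : X → Module.End ℝ V}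
    (h1 : ∀ x ∈ C, IntAt γ g g' x)
    (h2 : ∀ x ∈ C, ∀ᶠ y in 𝓝 x, ζ (-j' y) * γ (D.T y) = γ y * ζ (-j y)) {c : Coch X V}
    (hc : c ∈ Zt D ζ g j C) : act γ c ∈ Zt D ζ g' j' C := by
  refine Nov1_mem_Zt.2 ⟨act_mem_Zc h1 hc.1, ?_⟩
  have a1 : act γ (tau D ζ j c - c) ∈ Bd g' C := act_mem_Bd h1 (Nov1_mem_Zt.1 hc).2
  have a2 : tau D ζ j' (act γ c) - act γ (tau D ζ j c) ∈ Van V C := fun x hx =>
    vanAt_act_sub_act (γ := fun y => ζ (-j' y) * γ (D.T y)) (γ' := fun y => γ y * ζ (-j y))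
      (h2 x hx) (pull D.T c)
  have := (Bd g' C).add_mem (Van_le_Bd g' C a2) a1
  rwa [map_sub, sub_add_sub_cancel] at this

/-- Hint: `sig_of_map` with `(x₁, x₂) ↦ cut N x₁ + cut Nᶜ x₂`, `N` separating, then `sig_prod`. -/
theorem sigT_union (ht : Tw D h ζ g j) {C₁ C₂ Θ : Set X} (h₁ : Hyp D ζ g j C₁ Θ)
    (h₂ : Hyp D ζ g j C₂ Θ) (hd : Disjoint C₁ C₂) :
    sigT D h ζ g j (C₁ ∪ C₂) Θ = sigT D h ζ g j C₁ Θ + sigT D h ζ g j C₂ Θ := by
  have c₁ := h₁.adm.cpt.isClosed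
  have c₂ := h₂.adm.cpt.isClosed
  have g₁ : ∀ x ∈ C₁, CocAt g x := fun x hx => (h₁.good x hx).2.1
  have g₂ : ∀ x ∈ C₂, CocAt g x := fun x hx => (h₂.good x hx).2.1
  obtain ⟨N, hN₁, hN₂⟩ := exists_separating c₁ c₂ hd
  unfold sigT
  rw [← sig_prod (S := Zt D ζ g j C₁) (S' := Zt D ζ g j C₂)
    ((form_symOn o ht.form h₁.adm g₁ ht.orth).mono inf_le_left)
    ((form_finRk o h₁.adm g₁ ht.orth).mono inf_le_left)
    ((form_symOn o ht.form h₂.adm g₂ ht.orth).mono inf_le_left)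
    ((form_finRk o h₂.adm g₂ ht.orth).mono inf_le_left)]
  symm
  refine sig_of_map (LinearMap.id.prod LinearMap.id) (fun x hx => ?_) (fun x _ y _ => ?_) ?_
  · exact ⟨Zt_mono D ζ g j subset_union_left hx, Zt_mono D ζ g j subset_union_right hx⟩
  · exact (flux_union o hd Θ _).symm
  · rintro ⟨y₁, y₂⟩ ⟨hy₁, hy₂⟩
    have v₁ : cut N y₁ + cut Nᶜ y₂ - y₁ ∈ Van V C₁ := fun x hx => by
      have := (vanAt_cut_sub (hN₁ x hx) y₁).add
        (vanAt_cut_of_compl_mem (S := Nᶜ) (by rw [compl_compl]; exact hN₁ x hx) y₂)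
      rwa [sub_add_eq_add_sub] at this
    have v₂ : cut N y₁ + cut Nᶜ y₂ - y₂ ∈ Van V C₂ := fun x hx => by
      have := (vanAt_cut_of_compl_mem (hN₂ x hx) y₁).add (vanAt_cut_sub (hN₂ x hx) y₂)
      rwa [← add_sub_assoc] at this
    have m₁ : cut N y₁ + cut Nᶜ y₂ ∈ Zt D ζ g j C₁ := by
      have := (Zt D ζ g j C₁).add_mem
        (Nov1_Van_le_Zt (fun x hx => (h₁.good x hx).1) h₁.invC v₁) hy₁
      rwa [sub_add_cancel] at this
    have m₂ : cut N y₁ + cut Nᶜ y₂ ∈ Zt D ζ g j C₂ := by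
      have := (Zt D ζ g j C₂).add_mem
        (Nov1_Van_le_Zt (fun x hx => (h₂.good x hx).1) h₂.invC v₂) hy₂
      rwa [sub_add_cancel] at this
    refine ⟨cut N y₁ + cut Nᶜ y₂, Nov1_mem_Zt.2 ⟨?_, ?_⟩, fun w _ => ⟨?_, ?_⟩⟩
    · rw [mem_Zc, Van_union]
      exact ⟨m₁.1, m₂.1⟩
    · rw [Bd_union_of_disjoint g c₁ c₂ hd]
      exact ⟨m₁.2, m₂.2⟩
    · exact (congrArg₂ (· + ·) (Nov1_form_van_left c₁ Θ v₁ w.1)
        (Nov1_form_van_left c₂ Θ v₂ w.2)).trans (add_zero _)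
    · exact (congrArg₂ (· + ·) (Nov1_form_van_right c₁ Θ w.1 v₁)
        (Nov1_form_van_right c₂ Θ w.2 v₂)).trans (add_zero _)

/-- Gauge invariance.  Hint: `sig_of_map` with `act γ`; `act γ (act γ' y) - y ∈ Van C`. -/
theorem sigT_gauge {g' : Sys X V} {j' : X → ZMod p} {C Θ : Set X} (hC : IsCompact C)
    (hW : C ⊆ D.W) (hinv : InvS D.W D.T C) (γ γ' : X → Module.End ℝ V)
    (hγ : ∀ x, IsOrth h (γ x))
    (hloc : ∀ x ∈ C, ∃ N ∈ 𝓝 x, IntOn γ g g' N ∧ ∀ y ∈ N, γ y * γ' y = 1 ∧ γ' y * γ y = 1 ∧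
      ζ (-j' y) * γ (D.T y) = γ y * ζ (-j y)) :
    sigT D h ζ g' j' C Θ = sigT D h ζ g j C Θ := by
  have a1 : ∀ x ∈ C, IntAt γ g g' x := fun x hx => by
    obtain ⟨N, hN, h1, -⟩ := hloc x hx
    exact ⟨N, hN, h1⟩
  have a2 : ∀ x ∈ C, ∀ᶠ y in 𝓝 x, γ y * γ' y = 1 ∧ γ' y * γ y = 1 ∧
      ζ (-j' y) * γ (D.T y) = γ y * ζ (-j y) := fun x hx => by
    obtain ⟨N, hN, -, h2⟩ := hloc x hx
    exact mem_of_superset hN h2
  have a3 : ∀ x ∈ C, IntAt γ' g' g x := fun x hx => by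
    obtain ⟨N, hN, h1, h2⟩ := hloc x hx
    refine ⟨N, hN, fun y hy z hz => ?_⟩
    have e : g' y z * γ z = γ y * g y z := h1 y hy z hz
    change g y z * γ' z = γ' y * g' y z
    calc g y z * γ' z = γ' y * γ y * g y z * γ' z := by rw [(h2 y hy).2.1, one_mul]
      _ = γ' y * (g' y z * γ z) * γ' z := by rw [e, mul_assoc (γ' y)]
      _ = γ' y * g' y z := by rw [mul_assoc, mul_assoc, (h2 z hz).1, mul_one]
  have a4 : ∀ x ∈ C, ∀ᶠ y in 𝓝 x, ζ (-j y) * γ' (D.T y) = γ' y * ζ (-j' y) := fun x hx => by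
    have hT : ContinuousAt D.T x := D.cont.continuousAt (D.isOpen_W.mem_nhds (hW hx))
    filter_upwards [a2 x hx, hT.eventually (a2 _ ((hinv x (hW hx)).2 hx))] with y h1 h2
    calc ζ (-j y) * γ' (D.T y) = γ' y * γ y * ζ (-j y) * γ' (D.T y) := by rw [h1.2.1, one_mul]
      _ = γ' y * (ζ (-j' y) * γ (D.T y)) * γ' (D.T y) := by rw [h1.2.2, mul_assoc (γ' y)]
      _ = γ' y * ζ (-j' y) := by rw [mul_assoc, mul_assoc, h2.1, mul_one]
  refine sig_of_map (act γ)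
    (fun x hx => Nov1_act_mem_Zt a1 (fun x hx => (a2 x hx).mono fun y hy => hy.2.2) hx)
    (fun x _ y _ => ?_) fun y hy => ⟨act γ' y, Nov1_act_mem_Zt a3 a4 hy, fun w _ => ?_⟩
  · rw [form_apply, form_apply, pair_act_act hγ]
  · have v : act γ (act γ' y) - y ∈ Van V C := fun x hx =>
      vanAt_act_sub (γ := fun z => γ z * γ' z) ((a2 x hx).mono fun z hz => hz.1) y
    exact ⟨Nov1_form_van_left hC.isClosed Θ v w, Nov1_form_van_right hC.isClosed Θ w v⟩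

theorem sigT_congr {g' : Sys X V} {j' : X → ZMod p} {C Θ : Set X}
    (hloc : ∀ x ∈ C, ∃ N ∈ 𝓝 x, (∀ y ∈ N, ∀ z ∈ N, g y z = g' y z) ∧ ∀ y ∈ N, j y = j' y) :
    sigT D h ζ g' j' C Θ = sigT D h ζ g j C Θ := by
  have a1 : ∀ x ∈ C, ∃ N ∈ 𝓝 x, ∀ y ∈ N, ∀ z ∈ N, g y z = g' y z := fun x hx => by
    obtain ⟨N, hN, h1, -⟩ := hloc x hx
    exact ⟨N, hN, h1⟩
  have a2 : ∀ c : Coch X V, tau D ζ j' c - tau D ζ j c ∈ Van V C := fun c x hx => by
    obtain ⟨N, hN, -, h2⟩ := hloc x hx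
    exact vanAt_act_sub_act (γ := fun y => ζ (-j' y)) (γ' := fun y => ζ (-j y))
      (mem_of_superset hN fun y hy => by rw [mem_ofPred_eq, h2 y hy]) (pull D.T c)
  have e : Zt D ζ g' j' C = Zt D ζ g j C := by
    ext c
    rw [Nov1_mem_Zt, Nov1_mem_Zt, ← Zc_congr a1, ← Bd_congr a1,
      show tau D ζ j' c - c = (tau D ζ j' c - tau D ζ j c) + (tau D ζ j c - c) by abel,
      (Bd g C).add_mem_iff_right (Van_le_Bd g C (a2 c))]
  rw [sigT, sigT, e]

/-- If `T` acts trivially modulo the radical, the untwisted invariant part carries everything. -/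
theorem sigT_zero_of_triv (ht : Tw D h ζ g (fun _ => 0)) {C Θ : Set X}
    (hH : Hyp D ζ g (fun _ => 0) C Θ)
    (hT : ∀ x ∈ Zc g C, ∀ y ∈ Zc g C, form o h C Θ (pull D.T x - x) y = 0) :
    sigT D h ζ g (fun _ => 0) C Θ = sig0 o h g C Θ := by
  have hg : ∀ x ∈ C, CocAt g x := fun x hx => (hH.good x hx).2.1
  have e : ∀ c : Coch X V, tau D ζ (fun _ => 0) c = pull D.T c := fun c => by
    simp only [tau, neg_zero, AddChar.map_zero_eq_one, LinearMap.comp_apply, act_one]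
  symm
  refine sig_of_map LinearMap.id (fun x hx => hx.1) (fun _ _ _ _ => rfl) fun y hy => ?_
  obtain ⟨q, hq, hq'⟩ := exists_tau_pow ht hH.adm.cpt hH.good hy
  have hm := avg_mem_Zt hH.good hH.invC hy hq'
  have key : ∀ w ∈ Zc g C, ∀ i : ℕ,
      ((tau D ζ (fun _ => 0) : Module.End ℝ (Coch X V)) ^ i) y ∈ Zc g C ∧
      form o h C Θ (((tau D ζ (fun _ => 0) : Module.End ℝ (Coch X V)) ^ i) y) w =
        form o h C Θ y w := by
    intro w hw i
    induction i with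
    | zero => exact ⟨hy, rfl⟩
    | succ i ih =>
      rw [pow_succ', Module.End.mul_apply]
      refine ⟨tau_mem_Zc hH.good hH.invC ih.1, ?_⟩
      have := hT _ ih.1 w hw
      rw [map_sub, LinearMap.sub_apply, sub_eq_zero] at this
      rw [e, this, ih.2]
  have k2 : ∀ w ∈ Zc g C, form o h C Θ (avg D ζ (fun _ => 0) q y - y) w = 0 := fun w hw => by
    have hq0 : (q : ℝ) ≠ 0 := by exact_mod_cast hq.ne'
    rw [map_sub, LinearMap.sub_apply, avg, map_smul, map_sum, LinearMap.smul_apply,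
      LinearMap.sum_apply, Finset.sum_congr rfl fun i _ => (key w hw i).2, Finset.sum_const,
      Finset.card_range, nsmul_eq_mul, smul_eq_mul, inv_mul_cancel_left₀ hq0, sub_self]
  refine ⟨_, hm, fun w hw => ⟨k2 w hw, ?_⟩⟩
  have hz : avg D ζ (fun _ => 0) q y - y ∈ Zc g C := (Zc g C).sub_mem hm.1 hy
  change form o h C Θ w (avg D ζ (fun _ => 0) q y - y) = 0
  rcases form_symOn o ht.form hH.adm hg ht.orth with hs | hs
  · rw [hs _ hz w hw, k2 w hw]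
  · rw [hs _ hz w hw, k2 w hw, neg_zero]

/-- If `T` acts trivially modulo the radical, a twisted invariant part lies in the radical.
Hint: for `x ∈ Zt`, `y ∈ Zc`: `0 = form (τ x - x) y = form x ((ζ a - 1) y)`. -/
theorem sigT_const_of_triv {a : ZMod p} (ht : Tw D h ζ g (fun _ => a)) {C Θ : Set X}
    (hH : Hyp D ζ g (fun _ => a) C Θ) (ha : Function.Injective (ζ a - 1 : Module.End ℝ V))
    (hT : ∀ x ∈ Zc g C, ∀ y ∈ Zc g C, form o h C Θ (pull D.T x - x) y = 0) :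
    sigT D h ζ g (fun _ => a) C Θ = 0 := by
  have hg : ∀ x ∈ C, CocAt g x := fun x hx => (hH.good x hx).2.1
  obtain ⟨u, hu⟩ : IsUnit (ζ a - 1 : Module.End ℝ V) :=
    (LinearMap.isUnit_iff_ker_eq_bot _).2 (LinearMap.ker_eq_bot.2 ha)
  have hc : ∀ x y, Commute (g x y) (ζ a) := fun x y => ht.comm x y a
  have hc' : ∀ x y, Commute (g x y) ((u⁻¹ : (Module.End ℝ V)ˣ) : Module.End ℝ V) := fun x y =>
    Commute.units_inv_right (by rw [hu]; exact (hc x y).sub_right (Commute.one_right _))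
  refine sig_eq_zero fun x hx => ?_
  have key : ∀ y ∈ Zc g C, form o h C Θ x (act (fun _ => ζ a) y) = form o h C Θ x y := by
    intro y hy
    have hy' : act (fun _ => ζ a) y ∈ Zc g C :=
      act_mem_Zc (fun z _ => intAt_const (fun x y => hc x y) z) hy
    have h1 := form_Bd_left (h := h) o hH.adm hg ht.orth (Nov1_mem_Zt.1 hx).2 hy
    have h2 := hT x hx.1 _ hy'
    rw [map_sub, LinearMap.sub_apply, sub_eq_zero] at h1 h2
    rw [← h1, ← h2, form_apply, form_apply]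
    congr 1
    refine (pair_act_adj (γ := fun _ => ζ (-a)) (γ' := fun _ => ζ a) (fun _ v w => ?_) _ _).symm
    rw [← ht.ζorth a, ← Module.End.mul_apply, ← AddChar.map_add_eq_mul, add_neg_cancel,
      AddChar.map_zero_eq_one, Module.End.one_apply]
  have hy : act (fun _ => ((u⁻¹ : (Module.End ℝ V)ˣ) : Module.End ℝ V)) x ∈ Zc g C :=
    act_mem_Zc (fun z _ => intAt_const (fun x y => hc' x y) z) hx.1
  have h3 := key _ hy
  rw [← sub_eq_zero, ← map_sub] at h3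
  rw [← h3]
  congr 1
  funext z l
  have h4 : (u : Module.End ℝ V) (((u⁻¹ : (Module.End ℝ V)ˣ) : Module.End ℝ V) (x z l)) = x z l := by
    rw [← Module.End.mul_apply, Units.mul_inv, Module.End.one_apply]
  rw [hu] at h4
  exact h4.symm

end Crest.Agent.R217
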