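import Crest.Agent.R217.Nov0
import Crest.Agent.R217.Nov1

set_option autoImplicit false
set_option linter.unusedSectionVars false
open Set Filter Topology

namespace Crest.Agent.R217

/-! Properties of the equivariant signature. -/

variable {X V : Type*} [AddCommGroup V] [Module ℝ V] [FiniteDimensional ℝ V]
  [NormedAddCommGroup X] [NormedSpace ℝ X] [FiniteDimensional ℝ X] {o : Orient X} {p : ℕ}
  [NeZero p] {D : Dyn o p} {h : V →ₗ[ℝ] V →ₗ[ℝ] ℝ} {ζ : AddChar (ZMod p) (Module.End ℝ V)}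
  {g : Sys X V} {j : X → ZMod p}

/-- One side of the slab. -/
theorem Novikov_side (ht : Tw D h ζ g j) {C Θ Q₃ Q Q' : Set X} (hH : Hyp D ζ g j C Θ)
    (c₃ : IsCompact Q₃) (c : IsCompact Q) (c' : IsCompact Q') (i₃ : InvS D.W D.T Q₃)
    (i : InvS D.W D.T Q) (i' : InvS D.W D.T Q') (s₀ : frontier Θ ∩ C ⊆ interior Q₃)
    (s₃ : Q₃ ⊆ interior Q) (s : Q ⊆ interior Q') (s' : Q' ⊆ interior C) :
    Hyp D ζ g j ((Q' \ interior Q₃) ∩ Θ) Qᶜ ∧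
    sigT D h ζ g j ((Q' \ interior Q₃) ∩ Θ) Qᶜ = sigT D h ζ g j C Θ := by
  have hsub : (Q' \ interior Q₃) ∩ Θ ⊆ C := fun x hx => interior_subset (s' hx.1.1)
  have hΘ : ∀ x ∈ (Q' \ interior Q₃) ∩ Θ, Θ ∈ 𝓝 x := fun x hx => by
    rcases mem_nhds_or_compl_mem_nhds (S := Θ) (x := x) (fun hf => hx.1.2 (s₀ ⟨hf, hsub hx⟩)) with h1 | h1
    · exact h1
    · exact absurd hx.2 (mem_of_mem_nhds h1)
  have hcpt : IsCompact ((Q' \ interior Q₃) ∩ Θ) := by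
    have e : (Q' \ interior Q₃) ∩ Θ = (Q' \ interior Q₃) ∩ closure Θ := by
      refine Subset.antisymm (inter_subset_inter_right _ subset_closure) fun x hx => ⟨hx.1, ?_⟩
      by_contra hxΘ
      exact hx.1.2 (s₀ ⟨⟨hx.2, fun h1 => hxΘ (interior_subset h1)⟩, interior_subset (s' hx.1.1)⟩)
    rw [e]
    exact (c'.diff isOpen_interior).inter_right isClosed_closure
  have hint : ∀ x ∈ Q, x ∉ interior Q → Θ ∈ 𝓝 x → x ∈ interior ((Q' \ interior Q₃) ∩ Θ) :=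
    fun x hx hx' hxΘ => by
      rw [mem_interior_iff_mem_nhds]
      have h1 : Q' ∈ 𝓝 x := mem_interior_iff_mem_nhds.1 (s hx)
      have h2 : Q₃ᶜ ∈ 𝓝 x := c₃.isClosed.isOpen_compl.mem_nhds fun h3 => hx' (s₃ h3)
      filter_upwards [h1, h2, hxΘ] with y hy1 hy2 hy3
      exact ⟨⟨hy1, fun h4 => hy2 (interior_subset h4)⟩, hy3⟩
  have hinv : InvS D.W D.T ((Q' \ interior Q₃) ∩ Θ) := (i'.diff i₃.interior).inter hH.invΘ
  have hfr : frontier (Θ \ Q) ∩ C ⊆ interior ((Q' \ interior Q₃) ∩ Θ) := by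
    rintro x ⟨hx, hxC⟩
    have h1 : x ∉ interior Q := fun h2 => by
      obtain ⟨y, hy1, hy2⟩ := mem_closure_iff_nhds.1 hx.1 Q (mem_interior_iff_mem_nhds.1 h2)
      exact hy2.2 hy1
    have h2 : Θ ∈ 𝓝 x := by
      rcases mem_nhds_or_compl_mem_nhds (S := Θ) (x := x)
        (fun hf => h1 (s₃ (interior_subset (s₀ ⟨hf, hxC⟩)))) with h3 | h3
      · exact h3
      · obtain ⟨y, hy1, hy2⟩ := mem_closure_iff_nhds.1 hx.1 _ h3
        exact absurd hy2.1 hy1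
    have h3 : x ∈ Q := by
      by_contra h4
      exact hx.2 (mem_interior_iff_mem_nhds.2
        (inter_mem h2 (c.isClosed.isOpen_compl.mem_nhds h4)))
    exact hint x h3 h1 h2
  have hH' : Hyp D ζ g j C (Θ \ Q) :=
    ⟨⟨hH.adm.cpt, hfr.trans (interior_mono hsub)⟩, hH.good, hH.invC, hH.invΘ.diff i⟩
  refine ⟨⟨⟨hcpt, ?_⟩, fun x hx => hH.good x (hsub hx), hinv, i.compl⟩, ?_⟩
  · rintro x ⟨hx, hx'⟩
    rw [frontier_compl] at hx
    exact hint x (c.isClosed.closure_subset hx.1) hx.2 (hΘ x hx')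
  · have e1 : sigT D h ζ g j C Θ = sigT D h ζ g j C (Θ \ Q) := by
      refine sigT_move hH.adm.cpt fun x _ hx => ?_
      have h1 : Qᶜ ∈ 𝓝 x :=
        c.isClosed.isOpen_compl.mem_nhds fun h2 => hx (s' (interior_subset (s h2)))
      filter_upwards [h1] with y hy
      exact ⟨fun h2 => ⟨h2, hy⟩, fun h2 => h2.1⟩
    have e2 := (novikov ht hH' hcpt hinv hsub hfr).2
    have e3 : sigT D h ζ g j ((Q' \ interior Q₃) ∩ Θ) (Θ \ Q) =
        sigT D h ζ g j ((Q' \ interior Q₃) ∩ Θ) Qᶜ := by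
      refine sigT_move hcpt fun x hx _ => ?_
      filter_upwards [hΘ x hx] with y hy
      exact ⟨fun h2 => h2.2, fun h2 => ⟨hy, h2⟩⟩
    rw [e1, e2, e3]

/-- The two sides of an invariant slab around the hypersurface. -/
theorem sigT_slab (ht : Tw D h ζ g j) {C Θ Q₃ Q Q' : Set X} (hH : Hyp D ζ g j C Θ)
    (c₃ : IsCompact Q₃) (c : IsCompact Q) (c' : IsCompact Q') (i₃ : InvS D.W D.T Q₃)
    (i : InvS D.W D.T Q) (i' : InvS D.W D.T Q') (s₀ : frontier Θ ∩ C ⊆ interior Q₃)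
    (s₃ : Q₃ ⊆ interior Q) (s : Q ⊆ interior Q') (s' : Q' ⊆ interior C) :
    Hyp D ζ g j ((Q' \ interior Q₃) ∩ Θ) Qᶜ ∧ Hyp D ζ g j ((Q' \ interior Q₃) \ Θ) Qᶜ ∧
    sigT D h ζ g j ((Q' \ interior Q₃) ∩ Θ) Qᶜ = sigT D h ζ g j C Θ ∧
    sigT D h ζ g j ((Q' \ interior Q₃) \ Θ) Qᶜ = - sigT D h ζ g j C Θ := by
  have hH' : Hyp D ζ g j C Θᶜ :=
    ⟨⟨hH.adm.cpt, by rw [frontier_compl]; exact hH.adm.fr⟩, hH.good, hH.invC, hH.invΘ.compl⟩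
  obtain ⟨a₁, a₂⟩ := Novikov_side ht hH c₃ c c' i₃ i i' s₀ s₃ s s'
  obtain ⟨b₁, b₂⟩ := Novikov_side ht hH' c₃ c c' i₃ i i' (by rw [frontier_compl]; exact s₀) s₃ s s'
  exact ⟨a₁, b₁, a₂, b₂.trans (sigT_compl ht hH)⟩

theorem sig0_slab (o : Orient X) (hf : IsForm h) (ho : ∀ x y, IsOrth h (g x y))
    {C Θ Q₃ Q Q' : Set X} (hA : Adm C Θ) (hg : ∀ x ∈ C, CocAt g x)
    (c₃ : IsCompact Q₃) (c : IsCompact Q) (c' : IsCompact Q') (s₀ : frontier Θ ∩ C ⊆ interior Q₃)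
    (s₃ : Q₃ ⊆ interior Q) (s : Q ⊆ interior Q') (s' : Q' ⊆ interior C) :
    Adm ((Q' \ interior Q₃) ∩ Θ) Qᶜ ∧ Adm ((Q' \ interior Q₃) \ Θ) Qᶜ ∧
    sig0 o h g ((Q' \ interior Q₃) ∩ Θ) Qᶜ = sig0 o h g C Θ ∧
    sig0 o h g ((Q' \ interior Q₃) \ Θ) Qᶜ = - sig0 o h g C Θ := by
  obtain ⟨a₁, a₂, a₃, a₄⟩ := sigT_slab (tw_trivial o 1 univ isOpen_univ hf ho)
    (hyp_trivial o 1 univ isOpen_univ hA (subset_univ C) hg) c₃ c c' (fun _ _ => Iff.rfl)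
    (fun _ _ => Iff.rfl) (fun _ _ => Iff.rfl) s₀ s₃ s s'
  simp only [sigT_trivial] at a₃ a₄
  exact ⟨a₁.adm, a₂.adm, a₃, a₄⟩

end Crest.Agent.R217
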