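import Crest.Agent.R217.Homotopy

set_option autoImplicit false
set_option linter.unusedSectionVars false
open Set Filter Topology

namespace Crest.Agent.R217

/-! Orientations of normed spaces: convex open subsets, reversal sign. -/

variable {X : Type*}

theorem Orient.exists_rev_sign [TopologicalSpace X] (o : Orient X) :
    ∃ σ : ℝ, (σ = 1 ∨ σ = -1) ∧ ∀ z, IsZc z → o.J (rev (eps z)) = σ * o.J z := by
  obtain ⟨u, hu, hJ⟩ := o.exists_gen
  have hR : ∀ z : Coch X ℝ, IsZc z → IsZc (rev (eps z)) := fun z hz =>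
    ⟨isCompact_supp_of_subset hz.1 fun x hx => (notMem_supp.1 hx).eps.rev, fun x hx => by
      rw [delta_rev, delta_eps]
      exact (hz.2 x hx).eps.neg.eps.rev⟩
  have key : ∀ z, IsZc z → o.J (rev (eps z)) = o.J (rev (eps u)) * o.J z := by
    intro z hz
    obtain ⟨e, he, hze⟩ := o.exact (z - o.J z • u) (hz.sub (hu.smul _)) (by simp [hJ])
    have h1 := o.J_van (rev (eps (z - o.J z • u - delta 1 e))) fun x hx => (hze x hx).eps.rev
    have h2 := o.J_delta (rev e) (isCompact_supp_of_subset he fun x hx => (notMem_supp.1 hx).rev)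
    rw [delta_rev] at h2
    simp only [map_sub, map_smul, smul_eq_mul, h2] at h1
    linarith
  refine ⟨o.J (rev (eps u)), ?_, key⟩
  have h1 := key _ (hR u hu)
  rw [← rev_eps, rev_rev, eps_eps, hJ] at h1
  exact mul_self_eq_one_iff.1 h1.symm

variable [NormedAddCommGroup X] [NormedSpace ℝ X] [FiniteDimensional ℝ X]

/-- Dilation about `a` does not change the class in `U`.  Hint: `homotopy_cpt` with
`H t y = a + (1 + t * L) • (y - a)`; `K' = {a + s • (y - a) | s ∈ [0,1], y ∈ supp z}` is a compact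
subset of `U`; take a compact neighbourhood `A` of `K'` in `U` and the open set `interior A`. -/
theorem dilate_homologous {U : Set X} (hU : IsOpen U) {a : X} (ha : a ∈ U)
    (hst : StarConvex ℝ a U) {L : ℝ} (hL : 0 ≤ L) {z : Coch X ℝ} (hz : IsZc z)
    (hs : supp z ⊆ U) :
    ∃ e : Coch X ℝ, IsCompact (supp e) ∧ supp e ⊆ U ∧
      pull (fun y => a + (1 + L) • (y - a)) z - z - delta 1 e ∈ Van ℝ univ := by
  have hK : IsCompact ((fun q : ℝ × X => a + q.1 • (q.2 - a)) '' (Icc (0 : ℝ) 1 ×ˢ supp z)) :=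
    (isCompact_Icc.prod hz.1).image (by fun_prop)
  obtain ⟨A, hA, hKA, hAU⟩ := exists_compact_between hK hU (by
    rintro _ ⟨⟨s, y⟩, ⟨hs', hy⟩, rfl⟩
    exact hst.add_smul_sub_mem (hs hy) hs'.1 hs'.2)
  have hvan : ∀ t ∈ Icc (0 : ℝ) 1, ∀ y, y ∉ interior A → VanAt z (a + (1 + t * L) • (y - a)) := by
    intro t ht y hy
    by_contra h
    have h1 : 1 ≤ 1 + t * L := le_add_of_nonneg_right (mul_nonneg ht.1 hL)
    refine hy (hKA ⟨((1 + t * L)⁻¹, a + (1 + t * L) • (y - a)),
      ⟨⟨inv_nonneg.2 (by linarith), inv_le_one_of_one_le₀ h1⟩, h⟩, ?_⟩)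
    simp only [add_sub_cancel_left, smul_smul]
    rw [inv_mul_cancel₀ (by linarith), one_smul, add_sub_cancel]
  obtain ⟨e, he, heU, hee⟩ := homotopy_cpt (fun t y => a + (1 + t * L) • (y - a)) hA
    isOpen_interior interior_subset (fun t _ y _ => by fun_prop) (z := z)
    (fun t _ y _ => hz.2 _ (mem_univ _)) fun t ht y hy => hvan t ht y hy.2
  have e0 : (fun y => a + (1 + 0 * L) • (y - a)) = id := by
    funext y
    simp
  simp only [e0, one_mul, pull_id] at hee
  refine ⟨e, he, heU.trans (interior_subset.trans hAU), fun p hp => ?_⟩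
  have h1 : VanAt (cut A (pull (fun y => a + (1 + L) • (y - a)) z - z) -
      (pull (fun y => a + (1 + L) • (y - a)) z - z)) p := by
    by_cases h : p ∈ interior A
    · exact vanAt_cut_sub (mem_interior_iff_mem_nhds.1 h) _
    · have h2 := hvan 0 ⟨le_rfl, zero_le_one⟩ p h
      have h3 := hvan 1 ⟨zero_le_one, le_rfl⟩ p h
      rw [congrFun e0 p] at h2
      rw [one_mul] at h3
      have h4 : VanAt (pull (fun y => a + (1 + L) • (y - a)) z - z) p :=
        (VanAt.pull (φ := fun y => a + (1 + L) • (y - a)) h3 (by fun_prop)).sub h2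
      exact (h4.cut A).sub h4
  convert (hee p hp).sub h1 using 1
  abel

theorem OrientCvx_shrink {U : Set X} (hU : IsOpen U) {a : X} (ha : a ∈ U) {c : Coch X ℝ}
    (hc : IsCompact (supp c)) : ∃ L : ℝ, 0 ≤ L ∧ ∃ S : Set X, IsCompact S ∧ S ⊆ U ∧
      ∀ p, p ∉ S → VanAt (pull (fun y => a + (1 + L) • (y - a)) c) p := by
  have := FiniteDimensional.proper_real X
  obtain ⟨r, hr, hrU⟩ := Metric.nhds_basis_closedBall.mem_iff.1 (hU.mem_nhds ha)
  obtain ⟨R, hR, hRc⟩ := hc.isBounded.subset_closedBall_lt 0 a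
  refine ⟨R / r, by positivity, Metric.closedBall a r, isCompact_closedBall a r, hrU,
    fun p hp => VanAt.pull (by_contra fun h => hp ?_) (by fun_prop)⟩
  have h1 := hRc h
  rw [mem_closedBall_iff_norm, add_sub_cancel_left, norm_smul,
    Real.norm_of_nonneg (by positivity)] at h1
  rw [mem_closedBall_iff_norm]
  by_contra h2
  have h3 : (1 + R / r) * r ≤ (1 + R / r) * ‖p - a‖ :=
    mul_le_mul_of_nonneg_left (not_le.1 h2).le (by positivity)
  rw [add_mul, div_mul_cancel₀ _ hr.ne'] at h3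
  linarith

theorem Orient.exists_gen_subset (o : Orient X) {U : Set X} (hU : IsOpen U) (hne : U.Nonempty) :
    ∃ u, IsZc u ∧ supp u ⊆ U ∧ o.J u = 1 := by
  obtain ⟨a, ha⟩ := hne
  obtain ⟨u, hu, hJ⟩ := o.exists_gen
  obtain ⟨L, hL, S, hS, hSU, hv⟩ := OrientCvx_shrink hU ha hu.1
  obtain ⟨e, he, -, hee⟩ := dilate_homologous isOpen_univ (mem_univ a) (starConvex_univ a) hL hu
    (subset_univ _)
  refine ⟨pull (fun y => a + (1 + L) • (y - a)) u, IsZc.of_subset hS hv fun x _ => ?_,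
    (supp_subset_iff.2 hv).trans hSU, ?_⟩
  · rw [delta_one_pull]
    exact VanAt.pull (hu.2 _ (mem_univ _)) (by fun_prop)
  · have h1 := o.J_van _ hee
    rw [map_sub, map_sub, o.J_delta e he, hJ] at h1
    linarith

theorem Orient.exact_convex (o : Orient X) {U : Set X} (hU : IsOpen U) (hc : Convex ℝ U)
    {z : Coch X ℝ} (hz : IsZc z) (hs : supp z ⊆ U) (hJ : o.J z = 0) :
    ∃ e : Coch X ℝ, IsCompact (supp e) ∧ supp e ⊆ U ∧ z - delta 1 e ∈ Van ℝ univ := by
  rcases U.eq_empty_or_nonempty with rfl | ⟨a, ha⟩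
  · have h0 : supp (0 : Coch X ℝ) ⊆ ∅ := supp_subset_iff.2 fun x _ => vanAt_zero x
    refine ⟨0, isCompact_supp_of_subset isCompact_empty fun x _ => vanAt_zero x, h0, fun x _ => ?_⟩
    rw [map_zero, sub_zero]
    exact supp_subset_iff.1 hs x (notMem_empty x)
  obtain ⟨e₀, he₀, hze⟩ := o.exact z hz hJ
  obtain ⟨L, hL, S, hS, hSU, hv⟩ := OrientCvx_shrink hU ha he₀
  obtain ⟨e, he, heU, hee⟩ := dilate_homologous hU ha (hc.starConvex ha) hL hz hs
  have hv' : ∀ x, x ∉ S ∪ supp e → VanAt (pull (fun y => a + (1 + L) • (y - a)) e₀ - e) x :=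
    fun x hx => (hv x fun h => hx (Or.inl h)).sub (notMem_supp.1 fun h => hx (Or.inr h))
  refine ⟨pull (fun y => a + (1 + L) • (y - a)) e₀ - e, isCompact_supp_of_subset (hS.union he) hv',
    (supp_subset_iff.2 hv').trans (union_subset hSU heU), fun p hp => ?_⟩
  have h1 : VanAt (pull (fun y => a + (1 + L) • (y - a)) (z - delta 1 e₀)) p :=
    VanAt.pull (hze _ (mem_univ _)) (by fun_prop)
  convert h1.sub (hee p hp) using 1
  rw [map_sub, map_sub, delta_one_pull]
  abel

end Crest.Agent.R217
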