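import Crest.Agent.R217.OrientCvx
import Crest.Agent.R217.MV
import Crest.Agent.R217.Cover

set_option autoImplicit false
set_option linter.unusedSectionVars false
open Set Filter Topology

namespace Crest.Agent.R217

/-! Poincare duality and finiteness on finite unions of small convex sets. -/

variable {X V : Type*} [AddCommGroup V] [Module ℝ V]

section Cone

variable [TopologicalSpace X]

/-- The duality map. -/
def pdPhi (o : Orient X) (h : V →ₗ[ℝ] V →ₗ[ℝ] ℝ) : Coch X V →ₗ[ℝ] Module.Dual ℝ (Coch X V) :=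
  ((pair h).compr₂ o.J).flip

theorem pdPhi_apply (o : Orient X) (h : V →ₗ[ℝ] V →ₗ[ℝ] ℝ) (z x : Coch X V) :
    pdPhi o h z x = o.J (pair h x z) := rfl

/-- The differential of the mapping cone of the duality map. -/
def pdD (o : Orient X) (h : V →ₗ[ℝ] V →ₗ[ℝ] ℝ) (g : Sys X V) :
    (Coch X V × Module.Dual ℝ (Coch X V)) →ₗ[ℝ] (Coch X V × Module.Dual ℝ (Coch X V)) :=
  (delta g ∘ₗ LinearMap.fst ℝ _ _).prod
    (pdPhi o h ∘ₗ LinearMap.fst ℝ _ _ - (delta g).dualMap ∘ₗ LinearMap.snd ℝ _ _)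

theorem pdD_apply (o : Orient X) (h : V →ₗ[ℝ] V →ₗ[ℝ] ℝ) (g : Sys X V) (z : Coch X V)
    (φ : Module.Dual ℝ (Coch X V)) :
    pdD o h g (z, φ) = (delta g z, pdPhi o h z - φ ∘ₗ delta g) := rfl

/-- The mapping cone of the pair `(U, A)`. -/
def pdM (V : Type*) [AddCommGroup V] [Module ℝ V] (U A : Set X) :
    Submodule ℝ (Coch X V × Module.Dual ℝ (Coch X V)) :=
  (Van V Uᶜ).prod (Van V A).dualAnnihilator

/-- The negligible part. -/
def pdN (X V : Type*) [AddCommGroup V] [Module ℝ V] [TopologicalSpace X] :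
    Submodule ℝ (Coch X V × Module.Dual ℝ (Coch X V)) :=
  (Van V (univ : Set X)).prod ⊥

/-- Adjointness.  Hint: Leibniz for `pair h (eps x) z`, which is supported in `supp z`. -/
theorem pdPhi_delta (o : Orient X) {h : V →ₗ[ℝ] V →ₗ[ℝ] ℝ} {g : Sys X V}
    (ho : ∀ x y, IsOrth h (g x y)) {z : Coch X V} (hz : IsCompact (supp z))
    (hg : ∀ x ∈ supp z, CocAt g x) (x : Coch X V) :
    pdPhi o h (delta g z) x = pdPhi o h z (delta g x) := by
  rw [pdPhi_apply, pdPhi_apply]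
  have hc : IsCompact (supp (pair h (eps x) z)) :=
    isCompact_supp_of_subset hz fun y hy => (notMem_supp.1 hy).pair_right h _
  have h0 : o.J (delta 1 (pair h (eps x) z)) = 0 := o.J_delta _ hc
  have h1 : o.J (delta 1 (pair h (eps x) z)) =
      o.J (pair h x (delta g z) - pair h (delta g x) z) := by
    refine o.J_congr fun y => ?_
    by_cases hy : y ∈ supp z
    · have := vanAt_leibniz (hg y hy) ho (eps x) z
      rw [delta_eps, map_neg, eps_eps, eps_eps] at this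
      convert this using 1
      simp only [map_neg, LinearMap.neg_apply]
      abel
    · have hv : VanAt z y := notMem_supp.1 hy
      exact ((hv.pair_right h _).delta 1).sub
        (((hv.delta g).pair_right h _).sub (hv.pair_right h _))
  rw [h0, map_sub] at h1
  linarith

theorem pdPhi_of_disjoint (o : Orient X) (h : V →ₗ[ℝ] V →ₗ[ℝ] ℝ) {z x : Coch X V}
    (hd : ∀ y, VanAt z y ∨ VanAt x y) : pdPhi o h z x = 0 := by
  rw [pdPhi_apply]
  refine o.J_van _ fun y _ => ?_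
  rcases hd y with hy | hy
  · exact hy.pair_right h _
  · exact hy.pair_left h _

private theorem PD0_mem_pdM {U A : Set X} {z : Coch X V} {φ : Module.Dual ℝ (Coch X V)} :
    (z, φ) ∈ pdM V U A ↔ (∀ y, y ∉ U → VanAt z y) ∧ ∀ x ∈ Van V A, φ x = 0 := by
  simp only [pdM, Submodule.mem_prod, Submodule.mem_dualAnnihilator, mem_Van, mem_compl_iff]

private theorem PD0_mem_pdN {z : Coch X V} {φ : Module.Dual ℝ (Coch X V)} :
    (z, φ) ∈ pdN X V ↔ (∀ y, VanAt z y) ∧ φ = 0 := by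
  simp only [pdN, Submodule.mem_prod, Submodule.mem_bot, mem_Van, mem_univ, true_imp_iff]

private theorem PD0_N_le (U A : Set X) : pdN X V ≤ pdM V U A := by
  rintro ⟨z, φ⟩ hm
  obtain ⟨h1, rfl⟩ := PD0_mem_pdN.1 hm
  exact PD0_mem_pdM.2 ⟨fun y _ => h1 y, fun _ _ => rfl⟩

private theorem PD0_D_mem (o : Orient X) (h : V →ₗ[ℝ] V →ₗ[ℝ] ℝ) {g : Sys X V} {U A : Set X}
    (hp : GoodPair g U A) : ∀ m ∈ pdM V U A, pdD o h g m ∈ pdM V U A := by
  rintro ⟨z, φ⟩ hm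
  obtain ⟨h1, h2⟩ := PD0_mem_pdM.1 hm
  rw [pdD_apply]
  refine PD0_mem_pdM.2 ⟨fun y hy => (h1 y hy).delta g, fun x hx => ?_⟩
  have e1 : pdPhi o h z x = 0 := by
    refine pdPhi_of_disjoint o h fun y => ?_
    by_cases hy : y ∈ A
    · exact Or.inr (hx y hy)
    · exact Or.inl (h1 y fun hU => hy (hp.sub hU))
  have e2 : φ (delta g x) = 0 := h2 _ fun y hy => (hx y hy).delta g
  simp [e1, e2]

private theorem PD0_DD (o : Orient X) {h : V →ₗ[ℝ] V →ₗ[ℝ] ℝ} {g : Sys X V}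
    (ho : ∀ x y, IsOrth h (g x y)) {U A : Set X}
    (hp : GoodPair g U A) : ∀ m ∈ pdM V U A, pdD o h g (pdD o h g m) ∈ pdN X V := by
  rintro ⟨z, φ⟩ hm
  obtain ⟨h1, h2⟩ := PD0_mem_pdM.1 hm
  rw [pdD_apply, pdD_apply]
  have hA : ∀ y, y ∉ A → VanAt z y := fun y hy => h1 y fun hU => hy (hp.sub hU)
  refine PD0_mem_pdN.2 ⟨fun y => ?_, ?_⟩
  · by_cases hy : y ∈ A
    · exact vanAt_delta_delta (hp.coc y hy) z
    · exact ((hA y hy).delta g).delta g
  · ext x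
    have e1 := pdPhi_delta o ho (isCompact_supp_of_subset hp.cpt hA)
      (fun y hy => hp.coc y (supp_subset_iff.2 hA hy)) x
    have e2 : φ (delta g (delta g x)) = 0 := h2 _ fun y hy => vanAt_delta_delta (hp.coc y hy) x
    simp [e1, e2]

theorem pd_mv [T2Space X] [NormalSpace X] (o : Orient X) {h : V →ₗ[ℝ] V →ₗ[ℝ] ℝ} {g : Sys X V}
    (ho : ∀ x y, IsOrth h (g x y)) {U₁ A₁ U₂ A₂ : Set X} (h₁ : GoodPair g U₁ A₁)
    (h₂ : GoodPair g U₂ A₂) (a₁ : AcycMod (pdD o h g) (pdN X V) (pdM V U₁ A₁))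
    (a₂ : AcycMod (pdD o h g) (pdN X V) (pdM V U₂ A₂))
    (a₁₂ : AcycMod (pdD o h g) (pdN X V) (pdM V (U₁ ∩ U₂) (A₁ ∩ A₂))) :
    AcycMod (pdD o h g) (pdN X V) (pdM V (U₁ ∪ U₂) (A₁ ∪ A₂)) := by
  have hinf : pdM V (U₁ ∩ U₂) (A₁ ∩ A₂) = pdM V U₁ A₁ ⊓ pdM V U₂ A₂ := by
    simp only [pdM]
    rw [Submodule.prod_inf_prod, compl_inter, Van_union,
      Van_inter h₁.cpt.isClosed h₂.cpt.isClosed, Submodule.dualAnnihilator_sup_eq]
  have hsup : pdM V (U₁ ∪ U₂) (A₁ ∪ A₂) = pdM V U₁ A₁ ⊔ pdM V U₂ A₂ := by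
    simp only [pdM]
    rw [Submodule.prod_sup_prod, compl_union, Van_union,
      Van_inter h₁.isOpen.isClosed_compl h₂.isOpen.isClosed_compl,
      Subspace.dualAnnihilator_inf_eq]
  rw [hsup]
  rw [hinf] at a₁₂
  exact AcycMod.sup (PD0_N_le _ _) (PD0_N_le _ _) (PD0_D_mem o h h₁) (PD0_D_mem o h h₂)
    (PD0_DD o ho h₁) a₁ a₂ a₁₂

theorem pd_empty (o : Orient X) (h : V →ₗ[ℝ] V →ₗ[ℝ] ℝ) (g : Sys X V) :
    AcycMod (pdD o h g) (pdN X V) (pdM V (∅ : Set X) ∅) := by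
  rintro ⟨z, φ⟩ hm _
  obtain ⟨h1, h2⟩ := PD0_mem_pdM.1 hm
  refine ⟨0, Submodule.zero_mem _, ?_⟩
  rw [map_zero, sub_zero]
  refine PD0_mem_pdN.2 ⟨fun y => h1 y (notMem_empty y), ?_⟩
  ext x
  exact h2 x fun y hy => absurd hy (notMem_empty y)

end Cone

variable [NormedAddCommGroup X] [NormedSpace ℝ X] [FiniteDimensional ℝ X] [FiniteDimensional ℝ V]

end Crest.Agent.R217
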