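import Crest.Agent.R217.PD0

set_option autoImplicit false
set_option linter.unusedSectionVars false
open Set Filter Topology

namespace Crest.Agent.R217

/-! Poincare duality and finiteness on finite unions of small convex sets. -/

variable {X V : Type*} [AddCommGroup V] [Module ℝ V]

section Cone

variable [TopologicalSpace X]

end Cone

variable [NormedAddCommGroup X] [NormedSpace ℝ X] [FiniteDimensional ℝ X] [FiniteDimensional ℝ V]

theorem PD1_surj {h : V →ₗ[ℝ] V →ₗ[ℝ] ℝ} (hn : ∀ u, (∀ v, h u v = 0) → u = 0)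
    (ψ : Module.Dual ℝ V) : ∃ v, h v = ψ := by
  have hi : Function.Injective h :=
    (injective_iff_map_eq_zero h).2 fun u hu => hn u fun v => by rw [hu]; rfl
  exact (LinearMap.injective_iff_surjective_of_finrank_eq_finrank (f := h)
    (Subspace.dual_finrank_eq (K := ℝ) (V := V)).symm).1 hi ψ

theorem PD1_intOn_h {h : V →ₗ[ℝ] V →ₗ[ℝ] ℝ} {g : Sys X V} (ho : ∀ x y, IsOrth h (g x y))
    {N : Set X} (hN : CocOn g N) {a : X} (ha : a ∈ N) (v : V) :
    IntOn (fun x => h (g x a v)) g (1 : Sys X ℝ) N := by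
  intro x hx y hy
  ext u
  have e : g x a v = g x y (g y a v) := by rw [← hN.2 x hx y hy a ha]; rfl
  simp only [LinearMap.comp_apply, Pi.one_apply, Module.End.one_apply]
  rw [e, ho x y]

theorem PD1_intOn_s {g : Sys X V} {N : Set X} (hN : CocOn g N) {a : X} (ha : a ∈ N) (v : V) :
    IntOn (fun x => LinearMap.toSpanSingleton ℝ V (g x a v)) (1 : Sys X ℝ) g N := by
  intro x hx y hy
  ext
  have e : g x a v = g x y (g y a v) := by rw [← hN.2 x hx y hy a ha]; rfl
  simp [e]

/-- A compactly supported cocycle on a small convex set all of whose scalar components have zero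
`J` is exact.  Hint: gauge by `g a x`, take components in a basis of `V`, `Orient.exact_convex`;
`pair h (sec (fun x => g x a v)) z = act (fun x => h (g x a v)) z`, and `v ↦ h v` is onto the dual
of `V`. -/
theorem pd_cvx_exact (o : Orient X) {h : V →ₗ[ℝ] V →ₗ[ℝ] ℝ} (hf : IsForm h) {g : Sys X V}
    (ho : ∀ x y, IsOrth h (g x y)) {U A : Set X} (hc : CvxPair g U A) {a : X} (ha : a ∈ U)
    {z : Coch X V} (hz : z ∈ Van V Uᶜ) (hdz : delta g z ∈ Van V univ)
    (hJ : ∀ v, o.J (pair h (sec (fun x => g x a v)) z) = 0) :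
    ∃ z₀ ∈ Van V Uᶜ, z - delta g z₀ ∈ Van V univ := by
  obtain ⟨N, hN, hg⟩ := hc.coc
  have hNx : ∀ x ∈ A, N ∈ 𝓝 x := mem_nhdsSet_iff_forall.1 hN
  have haN : a ∈ N := mem_of_mem_nhds (hNx a (hc.sub ha))
  let b := Module.finBasis ℝ V
  choose v hv using fun i => PD1_surj hf.nondeg (b.coord i)
  have hw : ∀ i, ∃ e : Coch X ℝ, IsCompact (supp e) ∧ supp e ⊆ U ∧
      act (fun x => h (g x a (v i))) z - delta 1 e ∈ Van ℝ univ := fun i => by
    refine o.exact_convex hc.isOpen hc.cvxU (IsZc.of_subset hc.cpt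
      (fun x hx => (hz x fun h' => hx (hc.sub h')).act _) fun x hx => ?_)
      (supp_subset_iff.2 fun x hx => (hz x hx).act _) (by rw [← pair_sec_left]; exact hJ _)
    exact (vanAt_delta_act ⟨N, hNx x hx, PD1_intOn_h ho hg haN _⟩ z).of_sub
      ((hdz x trivial).act _)
  choose e _ he1 he2 using hw
  have h0 : ∑ i, act (fun x => LinearMap.toSpanSingleton ℝ V (g x a (b i))) (e i) ∈ Van V Uᶜ :=
    Submodule.sum_mem _ fun i _ x hx => (supp_subset_iff.1 (he1 i) x hx).act _
  refine ⟨_, h0, fun x _ => ?_⟩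
  by_cases hx : x ∈ U
  swap
  · exact (hz x hx).sub ((h0 x hx).delta g)
  have h1 : VanAt (z - ∑ i, act (fun x => LinearMap.toSpanSingleton ℝ V (g x a (b i)))
      (act (fun x => h (g x a (v i))) z)) x := by
    refine ⟨N, hNx x (hc.sub hx), fun y hy l _ => ?_⟩
    have e1 : z y l = g y a (g a y (z y l)) := by
      rw [← Module.End.mul_apply, hg.2 y hy a haN y hy, hg.1 y hy, Module.End.one_apply]
    simp only [Pi.sub_apply, Finset.sum_apply, act_apply, LinearMap.toSpanSingleton_apply]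
    rw [e1]
    generalize g a y (z y l) = u
    simp only [ho y a _ _, hv, ← map_smul, ← map_sum, Module.Basis.coord_apply, b.sum_repr, sub_self]
  have h2 : ∑ i, act (fun x => LinearMap.toSpanSingleton ℝ V (g x a (b i)))
      (act (fun x => h (g x a (v i))) z - delta 1 (e i)) ∈ Van V {x} :=
    Submodule.sum_mem _ fun i _ y _ => (he2 i y trivial).act _
  have h3 : ∑ i, (delta g (act (fun x => LinearMap.toSpanSingleton ℝ V (g x a (b i))) (e i)) -
      act (fun x => LinearMap.toSpanSingleton ℝ V (g x a (b i))) (delta 1 (e i))) ∈ Van V {x} :=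
    Submodule.sum_mem _ fun i _ y hy => vanAt_delta_act
      ⟨N, hNx y (hc.sub (hy ▸ hx)), PD1_intOn_s hg haN _⟩ _
  convert (h1.add (h2 x rfl)).sub (h3 x rfl) using 1
  simp only [map_sub, map_sum, Finset.sum_sub_distrib]
  abel

/-- Every functional on the fibre is represented by a compactly supported cocycle.
Hint: `z₁ = act (fun x => (LinearMap.toSpanSingleton ℝ V (g x a v₁))) u`. -/
theorem pd_cvx_repr (o : Orient X) {h : V →ₗ[ℝ] V →ₗ[ℝ] ℝ} (hf : IsForm h) {g : Sys X V}
    (ho : ∀ x y, IsOrth h (g x y)) {U A : Set X} (hc : CvxPair g U A) {a : X} (ha : a ∈ U)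
    (ψ : Module.Dual ℝ V) :
    ∃ z₁ ∈ Van V Uᶜ, delta g z₁ ∈ Van V univ ∧
      ∀ v, o.J (pair h (sec (fun x => g x a v)) z₁) = ψ v := by
  obtain ⟨N, hN, hg⟩ := hc.coc
  have hNx : ∀ x ∈ A, N ∈ 𝓝 x := mem_nhdsSet_iff_forall.1 hN
  have haN : a ∈ N := mem_of_mem_nhds (hNx a (hc.sub ha))
  obtain ⟨v₁, hv₁⟩ := PD1_surj (h := h.flip) (fun u hu => hf.nondeg u fun v => by
    have h1 : h v u = 0 := hu v
    rcases hf.symm with hs | hs
    · rw [← hs, h1]
    · rw [hs v u, h1, neg_zero]) ψ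
  obtain ⟨u, hu, hs, hJ⟩ := o.exists_gen_subset hc.isOpen ⟨a, ha⟩
  have h0 : act (fun x => LinearMap.toSpanSingleton ℝ V (g x a v₁)) u ∈ Van V Uᶜ :=
    fun x hx => (supp_subset_iff.1 hs x hx).act _
  refine ⟨_, h0, fun x _ => ?_, fun v => ?_⟩
  · by_cases hx : x ∈ U
    · exact (vanAt_delta_act ⟨N, hNx x (hc.sub hx), PD1_intOn_s hg haN _⟩ u).of_sub
        ((hu.2 x trivial).act _)
    · exact (h0 x hx).delta g
  · have e : pair h (sec fun x => g x a v)
        (act (fun x => LinearMap.toSpanSingleton ℝ V (g x a v₁)) u) = ψ v • u := by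
      rw [pair_sec_left]
      funext x l
      simp only [act_apply, LinearMap.toSpanSingleton_apply, map_smul, ho x a _ _, Pi.smul_apply,
        smul_eq_mul, ← hv₁, LinearMap.flip_apply, mul_comm]
    rw [e, map_smul, hJ, smul_eq_mul, mul_one]

end Crest.Agent.R217
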