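import Crest.Agent.R217.Halves

set_option autoImplicit false
set_option linter.unusedSectionVars false
open Set Filter Topology

namespace Crest.Agent.R217

/-! Cohomology of one sheet. -/

variable {X V : Type*} [AddCommGroup V] [Module ℝ V] [MetricSpace X]
  {h : V →ₗ[ℝ] V →ₗ[ℝ] ℝ} {g : Sys X V} {A B : (Module.End ℝ V)ˣ} {a b : Module.End ℝ V}

theorem Sheet_wall_left (A B : (Module.End ℝ V)ˣ) {s : ℝ} (hs : s < -2) :
    ∀ᶠ s' in 𝓝 s, wallT A B s' = A := by
  filter_upwards [Iio_mem_nhds hs] with s' hs'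
  simp only [wallT, if_pos (show s' < -2 from hs')]

theorem Sheet_wall_right (A B : (Module.End ℝ V)ˣ) {s : ℝ} (hs : 2 < s) :
    ∀ᶠ s' in 𝓝 s, wallT A B s' = B := by
  filter_upwards [Ioi_mem_nhds hs] with s' hs'
  have h3 : (2 : ℝ) < s' := hs'
  simp only [wallT, if_neg (show ¬ s' < -2 by linarith), if_pos h3]

theorem Sheet_wall_mid (A B : (Module.End ℝ V)ˣ) {s : ℝ} (hs : -2 < s) (hs' : s < 2) :
    ∀ᶠ s' in 𝓝 s, wallT A B s' = 1 := by
  filter_upwards [Ioo_mem_nhds hs hs'] with s' hs'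
  simp only [wallT, if_neg hs'.1.not_gt, if_neg hs'.2.not_gt]

theorem Sheet_annu {g : Sys X V} {t : ℝ → (Module.End ℝ V)ˣ}
    (hc : ∀ x y s, g x y * t s = t s * g x y) {K₀ : Set X} (hK : IsCompact K₀)
    (hg : ∀ x ∈ K₀, CocAt g x) {s r₁ r₂ : ℝ} (h₀ : 0 < r₁) (h₁ : r₁ ≤ r₂)
    {t₁ t₂ : (Module.End ℝ V)ˣ} (ht₁ : ∀ x ∈ Icc (s - r₂) (s - r₁), ∀ᶠ s' in 𝓝 x, t s' = t₁)
    (ht₂ : ∀ x ∈ Icc (s + r₁) (s + r₂), ∀ᶠ s' in 𝓝 x, t s' = t₂)
    (hinv : IsUnit ((t₁ : Module.End ℝ V) - t₂)) :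
    Zc (sheet g t) (K₀ ×ˢ annu s r₁ r₂) ≤ Bd (sheet g t) (K₀ ×ˢ annu s r₁ r₂) := by
  intro z hz
  have hd : ∀ y : ℝ, dia s (s, y) = |y| := fun y => by simp [dia]
  obtain ⟨c, -, hc'⟩ := halves hc hK hg (isCompact_annu s r₁ r₂) (su := (s, r₁)) (sd := (s, -r₁))
    ⟨⟨by rw [hd, abs_of_pos h₀], by rw [hd, abs_of_pos h₀]; exact h₁⟩, h₀.le⟩
    (starConvex_annu_up h₀.le le_rfl h₁)
    ⟨⟨by rw [hd, abs_neg, abs_of_pos h₀], by rw [hd, abs_neg, abs_of_pos h₀]; exact h₁⟩,
      neg_nonpos.2 h₀.le⟩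
    (starConvex_annu_dn h₀.le le_rfl h₁) (a₁ := s - r₂) (b₁ := s - r₁) (a₂ := s + r₁)
    (b₂ := s + r₂) (a₃ := 1) (b₃ := 0) (by linarith) (by linarith) (by linarith)
    (by
      intro x
      simp only [annu, dia, mem_ofPred_eq, abs_zero, add_zero, mem_Icc]
      constructor
      · rintro ⟨h2, h3⟩
        obtain ⟨h4, h5⟩ := abs_le.1 h3
        rcases le_abs.1 h2 with h6 | h6
        · exact Or.inr (Or.inl ⟨by linarith, by linarith⟩)
        · exact Or.inl ⟨by linarith, by linarith⟩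
      · rintro (⟨h2, h3⟩ | ⟨h2, h3⟩ | ⟨h2, h3⟩)
        · exact ⟨le_abs.2 (Or.inr (by linarith)), abs_le.2 ⟨by linarith, by linarith⟩⟩
        · exact ⟨le_abs.2 (Or.inl (by linarith)), abs_le.2 ⟨by linarith, by linarith⟩⟩
        · linarith)
    (N₃ := ∅) (fun x hx => absurd (hx.1.trans hx.2) (by norm_num)) (fun x _ => by simp)
    ht₁ ht₂ (fun x hx => absurd (hx.1.trans hx.2) (by norm_num)) hinv hz
  have : kap g t ∅ c = 0 := by
    change cut {q : X × ℝ × ℝ | q.2.1 ∈ (∅ : Set ℝ)} _ = 0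
    simp [cut_empty]
  rwa [this, sub_zero] at hc'

theorem Sheet_eHole {A a : Module.End ℝ V} (ha : (A - 1) * a = 1) (c : Coch X V) :
    eHole A a c = pull Prod.fst (act (fun _ => a) c) + cut (upS X) (pull Prod.fst c) := by
  have h1 : A * a = 1 + a := by
    rw [sub_mul, one_mul] at ha
    rw [← ha]; abel
  have h2 : act (fun _ : X => A * a) c = c + act (fun _ => a) c := by
    funext x l
    simp [h1]
  change cut (upS X) (pull Prod.fst (act (fun _ => A * a) c)) +
    cut (upS X)ᶜ (pull Prod.fst (act (fun _ => a) c)) = _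
  rw [h2, cut_compl, map_add, map_add]
  abel

theorem Sheet_fr {q : X × ℝ × ℝ} (hq : q.2.2 ≠ 0) : q ∉ frontier (upS X) := fun h =>
  hq (frontier_lt_subset_eq (f := fun _ => (0 : ℝ)) (g := fun q : X × ℝ × ℝ => q.2.2)
    continuous_const (by fun_prop) h).symm

theorem Sheet_pull {g : Sys X V} {t : ℝ → (Module.End ℝ V)ˣ} {c : Coch X V} {q : X × ℝ × ℝ}
    (hc : VanAt (delta g c) q.1) (hq : q.2.2 ≠ 0 ∨ ∀ᶠ s in 𝓝 q.2.1, t s = 1) :
    VanAt (delta (sheet g t) (pull Prod.fst c)) q := by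
  refine VanAt.of_sub (vanAt_delta_congr (sheet_eq_pull g t hq) _) ?_
  rw [delta_pull]
  exact hc.pull continuous_fst.continuousAt

theorem Sheet_act {g : Sys X V} {f : Module.End ℝ V} (hf : ∀ x y, g x y * f = f * g x y)
    {c : Coch X V} {x : X} (hc : VanAt (delta g c) x) :
    VanAt (delta g (act (fun _ => f) c)) x := by
  rw [delta_act_const hf]
  exact hc.act _

/-- The primitive around a hole: `δ e = κ` near every point of the punctured plane which is off the
wall, on the outer wall (transition `A`), or on the middle wall. -/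
theorem Sheet_hole {g : Sys X V} {t : ℝ → (Module.End ℝ V)ˣ}
    (hcm : ∀ x y s, g x y * t s = t s * g x y) {A : (Module.End ℝ V)ˣ} {a : Module.End ℝ V}
    (hA : ∀ x y, g x y * A = A * g x y) (hca : ∀ x y, g x y * a = a * g x y)
    (ha : ((A : Module.End ℝ V) - 1) * a = 1) {c : Coch X V} {q : X × ℝ × ℝ}
    (hc : VanAt (delta g c) q.1)
    (hq : q.2.2 ≠ 0 ∨ (q.2.2 = 0 ∧ 2 < |q.2.1| ∧ ∀ᶠ s in 𝓝 q.2.1, t s = A) ∨
      (|q.2.1| < 2 ∧ ∀ᶠ s in 𝓝 q.2.1, t s = 1)) :
    VanAt (kap g t (Ioo (-2) 2) c - delta (sheet g t) (eHole (A : Module.End ℝ V) a c)) q := by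
  have c21 : Continuous (fun q : X × ℝ × ℝ => q.2.1) := by fun_prop
  rcases hq with h | ⟨h0, h1, h2⟩ | ⟨h1, h2⟩
  · refine (Halves_kap_off _ hc h).sub ?_
    rw [Sheet_eHole ha, map_add]
    exact (Sheet_pull (Sheet_act hca hc) (Or.inl h)).add
      (vanAt_delta_cut_of_cocycle (Sheet_fr h) (Sheet_pull hc (Or.inl h)))
  · refine VanAt.sub (vanAt_cut_of_compl_mem ?_ _) ?_
    · filter_upwards [(isOpen_lt continuous_const c21.abs).mem_nhds h1] with y hy hy'
      have := abs_lt.2 hy'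
      exact lt_asymm hy this
    · have hI := intAt_mUp hcm (q := q)
        (Or.inr ⟨h0, by filter_upwards [h2] with s hs; rw [hs, h2.self_of_nhds]⟩)
      have hAa : ∀ x y, g x y * (A * a) = (A * a) * g x y := by
        intro x y
        rw [← mul_assoc, hA, mul_assoc, hca, mul_assoc]
      have e1 : VanAt (eHole (A : Module.End ℝ V) a c - Halves_lift (fun q => mUp t q.2)
          (act (fun _ => (A : Module.End ℝ V) * a) c)) q := by
        refine ⟨_, c21.continuousAt.eventually h2, fun y hy l _ => ?_⟩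
        have hy' : t y.2.1 = A := hy
        change cut (upS X) (pull Prod.fst (act (fun _ => (A : Module.End ℝ V) * a) c)) y l +
          cut (upS X)ᶜ (pull Prod.fst (act (fun _ => a) c)) y l - _ = 0
        by_cases h3 : 0 < y.2.2
        · rw [cut_of_mem (show y ∈ upS X from h3), cut_of_notMem (show y ∉ (upS X)ᶜ from
            not_not.2 h3)]
          simp [Halves_lift_apply, mUp, h3]
        · rw [cut_of_notMem (show y ∉ upS X from h3), cut_of_mem (show y ∈ (upS X)ᶜ from h3)]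
          simp only [Halves_lift_apply, mUp, if_neg h3, hy', act_apply, pull_apply, zero_add]
          rw [← Module.End.mul_apply, Units.inv_mul_cancel_left, sub_self]
      refine VanAt.of_sub (by simpa only [map_sub] using e1.delta (sheet g t)) ?_
      refine VanAt.of_sub (vanAt_delta_act hI.inv_units _) (VanAt.act ?_ _)
      rw [delta_pull]
      exact (Sheet_act hAa hc).pull continuous_fst.continuousAt
  · have hn : {q : X × ℝ × ℝ | q.2.1 ∈ Ioo (-2 : ℝ) 2} ∈ 𝓝 q :=
      c21.continuousAt.preimage_mem_nhds (Ioo_mem_nhds (abs_lt.1 h1).1 (abs_lt.1 h1).2)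
    have e1 := vanAt_cut_sub hn (delta (sheet g t) (cut (upS X) (pull Prod.fst c)))
    have e2 := Sheet_pull (Sheet_act hca hc) (Or.inr h2)
    rw [Sheet_eHole ha, map_add]
    convert e1.sub e2 using 1
    change cut _ _ - _ = _
    simp only [LinearMap.comp_apply]
    abel

theorem Sheet_sqr_far {s : ℝ} {q : X × ℝ × ℝ} (h : 2 < dia s q.2) :
    {q : X × ℝ × ℝ | q.2 ∈ sqr s}ᶜ ∈ 𝓝 q := by
  filter_upwards [(isOpen_lt continuous_const ((continuous_dia s).comp continuous_snd)).mem_nhds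
    h] with y hy hy'
  have h1 : 2 < dia s y.2 := hy
  have h2 := hy'.1
  have h3 := hy'.2
  simp only [dia] at h1
  linarith

/-- Hint: `halves` with `N₃ = ∅` and an empty third segment for each annulus, then
`Bd_union_of_disjoint`. -/
theorem SheetOK.ann_acyclic (hs : SheetOK h g A B a b) {K₀ : Set X} (hK : IsCompact K₀)
    (hg : ∀ x ∈ K₀, CocAt g x) :
    Zc (sheet g (wallT A B)) (K₀ ×ˢ ann) ≤ Bd (sheet g (wallT A B)) (K₀ ×ˢ ann) := by
  have hU : ∀ {Z : (Module.End ℝ V)ˣ} {z : Module.End ℝ V}, z * (Z - 1) = 1 → (Z - 1) * z = 1 →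
      IsUnit ((Z : Module.End ℝ V) - 1) := fun h1 h2 => ⟨⟨_, _, h2, h1⟩, rfl⟩
  have a1 := Sheet_annu hs.comm_wallT hK hg (s := -2) (r₁ := 1 / 4) (r₂ := 3 / 4) (by norm_num)
    (by norm_num) (t₁ := A) (t₂ := 1) (fun x hx => Sheet_wall_left A B (by linarith [hx.2]))
    (fun x hx => Sheet_wall_mid A B (by linarith [hx.1]) (by linarith [hx.2])) (hU hs.ha hs.ha')
  have a2 := Sheet_annu hs.comm_wallT hK hg (s := 2) (r₁ := 1 / 4) (r₂ := 3 / 4) (by norm_num)
    (by norm_num) (t₁ := 1) (t₂ := B)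
    (fun x hx => Sheet_wall_mid A B (by linarith [hx.1]) (by linarith [hx.2]))
    (fun x hx => Sheet_wall_right A B (by linarith [hx.1]))
    (by rw [← neg_sub]; exact (hU hs.hb hs.hb').neg)
  have a3 := Sheet_annu hs.comm_wallT hK hg (s := 0) (r₁ := 7) (r₂ := 9) (by norm_num)
    (by norm_num) (t₁ := A) (t₂ := B) (fun x hx => Sheet_wall_left A B (by linarith [hx.2]))
    (fun x hx => Sheet_wall_right A B (by linarith [hx.1])) hs.hAB
  have cl : ∀ s r₁ r₂, IsClosed (K₀ ×ˢ annu s r₁ r₂) := fun s r₁ r₂ =>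
    (hK.prod (isCompact_annu s r₁ r₂)).isClosed
  intro z hz
  rw [ann, prod_union, prod_union] at hz ⊢
  rw [Bd_union_of_disjoint _ ((cl _ _ _).union (cl _ _ _)) (cl _ _ _),
    Bd_union_of_disjoint _ (cl _ _ _) (cl _ _ _)]
  · exact ⟨⟨a1 (Zc_mono _ (subset_union_left.trans subset_union_left) hz),
      a2 (Zc_mono _ (subset_union_right.trans subset_union_left) hz)⟩,
      a3 (Zc_mono _ subset_union_right hz)⟩
  · rw [Set.disjoint_left]
    intro q h1 h2
    have := (SheetBasic_dia_add q.2).1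
    linarith [h1.2.2, h2.2.2]
  · rw [Set.disjoint_left]
    intro q h1 h2
    obtain ⟨-, d2, d3⟩ := SheetBasic_dia_add q.2
    rcases h1 with h1 | h1 <;> linarith [h1.2.2, h2.2.1]

theorem kapT_vanAt (g : Sys X V) (A B : (Module.End ℝ V)ˣ) (a b : Module.End ℝ V) (c : Coch X V)
    {q : X × ℝ × ℝ} (hq : q.2 ∉ closure pantsS) : VanAt (kapT g A B a b c) q := by
  apply vanAt_cut_of_compl_mem
  filter_upwards [continuous_snd.continuousAt.preimage_mem_nhds
    (isClosed_closure.isOpen_compl.mem_nhds hq)] with y hy hy'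
  exact hy (subset_closure hy')

/-- The connecting class lives on the middle wall. -/
theorem SheetOK.kap_vanAt (hs : SheetOK h g A B a b) {c : Coch X V} {q : X × ℝ × ℝ}
    (hc : VanAt (delta g c) q.1) (hq : q.2.2 ≠ 0 ∨ 2 < |q.2.1|) :
    VanAt (kap g (wallT A B) (Ioo (-2) 2) c) q := by
  rcases hq with h0 | h1
  · exact Halves_kap_off _ hc h0
  · apply vanAt_cut_of_compl_mem
    have c21 : Continuous (fun q : X × ℝ × ℝ => q.2.1) := by fun_prop
    filter_upwards [(isOpen_lt continuous_const c21.abs).mem_nhds h1] with y hy hy'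
    exact lt_asymm hy (abs_lt.2 hy')

/-- The corrected class vanishes inside the punctured squares and far away.  Hint: off the wall
everything is a cocycle; on the wall left of `-2`, `act (mUp t) (eHole A a c) ≡ pull fst (A a c)`;
on the wall right of `-2`, `eHole A a c = pull fst (a c) + cut up (pull fst c)`. -/
theorem SheetOK.kapRaw_vanAt (hs : SheetOK h g A B a b) {c : Coch X V} {q : X × ℝ × ℝ}
    (hc : VanAt (delta g c) q.1) (hq₀ : q.2 ∈ pantsB)
    (hq : q.2 ∈ sqr (-2) ∨ q.2 ∈ sqr 2 ∨ 5 ≤ dia 0 q.2) : VanAt (kapRaw g A B a b c) q := by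
  obtain ⟨d1, d2, d3⟩ := SheetBasic_dia_add q.2
  change VanAt (kap g (wallT A B) (Ioo (-2) 2) c -
    delta (sheet g (wallT A B)) (cut {q : X × ℝ × ℝ | q.2 ∈ sqr (-2)} (eHole A a c)) -
    delta (sheet g (wallT A B)) (cut {q : X × ℝ × ℝ | q.2 ∈ sqr 2} (eHole B b c))) q
  rcases hq with h1 | h1 | h1
  · obtain ⟨h2, h3⟩ := abs_lt.1 h1.1
    have hd : dia (-2) q.2 < 2 := by simp only [dia]; linarith [h1.1, h1.2]
    have e1 := (vanAt_cut_sub (S := {q : X × ℝ × ℝ | q.2 ∈ sqr (-2)})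
      (((isOpen_sqr (-2)).preimage continuous_snd).mem_nhds h1)
      (eHole (A : Module.End ℝ V) a c)).delta (sheet g (wallT A B))
    have e2 := (vanAt_cut_of_compl_mem (Sheet_sqr_far (s := 2) (q := q) (by linarith))
      (eHole (B : Module.End ℝ V) b c)).delta (sheet g (wallT A B))
    have e3 := Sheet_hole hs.comm_wallT hs.commA (fun x y => (hs.comm_a x y).1) hs.ha' hc (q := q)
      (by
        by_cases h0 : q.2.2 = 0
        · right
          rcases lt_trichotomy q.2.1 (-2) with h4 | h4 | h4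
          · exact Or.inl ⟨h0, lt_abs.2 (Or.inr (by linarith)), Sheet_wall_left A B h4⟩
          · have := hq₀.2.1
            simp only [dia, h0, h4, sub_self, abs_zero, add_zero] at this
            linarith
          · exact Or.inr ⟨abs_lt.2 ⟨h4, by linarith⟩, Sheet_wall_mid A B h4 (by linarith)⟩
        · exact Or.inl h0)
    convert (e3.sub e1).sub e2 using 1
    rw [map_sub]
    abel
  · obtain ⟨h2, h3⟩ := abs_lt.1 h1.1
    have hd : dia 2 q.2 < 2 := by simp only [dia]; linarith [h1.1, h1.2]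
    have e1 := (vanAt_cut_sub (S := {q : X × ℝ × ℝ | q.2 ∈ sqr 2})
      (((isOpen_sqr 2).preimage continuous_snd).mem_nhds h1)
      (eHole (B : Module.End ℝ V) b c)).delta (sheet g (wallT A B))
    have e2 := (vanAt_cut_of_compl_mem (Sheet_sqr_far (s := -2) (q := q) (by linarith))
      (eHole (A : Module.End ℝ V) a c)).delta (sheet g (wallT A B))
    have e3 := Sheet_hole hs.comm_wallT hs.commB (fun x y => (hs.comm_a x y).2) hs.hb' hc (q := q)
      (by
        by_cases h0 : q.2.2 = 0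
        · right
          rcases lt_trichotomy q.2.1 2 with h4 | h4 | h4
          · exact Or.inr ⟨abs_lt.2 ⟨by linarith, h4⟩, Sheet_wall_mid A B (by linarith) h4⟩
          · have := hq₀.2.2
            simp only [dia, h0, h4, sub_self, abs_zero, add_zero] at this
            linarith
          · exact Or.inl ⟨h0, lt_abs.2 (Or.inl h4), Sheet_wall_right A B h4⟩
        · exact Or.inl h0)
    convert (e3.sub e1).sub e2 using 1
    rw [map_sub]
    abel
  · refine VanAt.sub (VanAt.sub ?_ ?_) ?_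
    · apply hs.kap_vanAt hc
      by_cases h0 : q.2.2 = 0
      · right
        simp only [dia, h0, sub_zero, abs_zero, add_zero] at h1
        linarith
      · exact Or.inl h0
    · exact (vanAt_cut_of_compl_mem (Sheet_sqr_far (by linarith)) _).delta _
    · exact (vanAt_cut_of_compl_mem (Sheet_sqr_far (by linarith)) _).delta _

theorem SheetOK.kapT_sub_raw (hs : SheetOK h g A B a b) {K₀ : Set X} {c : Coch X V}
    (hc : c ∈ Zc g K₀) : kapT g A B a b c - kapRaw g A B a b c ∈ Van V (K₀ ×ˢ pantsB) := by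
  intro q hq
  by_cases h1 : q.2 ∈ pantsS
  · exact vanAt_cut_sub ((isOpen_pantsS.preimage continuous_snd).mem_nhds h1) _
  · have : VanAt (kapRaw g A B a b c) q := by
      apply hs.kapRaw_vanAt (hc _ hq.1) hq.2
      by_contra h2
      push Not at h2
      obtain ⟨h2, h3, h4⟩ := h2
      apply h1
      have e1 := abs_nonneg q.2.2
      refine ⟨by linarith, ?_, ?_⟩
      · by_contra h5
        have e2 := abs_nonneg (q.2.1 - -2)
        simp only [dia, not_lt] at h5
        exact h2 ⟨by linarith, by linarith⟩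
      · by_contra h5
        have e2 := abs_nonneg (q.2.1 - 2)
        simp only [dia, not_lt] at h5
        exact h3 ⟨by linarith, by linarith⟩
    exact (this.cut _).sub this

theorem SheetOK.kapT_sub_kap (hs : SheetOK h g A B a b) {K₀ : Set X} {c : Coch X V}
    (hc : c ∈ Zc g K₀) : kapT g A B a b c - kap g (wallT A B) (Ioo (-2) 2) c ∈
      Bd (sheet g (wallT A B)) (K₀ ×ˢ pantsB) := by
  have h1 := Van_le_Bd (sheet g (wallT A B)) _ (hs.kapT_sub_raw hc)
  have h2 := delta_mem_Bd (sheet g (wallT A B)) (K₀ ×ˢ pantsB)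
    (cut {q : X × ℝ × ℝ | q.2 ∈ sqr (-2)} (eHole (A : Module.End ℝ V) a c))
  have h3 := delta_mem_Bd (sheet g (wallT A B)) (K₀ ×ˢ pantsB)
    (cut {q : X × ℝ × ℝ | q.2 ∈ sqr 2} (eHole (B : Module.End ℝ V) b c))
  convert Submodule.sub_mem _ (Submodule.sub_mem _ h1 h2) h3 using 1
  have : kapRaw g A B a b c = kap g (wallT A B) (Ioo (-2) 2) c -
    delta (sheet g (wallT A B)) (cut {q : X × ℝ × ℝ | q.2 ∈ sqr (-2)} (eHole A a c)) -
    delta (sheet g (wallT A B)) (cut {q : X × ℝ × ℝ | q.2 ∈ sqr 2} (eHole B b c)) := rfl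
  rw [this]
  abel

theorem SheetOK.kap_mem_Zc (hs : SheetOK h g A B a b) {K₀ : Set X} (hg : ∀ x ∈ K₀, CocAt g x)
    {c : Coch X V} (hc : c ∈ Zc g K₀) :
    kap g (wallT A B) (Ioo (-2) 2) c ∈ Zc (sheet g (wallT A B)) (K₀ ×ˢ pantsB) := by
  intro q hq
  by_cases h1 : q.2.2 ≠ 0 ∨ 2 < |q.2.1|
  · exact (hs.kap_vanAt (hc _ hq.1) h1).delta _
  · push Not at h1
    obtain ⟨h0, h1⟩ := h1
    obtain ⟨h2, h3⟩ := abs_le.1 h1
    have c21 : Continuous (fun q : X × ℝ × ℝ => q.2.1) := by fun_prop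
    have h4 : q.2.1 ≠ -2 := by
      intro h4
      have := hq.2.2.1
      simp only [dia, h0, h4, sub_self, abs_zero, add_zero] at this
      linarith
    have h5 : q.2.1 ≠ 2 := by
      intro h5
      have := hq.2.2.2
      simp only [dia, h0, h5, sub_self, abs_zero, add_zero] at this
      linarith
    have hn : {q : X × ℝ × ℝ | q.2.1 ∈ Ioo (-2 : ℝ) 2} ∈ 𝓝 q :=
      c21.continuousAt.preimage_mem_nhds
        (Ioo_mem_nhds (lt_of_le_of_ne h2 h4.symm) (lt_of_le_of_ne h3 h5))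
    have e1 := (vanAt_cut_sub hn (delta (sheet g (wallT A B))
      (cut (upS X) (pull Prod.fst c)))).delta (sheet g (wallT A B))
    rw [map_sub] at e1
    exact VanAt.of_sub e1 (vanAt_delta_delta (hs.cocAt (hg _ hq.1) hq.2) _)

theorem SheetOK.kapT_mem_Zc (hs : SheetOK h g A B a b) {K₀ : Set X} (hg : ∀ x ∈ K₀, CocAt g x)
    {c : Coch X V} (hc : c ∈ Zc g K₀) :
    kapT g A B a b c ∈ Zc (sheet g (wallT A B)) (K₀ ×ˢ pantsB) := by
  have h1 := Bd_le_Zc (fun q hq => hs.cocAt (hg _ hq.1) hq.2) (hs.kapT_sub_kap hc)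
  have := Submodule.add_mem _ h1 (hs.kap_mem_Zc hg hc)
  rwa [sub_add_cancel] at this

theorem SheetOK.kapT_span (hs : SheetOK h g A B a b) {K₀ : Set X} (hK : IsCompact K₀)
    (hg : ∀ x ∈ K₀, CocAt g x) {z : Coch (X × ℝ × ℝ) V}
    (hz : z ∈ Zc (sheet g (wallT A B)) (K₀ ×ˢ pantsB)) :
    ∃ c ∈ Zc g K₀, z - kapT g A B a b c ∈ Bd (sheet g (wallT A B)) (K₀ ×ˢ pantsB) := by
  obtain ⟨c, hc, hc'⟩ := halves hs.comm_wallT hK hg isCompact_pantsB (su := (0, 9)) (sd := (0, -9))
    ⟨by simp only [pantsB, dia, mem_ofPred_eq]; norm_num, by simp⟩ starConvex_pantsB_up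
    ⟨by simp only [pantsB, dia, mem_ofPred_eq]; norm_num, by simp⟩ starConvex_pantsB_dn
    (a₁ := -9) (b₁ := -9 / 4) (a₂ := 9 / 4) (b₂ := 9) (a₃ := -7 / 4) (b₃ := 7 / 4)
    (by norm_num) (by norm_num) (by norm_num)
    (by
      intro x
      simp only [pantsB, dia, mem_ofPred_eq, abs_zero, add_zero, mem_Icc, sub_zero]
      constructor
      · rintro ⟨h1, h2, h3⟩
        obtain ⟨h4, h5⟩ := abs_le.1 h1
        rcases le_abs.1 h2 with h6 | h6
        · rcases le_abs.1 h3 with h7 | h7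
          · exact Or.inr (Or.inl ⟨by linarith, by linarith⟩)
          · exact Or.inr (Or.inr ⟨by linarith, by linarith⟩)
        · exact Or.inl ⟨by linarith, by linarith⟩
      · rintro (⟨h2, h3⟩ | ⟨h2, h3⟩ | ⟨h2, h3⟩)
        · exact ⟨abs_le.2 ⟨by linarith, by linarith⟩, le_abs.2 (Or.inr (by linarith)),
            le_abs.2 (Or.inr (by linarith))⟩
        · exact ⟨abs_le.2 ⟨by linarith, by linarith⟩, le_abs.2 (Or.inl (by linarith)),
            le_abs.2 (Or.inl (by linarith))⟩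
        · exact ⟨abs_le.2 ⟨by linarith, by linarith⟩, le_abs.2 (Or.inl (by linarith)),
            le_abs.2 (Or.inr (by linarith))⟩)
    (N₃ := Ioo (-2) 2) (fun x hx => Ioo_mem_nhds (by linarith [hx.1]) (by linarith [hx.2]))
    (by
      rintro x (hx | hx)
      · filter_upwards [Iio_mem_nhds (show x < -2 by linarith [hx.2])] with y hy hy'
        exact lt_asymm hy'.1 hy
      · filter_upwards [Ioi_mem_nhds (show 2 < x by linarith [hx.1])] with y hy hy'
        exact lt_asymm hy'.2 hy)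
    (t₁ := A) (t₂ := B) (fun x hx => Sheet_wall_left A B (by linarith [hx.2]))
    (fun x hx => Sheet_wall_right A B (by linarith [hx.1]))
    (fun x hx => Sheet_wall_mid A B (by linarith [hx.1]) (by linarith [hx.2])) hs.hAB hz
  refine ⟨c, hc, ?_⟩
  convert Submodule.sub_mem _ hc' (hs.kapT_sub_kap hc) using 1
  abel

end Crest.Agent.R217
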