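import Crest.Agent.R217.SheetGeom

set_option autoImplicit false
set_option linter.unusedSectionVars false
open Set Filter Topology

namespace Crest.Agent.R217

/-! Basic facts on sheets: planar geometry, gauges, local systems. -/

variable {X V : Type*} [AddCommGroup V] [Module ℝ V]

/-- Orthogonal units. -/
def SheetBasic_orth (h : V →ₗ[ℝ] V →ₗ[ℝ] ℝ) : Subgroup (Module.End ℝ V)ˣ where
  carrier := {u | IsOrth h (u : Module.End ℝ V)}
  mul_mem' := by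
    intro u w hu hw x y
    simp only [Units.val_mul, Module.End.mul_apply]
    rw [hu, hw]
  one_mem' := fun x y => rfl
  inv_mem' := by
    intro u hu x y
    rw [← hu, ← Module.End.mul_apply, ← Module.End.mul_apply, Units.mul_inv]
    rfl

/-- Units commuting with `f`. -/
def SheetBasic_comm (f : Module.End ℝ V) : Subgroup (Module.End ℝ V)ˣ where
  carrier := {u | Commute f (u : Module.End ℝ V)}
  mul_mem' := fun hu hw => by simpa using Commute.mul_right hu hw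
  one_mem' := by simp
  inv_mem' := fun hu => Commute.units_inv_right hu

theorem SheetBasic_wallT {H : Subgroup (Module.End ℝ V)ˣ} {A B : (Module.End ℝ V)ˣ} (hA : A ∈ H)
    (hB : B ∈ H) (s : ℝ) : wallT A B s ∈ H := by
  unfold wallT
  split_ifs
  exacts [hA, hB, H.one_mem]

theorem SheetBasic_mUp {H : Subgroup (Module.End ℝ V)ˣ} {t : ℝ → (Module.End ℝ V)ˣ}
    (ht : ∀ s, t s ∈ H) (w : ℝ × ℝ) : mUp t w ∈ H := by
  unfold mUp
  split_ifs
  exacts [H.one_mem, ht _]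

theorem SheetBasic_mDn {H : Subgroup (Module.End ℝ V)ˣ} {t : ℝ → (Module.End ℝ V)ˣ}
    (ht : ∀ s, t s ∈ H) (w : ℝ × ℝ) : mDn t w ∈ H := by
  unfold mDn
  split_ifs
  exacts [H.inv_mem (ht _), H.one_mem]

theorem SheetBasic_rho {H : Subgroup (Module.End ℝ V)ˣ} {t : ℝ → (Module.End ℝ V)ˣ}
    (ht : ∀ s, t s ∈ H) (w w' : ℝ × ℝ) : rho t w w' ∈ H := by
  unfold rho
  split_ifs
  exacts [H.one_mem, H.mul_mem (H.inv_mem (SheetBasic_mUp ht _)) (SheetBasic_mUp ht _)]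

theorem SheetBasic_qf {H : Subgroup (Module.End ℝ V)ˣ} {QL QR Qu Qd : (Module.End ℝ V)ˣ}
    (hL : QL ∈ H) (hR : QR ∈ H) (hu : Qu ∈ H) (hd : Qd ∈ H) (w : ℝ × ℝ) :
    qf QL QR Qu Qd w ∈ H := by
  unfold qf
  split_ifs
  exacts [hL, hR, hu, hd]

theorem SheetBasic_dbl {H : Subgroup (Module.End ℝ V)ˣ} {A B QL QR Qu Qd : (Module.End ℝ V)ˣ}
    (hA : A ∈ H) (hB : B ∈ H) (hL : QL ∈ H) (hR : QR ∈ H) (hu : Qu ∈ H) (hd : Qd ∈ H)
    (g : Sys X V) (Θ : Set X) (q q' : X × ℝ × ℝ) :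
    ∃ u ∈ H, dbl g Θ A B QL QR Qu Qd q q' = g q.1 q'.1 * (u : Module.End ℝ V) := by
  refine ⟨_, ?_, rfl⟩
  have h1 := SheetBasic_rho (SheetBasic_wallT hA hB) q.2 q'.2
  have h2 := SheetBasic_rho (SheetBasic_wallT (H.inv_mem hA) (H.inv_mem hB)) q.2 q'.2
  split_ifs
  exacts [h1, H.mul_mem h1 (SheetBasic_qf hL hR hu hd _),
    H.mul_mem (H.inv_mem (SheetBasic_qf hL hR hu hd _)) h1, h2]

theorem SheetBasic_orth_mul {h : V →ₗ[ℝ] V →ₗ[ℝ] ℝ} {f f' : Module.End ℝ V} (hf : IsOrth h f)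
    (hf' : IsOrth h f') : IsOrth h (f * f') := by
  intro x y
  simp only [Module.End.mul_apply]
  rw [hf, hf']

theorem SheetBasic_comm_inv {f u a : Module.End ℝ V} (hc : f * u = u * f) (ha : a * (u - 1) = 1)
    (ha' : (u - 1) * a = 1) : f * a = a * f := by
  have h1 : f * (u - 1) = (u - 1) * f := by rw [mul_sub, sub_mul, hc, mul_one, one_mul]
  calc f * a = (a * (u - 1)) * f * a := by rw [ha, one_mul]
    _ = a * (f * (u - 1)) * a := by rw [h1]; simp only [mul_assoc]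
    _ = a * f * ((u - 1) * a) := by simp only [mul_assoc]
    _ = a * f := by rw [ha', mul_one]

theorem SheetBasic_inv_cayley {A : (Module.End ℝ V)ˣ} {a : Module.End ℝ V}
    (ha : a * (A - 1) = 1) (ha' : (A - 1) * a = 1) :
    (-1 - a) * (((A⁻¹ : (Module.End ℝ V)ˣ) : Module.End ℝ V) - 1) = 1 ∧
      (((A⁻¹ : (Module.End ℝ V)ˣ) : Module.End ℝ V) - 1) * (-1 - a) = 1 := by
  have h1 : a * A = 1 + a := by
    rw [mul_sub, mul_one] at ha; rw [← ha]; abel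
  have h2 : A * a = 1 + a := by
    rw [sub_mul, one_mul] at ha'; rw [← ha']; abel
  have h3 : (1 + a) * ((A⁻¹ : (Module.End ℝ V)ˣ) : Module.End ℝ V) = a := by
    rw [← h1, mul_assoc, Units.mul_inv, mul_one]
  have h4 : ((A⁻¹ : (Module.End ℝ V)ˣ) : Module.End ℝ V) * (1 + a) = a := by
    rw [← h2, ← mul_assoc, Units.inv_mul, one_mul]
  have h5 : (-1 - a) = -(1 + a) := by abel
  constructor
  · rw [h5, mul_sub, neg_mul, h3, mul_one]; abel
  · rw [h5, sub_mul, mul_neg, h4, one_mul]; abel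

theorem wallT_eventually (A B : (Module.End ℝ V)ˣ) {s : ℝ} (h₁ : s ≠ -2) (h₂ : s ≠ 2) :
    ∀ᶠ s' in 𝓝 s, wallT A B s' = wallT A B s := by
  rcases lt_or_gt_of_ne h₁ with h | h
  · filter_upwards [Iio_mem_nhds h] with s' hs'
    simp only [wallT, if_pos h, if_pos (show s' < -2 from hs')]
  · rcases lt_or_gt_of_ne h₂ with h' | h'
    · filter_upwards [Ioo_mem_nhds h h'] with s' hs'
      simp only [wallT, if_neg h.not_gt, if_neg h'.not_gt, if_neg hs'.1.not_gt,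
        if_neg hs'.2.not_gt]
    · filter_upwards [Ioi_mem_nhds h'] with s' hs'
      have h3 : (2 : ℝ) < s' := hs'
      simp only [wallT, if_neg h.not_gt, if_pos h', if_neg (show ¬ s' < -2 by linarith),
        if_pos h3]

theorem SheetOK.comm_wallT {h : V →ₗ[ℝ] V →ₗ[ℝ] ℝ} {g : Sys X V} {A B : (Module.End ℝ V)ˣ}
    {a b : Module.End ℝ V} (hs : SheetOK h g A B a b) (x y : X) (s : ℝ) :
    g x y * wallT A B s = wallT A B s * g x y := by
  exact SheetBasic_wallT (H := SheetBasic_comm (g x y)) (hs.commA x y) (hs.commB x y) s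

theorem SheetOK.orth_sheet {h : V →ₗ[ℝ] V →ₗ[ℝ] ℝ} {g : Sys X V} {A B : (Module.End ℝ V)ˣ}
    {a b : Module.End ℝ V} (hs : SheetOK h g A B a b) (q q' : X × ℝ × ℝ) :
    IsOrth h (sheet g (wallT A B) q q') := by
  exact SheetBasic_orth_mul (hs.orth _ _)
    (SheetBasic_rho (H := SheetBasic_orth h) (SheetBasic_wallT hs.orthA hs.orthB) _ _)

theorem SheetOK.comm_a {h : V →ₗ[ℝ] V →ₗ[ℝ] ℝ} {g : Sys X V} {A B : (Module.End ℝ V)ˣ}
    {a b : Module.End ℝ V} (hs : SheetOK h g A B a b) (x y : X) :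
    g x y * a = a * g x y ∧ g x y * b = b * g x y := by
  exact ⟨SheetBasic_comm_inv (hs.commA x y) hs.ha hs.ha',
    SheetBasic_comm_inv (hs.commB x y) hs.hb hs.hb'⟩

theorem SheetOK.inv {h : V →ₗ[ℝ] V →ₗ[ℝ] ℝ} {g : Sys X V} {A B : (Module.End ℝ V)ˣ}
    {a b : Module.End ℝ V} (hs : SheetOK h g A B a b) :
    SheetOK h g A⁻¹ B⁻¹ (-1 - a) (-1 - b) := by
  refine ⟨hs.orth, (SheetBasic_orth h).inv_mem hs.orthA, (SheetBasic_orth h).inv_mem hs.orthB,
    fun x y => (SheetBasic_comm (g x y)).inv_mem (hs.commA x y),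
    fun x y => (SheetBasic_comm (g x y)).inv_mem (hs.commB x y),
    (SheetBasic_inv_cayley hs.ha hs.ha').1, (SheetBasic_inv_cayley hs.ha hs.ha').2,
    (SheetBasic_inv_cayley hs.hb hs.hb').1, (SheetBasic_inv_cayley hs.hb hs.hb').2, ?_⟩
  have : ((A⁻¹ : (Module.End ℝ V)ˣ) : Module.End ℝ V) - (B⁻¹ : (Module.End ℝ V)ˣ) =
      -(((A⁻¹ : (Module.End ℝ V)ˣ) : Module.End ℝ V) * ((A : Module.End ℝ V) - B) *
        (B⁻¹ : (Module.End ℝ V)ˣ)) := by
    rw [mul_sub, Units.inv_mul, sub_mul, one_mul, mul_assoc, Units.mul_inv, mul_one, neg_sub]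
  rw [this]
  exact (((Units.isUnit _).mul hs.hAB).mul (Units.isUnit _)).neg

theorem StepOK.orth_dbl {h : V →ₗ[ℝ] V →ₗ[ℝ] ℝ} {g : Sys X V}
    {A B QL QR Qu Qd : (Module.End ℝ V)ˣ} {a b : Module.End ℝ V}
    (hs : StepOK h g A B QL QR Qu Qd a b) (Θ : Set X) (q q' : X × ℝ × ℝ) :
    IsOrth h (dbl g Θ A B QL QR Qu Qd q q') := by
  obtain ⟨u, hu, he⟩ := SheetBasic_dbl (H := SheetBasic_orth h) hs.sh.orthA hs.sh.orthB hs.orthL
    hs.orthR hs.orthU hs.orthD g Θ q q'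
  rw [he]
  exact SheetBasic_orth_mul (hs.sh.orth _ _) hu

theorem dbl_comm {g : Sys X V} {A B QL QR Qu Qd : (Module.End ℝ V)ˣ} {f : Module.End ℝ V}
    (hg : ∀ x y, g x y * f = f * g x y) (hA : A * f = f * A) (hB : B * f = f * B)
    (hL : QL * f = f * QL) (hR : QR * f = f * QR) (hu : Qu * f = f * Qu) (hd : Qd * f = f * Qd)
    (Θ : Set X) (q q' : X × ℝ × ℝ) :
    dbl g Θ A B QL QR Qu Qd q q' * f = f * dbl g Θ A B QL QR Qu Qd q q' := by
  obtain ⟨u, hu', he⟩ := SheetBasic_dbl (H := SheetBasic_comm f) hA.symm hB.symm hL.symm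
    hR.symm hu.symm hd.symm g Θ q q'
  have h1 : f * u = u * f := hu'
  rw [he, mul_assoc, ← h1, ← mul_assoc, hg, mul_assoc]

variable [TopologicalSpace X]

theorem CocAt.of_gauge {Y : Type*} [TopologicalSpace Y] {g g' : Sys Y V}
    {γ : Y → (Module.End ℝ V)ˣ} {y : Y} (hγ : IntAt (fun y => (γ y : Module.End ℝ V)) g g' y)
    (hg' : CocAt g' y) : CocAt g y := by
  obtain ⟨N, hN, hγ⟩ := hγ
  obtain ⟨N', hN', h1, h2⟩ := hg'
  have key : ∀ x ∈ N, ∀ z ∈ N, g x z =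
      (((γ x)⁻¹ : (Module.End ℝ V)ˣ) : Module.End ℝ V) * g' x z * γ z := by
    intro x hx z hz
    have : g' x z * γ z = γ x * g x z := hγ x hx z hz
    rw [mul_assoc, this, ← mul_assoc, Units.inv_mul, one_mul]
  refine ⟨N ∩ N', inter_mem hN hN', fun x hx => ?_, fun x hx z hz w hw => ?_⟩
  · rw [key x hx.1 x hx.1, h1 x hx.2, mul_one, Units.inv_mul]
  · rw [key x hx.1 z hz.1, key z hz.1 w hw.1, key x hx.1 w hw.1, ← h2 x hx.2 z hz.2 w hw.2]
    simp only [mul_assoc, Units.mul_inv_cancel_left]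

theorem IntAt.inv_units {Y : Type*} [TopologicalSpace Y] {g g' : Sys Y V}
    {γ : Y → (Module.End ℝ V)ˣ} {y : Y} (hγ : IntAt (fun y => (γ y : Module.End ℝ V)) g g' y) :
    IntAt (fun y => ((γ y)⁻¹ : (Module.End ℝ V)ˣ)) g' g y := by
  obtain ⟨N, hN, hγ⟩ := hγ
  refine ⟨N, hN, fun x hx z hz => ?_⟩
  have : g' x z * γ z = γ x * g x z := hγ x hx z hz
  change g x z * (((γ z)⁻¹ : (Module.End ℝ V)ˣ) : Module.End ℝ V) =
    (((γ x)⁻¹ : (Module.End ℝ V)ˣ) : Module.End ℝ V) * g' x z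
  rw [Units.mul_inv_eq_iff_eq_mul, mul_assoc, this, Units.inv_mul_cancel_left]

theorem SheetBasic_intAt {g : Sys X V} {t : ℝ → (Module.End ℝ V)ˣ}
    {m : ℝ × ℝ → (Module.End ℝ V)ˣ} (hm : ∀ x y w, g x y * m w = m w * g x y) {q : X × ℝ × ℝ}
    (hN : ∃ N ∈ 𝓝 q.2, ∀ w ∈ N, ∀ w' ∈ N, m w * rho t w w' = m w') :
    IntAt (fun q : X × ℝ × ℝ => (m q.2 : Module.End ℝ V)) (sheet g t) (pullS Prod.fst g) q := by
  obtain ⟨N, hN, h⟩ := hN
  refine ⟨Prod.snd ⁻¹' N, continuous_snd.continuousAt.preimage_mem_nhds hN,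
    fun x hx z hz => ?_⟩
  change g x.1 z.1 * m z.2 = m x.2 * (g x.1 z.1 * rho t x.2 z.2)
  rw [← mul_assoc, ← hm, mul_assoc, ← Units.val_mul, h _ hx _ hz]

theorem SheetBasic_up {w : ℝ × ℝ} (h : 0 < w.2) : {w : ℝ × ℝ | 0 < w.2} ∈ 𝓝 w :=
  (isOpen_lt continuous_const continuous_snd).mem_nhds h

theorem SheetBasic_dn {w : ℝ × ℝ} (h : w.2 < 0) : {w : ℝ × ℝ | w.2 < 0} ∈ 𝓝 w :=
  (isOpen_lt continuous_snd continuous_const).mem_nhds h

theorem intAt_mUp {g : Sys X V} {t : ℝ → (Module.End ℝ V)ˣ}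
    (hc : ∀ x y s, g x y * t s = t s * g x y) {q : X × ℝ × ℝ}
    (hq : 0 < q.2.2 ∨ (q.2.2 = 0 ∧ ∀ᶠ s in 𝓝 q.2.1, t s = t q.2.1)) :
    IntAt (fun q : X × ℝ × ℝ => (mUp t q.2 : Module.End ℝ V)) (sheet g t) (pullS Prod.fst g) q := by
  apply SheetBasic_intAt (fun x y w => SheetBasic_mUp (H := SheetBasic_comm (g x y)) (hc x y) w)
  rcases hq with h | ⟨-, h⟩
  · refine ⟨_, SheetBasic_up h, fun w hw w' hw' => ?_⟩
    have h1 : 0 < w.2 := hw
    have h2 : 0 < w'.2 := hw'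
    simp [mUp, rho, h1, h2]
  · refine ⟨_, continuous_fst.continuousAt.eventually h, fun w hw w' hw' => ?_⟩
    have h1 : t w.1 = t q.2.1 := hw
    have h2 : t w'.1 = t q.2.1 := hw'
    by_cases h3 : 0 < w.2 <;> by_cases h4 : 0 < w'.2 <;> simp [mUp, rho, h1, h2, h3, h4]

theorem intAt_mDn {g : Sys X V} {t : ℝ → (Module.End ℝ V)ˣ}
    (hc : ∀ x y s, g x y * t s = t s * g x y) {q : X × ℝ × ℝ}
    (hq : q.2.2 < 0 ∨ (q.2.2 = 0 ∧ ∀ᶠ s in 𝓝 q.2.1, t s = t q.2.1)) :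
    IntAt (fun q : X × ℝ × ℝ => (mDn t q.2 : Module.End ℝ V)) (sheet g t) (pullS Prod.fst g) q := by
  apply SheetBasic_intAt (fun x y w => SheetBasic_mDn (H := SheetBasic_comm (g x y)) (hc x y) w)
  rcases hq with h | ⟨-, h⟩
  · refine ⟨_, SheetBasic_dn h, fun w hw w' hw' => ?_⟩
    have h1 : ¬ 0 < w.2 := not_lt.2 (le_of_lt hw)
    have h2 : ¬ 0 < w'.2 := not_lt.2 (le_of_lt hw')
    simp [mDn, rho, h1, h2]
  · refine ⟨_, continuous_fst.continuousAt.eventually h, fun w hw w' hw' => ?_⟩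
    have h1 : t w.1 = t q.2.1 := hw
    have h2 : t w'.1 = t q.2.1 := hw'
    by_cases h3 : 0 < w.2 <;> by_cases h4 : 0 < w'.2 <;> simp [mUp, mDn, rho, h1, h2, h3, h4]

/-- Where the wall is absent or trivial the sheet is the pull-back. -/
theorem sheet_eq_pull (g : Sys X V) (t : ℝ → (Module.End ℝ V)ˣ) {q : X × ℝ × ℝ}
    (hq : q.2.2 ≠ 0 ∨ ∀ᶠ s in 𝓝 q.2.1, t s = 1) :
    ∃ N ∈ 𝓝 q, ∀ y ∈ N, ∀ z ∈ N, sheet g t y z = pullS Prod.fst g y z := by
  suffices H : ∃ N ∈ 𝓝 q.2, ∀ w ∈ N, ∀ w' ∈ N, rho t w w' = 1 by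
    obtain ⟨N, hN, h⟩ := H
    refine ⟨Prod.snd ⁻¹' N, continuous_snd.continuousAt.preimage_mem_nhds hN,
      fun x hx z hz => ?_⟩
    simp [sheet, h _ hx _ hz]
  rcases hq with h | h
  · rcases lt_or_gt_of_ne h with h | h
    · refine ⟨_, SheetBasic_dn h, fun w hw w' hw' => ?_⟩
      have h1 : ¬ 0 < w.2 := not_lt.2 (le_of_lt hw)
      have h2 : ¬ 0 < w'.2 := not_lt.2 (le_of_lt hw')
      simp [rho, h1, h2]
    · refine ⟨_, SheetBasic_up h, fun w hw w' hw' => ?_⟩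
      have h1 : 0 < w.2 := hw
      have h2 : 0 < w'.2 := hw'
      simp [rho, h1, h2]
  · refine ⟨_, continuous_fst.continuousAt.eventually h, fun w hw w' hw' => ?_⟩
    have h1 : t w.1 = 1 := hw
    have h2 : t w'.1 = 1 := hw'
    by_cases h3 : 0 < w.2 <;> by_cases h4 : 0 < w'.2 <;> simp [mUp, rho, h1, h2, h3, h4]

theorem cocAt_sheet {g : Sys X V} {t : ℝ → (Module.End ℝ V)ˣ}
    (hc : ∀ x y s, g x y * t s = t s * g x y) {q : X × ℝ × ℝ} (hg : CocAt g q.1)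
    (hq : q.2.2 ≠ 0 ∨ ∀ᶠ s in 𝓝 q.2.1, t s = t q.2.1) : CocAt (sheet g t) q := by
  have hg' : CocAt (pullS Prod.fst g : Sys (X × ℝ × ℝ) V) q := hg.pullS continuous_fst.continuousAt
  rcases lt_trichotomy q.2.2 0 with h | h | h
  · exact CocAt.of_gauge (γ := fun q => mDn t q.2) (intAt_mDn hc (Or.inl h)) hg'
  · exact CocAt.of_gauge (γ := fun q => mDn t q.2)
      (intAt_mDn hc (Or.inr ⟨h, hq.resolve_left (not_not.2 h)⟩)) hg'
  · exact CocAt.of_gauge (γ := fun q => mUp t q.2) (intAt_mUp hc (Or.inl h)) hg'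

theorem SheetOK.cocAt {h : V →ₗ[ℝ] V →ₗ[ℝ] ℝ} {g : Sys X V} {A B : (Module.End ℝ V)ˣ}
    {a b : Module.End ℝ V} (hs : SheetOK h g A B a b) {q : X × ℝ × ℝ} (hg : CocAt g q.1)
    (hq : q.2 ∈ pantsB) : CocAt (sheet g (wallT A B)) q := by
  apply cocAt_sheet hs.comm_wallT hg
  by_cases h0 : q.2.2 = 0
  · right
    obtain ⟨-, h1, h2⟩ := hq
    apply wallT_eventually
    · intro h3
      simp [dia, h0, h3] at h1
      linarith
    · intro h3
      simp [dia, h0, h3] at h2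
      linarith
  · exact Or.inl h0

theorem dbl_eq_top (g : Sys X V) {Θ : Set X} (A B QL QR Qu Qd : (Module.End ℝ V)ˣ)
    {q : X × ℝ × ℝ} (hq : q.1 ∈ interior Θ) :
    ∃ N ∈ 𝓝 q, ∀ y ∈ N, ∀ z ∈ N, dbl g Θ A B QL QR Qu Qd y z = sheet g (wallT A B) y z := by
  refine ⟨Prod.fst ⁻¹' Θ, continuous_fst.continuousAt.preimage_mem_nhds
    (mem_interior_iff_mem_nhds.1 hq), fun y hy z hz => ?_⟩
  have h1 : y.1 ∈ Θ := hy
  have h2 : z.1 ∈ Θ := hz
  simp only [dbl, sheet, if_pos h1, if_pos h2]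

theorem dbl_eq_bot (g : Sys X V) {Θ : Set X} (A B QL QR Qu Qd : (Module.End ℝ V)ˣ)
    {q : X × ℝ × ℝ} (hq : q.1 ∈ interior Θᶜ) :
    ∃ N ∈ 𝓝 q, ∀ y ∈ N, ∀ z ∈ N, dbl g Θ A B QL QR Qu Qd y z = sheet g (wallT A⁻¹ B⁻¹) y z := by
  refine ⟨Prod.fst ⁻¹' Θᶜ, continuous_fst.continuousAt.preimage_mem_nhds
    (mem_interior_iff_mem_nhds.1 hq), fun y hy z hz => ?_⟩
  have h1 : y.1 ∉ Θ := hy
  have h2 : z.1 ∉ Θ := hz
  simp only [dbl, sheet, if_neg h1, if_neg h2]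

/-- Abstract form of the gluing relation near a point of an annulus. -/
theorem SheetBasic_glue {A B : (Module.End ℝ V)ˣ} {Q : ℝ × ℝ → (Module.End ℝ V)ˣ}
    {qu qd : (Module.End ℝ V)ˣ} {w₀ : ℝ × ℝ}
    (hQ : ∀ᶠ w in 𝓝 w₀, Q w = if 0 < w.2 then qu else qd)
    (hw : w₀.2 = 0 → w₀.1 ≠ -2 ∧ w₀.1 ≠ 2 ∧ wallT A B w₀.1 * qd * wallT A B w₀.1 = qu) :
    ∃ N ∈ 𝓝 w₀, ∀ w ∈ N, ∀ w' ∈ N,
      rho (wallT A B) w w' * Q w' = Q w * rho (wallT A⁻¹ B⁻¹) w w' := by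
  have hinv : ∀ s, wallT A⁻¹ B⁻¹ s = (wallT A B s)⁻¹ := by
    intro s
    unfold wallT
    split_ifs <;> simp
  rcases lt_trichotomy w₀.2 0 with h | h | h
  · refine ⟨_, inter_mem hQ (SheetBasic_dn h), fun w hw w' hw' => ?_⟩
    have h1 : ¬ 0 < w.2 := not_lt.2 (le_of_lt hw.2)
    have h2 : ¬ 0 < w'.2 := not_lt.2 (le_of_lt hw'.2)
    have h3 : Q w = if 0 < w.2 then qu else qd := hw.1
    have h4 : Q w' = if 0 < w'.2 then qu else qd := hw'.1
    simp [rho, h1, h2, h3, h4]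
  · obtain ⟨e1, e2, e3⟩ := hw h
    refine ⟨_, inter_mem hQ (continuous_fst.continuousAt.eventually (wallT_eventually A B e1 e2)),
      fun w hw w' hw' => ?_⟩
    have h1 : wallT A B w.1 = wallT A B w₀.1 := hw.2
    have h2 : wallT A B w'.1 = wallT A B w₀.1 := hw'.2
    have h3 : Q w = if 0 < w.2 then qu else qd := hw.1
    have h4 : Q w' = if 0 < w'.2 then qu else qd := hw'.1
    by_cases h5 : 0 < w.2 <;> by_cases h6 : 0 < w'.2 <;>
      simp [mUp, rho, hinv, h1, h2, h3, h4, h5, h6, ← e3, mul_assoc]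
  · refine ⟨_, inter_mem hQ (SheetBasic_up h), fun w hw w' hw' => ?_⟩
    have h1 : 0 < w.2 := hw.2
    have h2 : 0 < w'.2 := hw'.2
    have h3 : Q w = if 0 < w.2 then qu else qd := hw.1
    have h4 : Q w' = if 0 < w'.2 then qu else qd := hw'.1
    simp [rho, h1, h2, h3, h4]

theorem SheetBasic_dia_add (w : ℝ × ℝ) : 4 ≤ dia (-2) w + dia 2 w ∧ dia 0 w ≤ 2 + dia (-2) w ∧
    dia 0 w ≤ 2 + dia 2 w := by
  simp only [dia]
  have e5 := abs_nonneg w.2
  refine ⟨?_, ?_, ?_⟩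
  · have e3 : w.1 - -2 ≤ |w.1 - -2| := le_abs_self _
    have e4 : -(w.1 - 2) ≤ |w.1 - 2| := neg_le_abs _
    linarith
  · have : |w.1 - 0| ≤ 2 + |w.1 - -2| := by
      have e3 : w.1 - -2 ≤ |w.1 - -2| := le_abs_self _
      have e4 : -(w.1 - -2) ≤ |w.1 - -2| := neg_le_abs _
      exact abs_le.2 ⟨by linarith, by linarith⟩
    linarith
  · have : |w.1 - 0| ≤ 2 + |w.1 - 2| := by
      have e3 : w.1 - 2 ≤ |w.1 - 2| := le_abs_self _
      have e4 : -(w.1 - 2) ≤ |w.1 - 2| := neg_le_abs _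
      exact abs_le.2 ⟨by linarith, by linarith⟩
    linarith

/-- Over the annuli the double is gauge equivalent to the top sheet. -/
theorem StepOK.intAt_dblG {h : V →ₗ[ℝ] V →ₗ[ℝ] ℝ} {g : Sys X V}
    {A B QL QR Qu Qd : (Module.End ℝ V)ˣ} {a b : Module.End ℝ V}
    (hs : StepOK h g A B QL QR Qu Qd a b) (Θ : Set X) {q : X × ℝ × ℝ} (hq : q.2 ∈ ann) :
    IntAt (fun q => (dblG Θ QL QR Qu Qd q : Module.End ℝ V)) (dbl g Θ A B QL QR Qu Qd)
      (sheet g (wallT A B)) q := by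
  have key : ∃ N ∈ 𝓝 q.2, ∀ w ∈ N, ∀ w' ∈ N, rho (wallT A B) w w' * qf QL QR Qu Qd w' =
      qf QL QR Qu Qd w * rho (wallT A⁻¹ B⁻¹) w w' := by
    obtain ⟨d1, d2, d3⟩ := SheetBasic_dia_add q.2
    rcases hq with (⟨h1, h2⟩ | ⟨h1, h2⟩) | ⟨h1, h2⟩
    · apply SheetBasic_glue (qu := QL) (qd := QL)
      · filter_upwards [(isOpen_lt (continuous_dia (-2)) continuous_const).mem_nhds
          (show dia (-2) q.2 < 1 by linarith)] with w hw
        simp [qf, hw]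
      · intro h0
        simp only [dia, h0, abs_zero, add_zero] at h1 h2
        have h3 := (abs_le.1 h2).2
        have h4 : q.2.1 ≠ -2 := by
          intro h4; rw [h4] at h1; norm_num at h1
        refine ⟨h4, by linarith, ?_⟩
        unfold wallT
        split_ifs with h5 h6
        · exact hs.relL
        · linarith
        · simp
    · apply SheetBasic_glue (qu := QR) (qd := QR)
      · filter_upwards [(isOpen_lt (continuous_dia 2) continuous_const).mem_nhds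
          (show dia 2 q.2 < 1 by linarith)] with w hw
        have h3 := (SheetBasic_dia_add w).1
        have h4 : ¬ dia (-2) w < 1 := by linarith
        simp [qf, hw, h4]
      · intro h0
        simp only [dia, h0, abs_zero, add_zero] at h1 h2
        have h3 := (abs_le.1 h2).1
        have h4 : q.2.1 ≠ 2 := by
          intro h4; rw [h4] at h1; norm_num at h1
        refine ⟨by linarith, h4, ?_⟩
        unfold wallT
        split_ifs with h5 h6
        · linarith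
        · exact hs.relR
        · simp
    · apply SheetBasic_glue (qu := Qu) (qd := Qd)
      · filter_upwards [(isOpen_lt continuous_const (continuous_dia 0)).mem_nhds
          (show 6 < dia 0 q.2 by linarith)] with w hw
        obtain ⟨-, h3, h4⟩ := SheetBasic_dia_add w
        have h5 : ¬ dia (-2) w < 1 := by linarith
        have h6 : ¬ dia 2 w < 1 := by linarith
        simp [qf, h5, h6]
      · intro h0
        simp only [dia, h0, abs_zero, add_zero, sub_zero] at h1 h2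
        rcases le_abs.1 h1 with h3 | h3
        · refine ⟨by linarith, by linarith, ?_⟩
          unfold wallT
          rw [if_neg (by linarith), if_pos (by linarith)]
          exact hs.relB
        · refine ⟨by linarith, by linarith, ?_⟩
          unfold wallT
          rw [if_pos (by linarith)]
          exact hs.relA
  obtain ⟨N, hN, key⟩ := key
  refine ⟨Prod.snd ⁻¹' N, continuous_snd.continuousAt.preimage_mem_nhds hN,
    fun x hx z hz => ?_⟩
  have hc : g x.1 z.1 * qf QL QR Qu Qd x.2 = qf QL QR Qu Qd x.2 * g x.1 z.1 :=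
    SheetBasic_qf (H := SheetBasic_comm (g x.1 z.1)) (hs.commL _ _) (hs.commR _ _)
      (hs.commU _ _) (hs.commD _ _) x.2
  change sheet g (wallT A B) x z * dblG Θ QL QR Qu Qd z =
    dblG Θ QL QR Qu Qd x * dbl g Θ A B QL QR Qu Qd x z
  by_cases h1 : x.1 ∈ Θ <;> by_cases h2 : z.1 ∈ Θ
  · simp [sheet, dbl, dblG, h1, h2]
  · simp [sheet, dbl, dblG, h1, h2, mul_assoc]
  · simp only [sheet, dbl, dblG, if_neg h1, if_pos h2, Units.val_one, mul_one, Units.val_mul]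
    rw [← mul_assoc, ← hc, mul_assoc, Units.mul_inv_cancel_left]
  · simp only [sheet, dbl, dblG, if_neg h1, if_neg h2]
    rw [mul_assoc, ← Units.val_mul, key _ hx _ hz, Units.val_mul, ← mul_assoc, hc, mul_assoc]

end Crest.Agent.R217
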