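import Crest.Agent.R217.Flux
import Crest.Agent.R217.Homotopy
import Crest.Agent.R217.Sig

set_option autoImplicit false
set_option linter.unusedSectionVars false
open Set Filter Topology

namespace Crest.Agent.R217

/-! Flat bundles over the plane with two punctures, and their double. -/

variable {X V : Type*} [AddCommGroup V] [Module ℝ V]

/-- Transition across the wall `w₂ = 0`. -/
noncomputable def wallT (A B : (Module.End ℝ V)ˣ) (s : ℝ) : (Module.End ℝ V)ˣ :=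
  if s < -2 then A else if 2 < s then B else 1

/-- Gauge adapted to the closed upper half plane. -/
noncomputable def mUp (t : ℝ → (Module.End ℝ V)ˣ) (w : ℝ × ℝ) : (Module.End ℝ V)ˣ :=
  if 0 < w.2 then 1 else t w.1

/-- Gauge adapted to the closed lower half plane. -/
noncomputable def mDn (t : ℝ → (Module.End ℝ V)ˣ) (w : ℝ × ℝ) : (Module.End ℝ V)ˣ :=
  if 0 < w.2 then (t w.1)⁻¹ else 1

/-- Planar transport. -/
noncomputable def rho (t : ℝ → (Module.End ℝ V)ˣ) (w w' : ℝ × ℝ) : (Module.End ℝ V)ˣ :=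
  if (0 < w.2 ↔ 0 < w'.2) then 1 else (mUp t w)⁻¹ * mUp t w'

/-- The product system on `X × ℝ × ℝ`. -/
noncomputable def sheet (g : Sys X V) (t : ℝ → (Module.End ℝ V)ˣ) : Sys (X × ℝ × ℝ) V :=
  fun q q' => g q.1 q'.1 * (rho t q.2 q'.2 : Module.End ℝ V)

/-- The open upper half. -/
def upS (X : Type*) : Set (X × ℝ × ℝ) := {q | 0 < q.2.2}

/-- The connecting class carried by the part of the wall over `N₃`. -/
noncomputable def kap (g : Sys X V) (t : ℝ → (Module.End ℝ V)ˣ) (N₃ : Set ℝ) :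
    Coch X V →ₗ[ℝ] Coch (X × ℝ × ℝ) V :=
  cut {q : X × ℝ × ℝ | q.2.1 ∈ N₃} ∘ₗ delta (sheet g t) ∘ₗ cut (upS X) ∘ₗ pull Prod.fst

/-- Diamond distance to `(s, 0)`. -/
def dia (s : ℝ) (w : ℝ × ℝ) : ℝ := |w.1 - s| + |w.2|

/-- Big pair of pants. -/
def pantsB : Set (ℝ × ℝ) := {w | dia 0 w ≤ 9 ∧ 1 / 4 ≤ dia (-2) w ∧ 1 / 4 ≤ dia 2 w}

/-- Middle pair of pants. -/
def pantsM : Set (ℝ × ℝ) := {w | dia 0 w ≤ 8 ∧ 1 / 2 ≤ dia (-2) w ∧ 1 / 2 ≤ dia 2 w}

/-- Small open pair of pants. -/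
def pantsS : Set (ℝ × ℝ) := {w | dia 0 w < 6 ∧ 7 / 8 < dia (-2) w ∧ 7 / 8 < dia 2 w}

/-- Closed diamond annulus. -/
def annu (s r₁ r₂ : ℝ) : Set (ℝ × ℝ) := {w | r₁ ≤ dia s w ∧ dia s w ≤ r₂}

/-- The three boundary annuli. -/
def ann : Set (ℝ × ℝ) := annu (-2) (1 / 4) (3 / 4) ∪ annu 2 (1 / 4) (3 / 4) ∪ annu 0 7 9

/-- Open square around `(s, 0)`. -/
def sqr (s : ℝ) : Set (ℝ × ℝ) := {w | |w.1 - s| < 1 ∧ |w.2| < 1}

/-- Primitive of the connecting class around a hole with holonomy `A`, `a = (A - 1)⁻¹`. -/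
noncomputable def eHole (A a : Module.End ℝ V) : Coch X V →ₗ[ℝ] Coch (X × ℝ × ℝ) V :=
  cut (upS X) ∘ₗ pull Prod.fst ∘ₗ act (fun _ => A * a) +
    cut (upS X)ᶜ ∘ₗ pull Prod.fst ∘ₗ act (fun _ => a)

/-- The corrected connecting class. -/
noncomputable def kapRaw (g : Sys X V) (A B : (Module.End ℝ V)ˣ) (a b : Module.End ℝ V) :
    Coch X V →ₗ[ℝ] Coch (X × ℝ × ℝ) V :=
  kap g (wallT A B) (Ioo (-2) 2) -
    delta (sheet g (wallT A B)) ∘ₗ cut {q : X × ℝ × ℝ | q.2 ∈ sqr (-2)} ∘ₗ eHole (A : Module.End ℝ V) a -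
    delta (sheet g (wallT A B)) ∘ₗ cut {q : X × ℝ × ℝ | q.2 ∈ sqr 2} ∘ₗ eHole (B : Module.End ℝ V) b

/-- The corrected connecting class, cut to the small pair of pants. -/
noncomputable def kapT (g : Sys X V) (A B : (Module.End ℝ V)ˣ) (a b : Module.End ℝ V) :
    Coch X V →ₗ[ℝ] Coch (X × ℝ × ℝ) V :=
  cut {q : X × ℝ × ℝ | q.2 ∈ pantsS} ∘ₗ kapRaw g A B a b

/-- Algebraic data of one sheet. -/
structure SheetOK (h : V →ₗ[ℝ] V →ₗ[ℝ] ℝ) (g : Sys X V) (A B : (Module.End ℝ V)ˣ)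
    (a b : Module.End ℝ V) : Prop where
  orth : ∀ x y, IsOrth h (g x y)
  orthA : IsOrth h A
  orthB : IsOrth h B
  commA : ∀ x y, g x y * A = A * g x y
  commB : ∀ x y, g x y * B = B * g x y
  ha : a * (A - 1) = 1
  ha' : (A - 1) * a = 1
  hb : b * (B - 1) = 1
  hb' : (B - 1) * b = 1
  hAB : IsUnit ((A : Module.End ℝ V) - B)

/-- Algebraic data of the double. -/
structure StepOK (h : V →ₗ[ℝ] V →ₗ[ℝ] ℝ) (g : Sys X V) (A B QL QR Qu Qd : (Module.End ℝ V)ˣ)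
    (a b : Module.End ℝ V) : Prop where
  sh : SheetOK h g A B a b
  orthL : IsOrth h QL
  orthR : IsOrth h QR
  orthU : IsOrth h Qu
  orthD : IsOrth h Qd
  commL : ∀ x y, g x y * QL = QL * g x y
  commR : ∀ x y, g x y * QR = QR * g x y
  commU : ∀ x y, g x y * Qu = Qu * g x y
  commD : ∀ x y, g x y * Qd = Qd * g x y
  relL : A * QL * A = QL
  relR : B * QR * B = QR
  relA : A * Qd * A = Qu
  relB : B * Qd * B = Qu

/-- The gluing of the two sheets over the three annuli. -/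
noncomputable def qf (QL QR Qu Qd : (Module.End ℝ V)ˣ) (w : ℝ × ℝ) : (Module.End ℝ V)ˣ :=
  if dia (-2) w < 1 then QL else if dia 2 w < 1 then QR else if 0 < w.2 then Qu else Qd

open Classical in
/-- The system on the double. -/
noncomputable def dbl (g : Sys X V) (Θ : Set X) (A B QL QR Qu Qd : (Module.End ℝ V)ˣ) :
    Sys (X × ℝ × ℝ) V :=
  fun q q' => g q.1 q'.1 *
    ((if q.1 ∈ Θ then
        (if q'.1 ∈ Θ then rho (wallT A B) q.2 q'.2
          else rho (wallT A B) q.2 q'.2 * qf QL QR Qu Qd q'.2)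
      else
        (if q'.1 ∈ Θ then (qf QL QR Qu Qd q.2)⁻¹ * rho (wallT A B) q.2 q'.2
          else rho (wallT A⁻¹ B⁻¹) q.2 q'.2) : (Module.End ℝ V)ˣ) : Module.End ℝ V)

open Classical in
/-- The gauge from the double to the top sheet over the annuli. -/
noncomputable def dblG (Θ : Set X) (QL QR Qu Qd : (Module.End ℝ V)ˣ) (q : X × ℝ × ℝ) :
    (Module.End ℝ V)ˣ :=
  if q.1 ∈ Θ then 1 else qf QL QR Qu Qd q.2

/-- The compact neighbourhood of the new hypersurface. -/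
def stepC (Q' Cp Cm : Set X) : Set (X × ℝ × ℝ) :=
  Q' ×ˢ ann ∪ Cp ×ˢ pantsB ∪ Cm ×ˢ pantsB

/-- The new region. -/
def stepΘ (Q : Set X) : Set (X × ℝ × ℝ) := (Q ×ˢ pantsM)ᶜ

/-- Classes on the double from classes on the two sides. -/
noncomputable def stepMap (g : Sys X V) (Θ : Set X) (A B : (Module.End ℝ V)ˣ)
    (a b : Module.End ℝ V) : (Coch X V × Coch X V) →ₗ[ℝ] Coch (X × ℝ × ℝ) V :=
  cut {q : X × ℝ × ℝ | q.1 ∈ Θ} ∘ₗ kapT g A B a b ∘ₗ LinearMap.fst ℝ _ _ +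
    cut {q : X × ℝ × ℝ | q.1 ∈ Θ}ᶜ ∘ₗ kapT g A⁻¹ B⁻¹ (-1 - a) (-1 - b) ∘ₗ LinearMap.snd ℝ _ _

end Crest.Agent.R217
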