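import Crest.Agent.R217.Cross

set_option autoImplicit false
set_option linter.unusedSectionVars false
open Set Filter Topology

namespace Crest.Agent.R217

/-! The intersection form of one sheet. -/

variable {X V : Type*} [AddCommGroup V] [Module ℝ V] [MetricSpace X]

theorem SheetForm_eHole {A a : Module.End ℝ V} (ha : (A - 1) * a = 1) (c : Coch X V) :
    eHole A a c = pull Prod.fst (act (fun _ => a) c) + cut (upS X) (pull Prod.fst c) := by
  have h1 : A * a = 1 + a := by
    rw [sub_mul, one_mul] at ha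
    rw [← ha]; abel
  have h2 : act (fun _ : X => A * a) c = c + act (fun _ => a) c := by
    funext x l
    simp [h1]
  change cut (upS X) (pull Prod.fst (act (fun _ => A * a) c)) +
    cut (upS X)ᶜ (pull Prod.fst (act (fun _ => a) c)) = _
  rw [h2, cut_compl, map_add, map_add]
  abel

theorem SheetForm_box_sub :
    (Icc (-3 / 2 : ℝ) (3 / 2) ×ˢ Icc (-1 / 2 : ℝ) (1 / 2) : Set (ℝ × ℝ)) ⊆ pantsB := by
  rintro ⟨s, r⟩ ⟨⟨h1, h2⟩, h3, h4⟩
  simp only at h1 h2 h3 h4
  have e1 : |s - 0| ≤ 3 / 2 := abs_le.2 ⟨by linarith, by linarith⟩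
  have e2 : |r| ≤ 1 / 2 := abs_le.2 ⟨by linarith, by linarith⟩
  have e3 : s - -2 ≤ |s - -2| := le_abs_self _
  have e4 : -(s - 2) ≤ |s - 2| := neg_le_abs _
  have e5 := abs_nonneg r
  refine ⟨?_, ?_, ?_⟩ <;> simp only [dia] <;> linarith

theorem SheetForm_seg_mem {w : ℝ × ℝ} (h0 : w.2 = 0) (h1 : |w.1| ≤ 1) :
    w ∈ interior pantsB ∧
      w ∈ interior (Icc (-3 / 2 : ℝ) (3 / 2) ×ˢ Icc (-1 / 2 : ℝ) (1 / 2) : Set (ℝ × ℝ)) := by
  obtain ⟨h2, h3⟩ := abs_le.1 h1
  constructor
  · apply pantsM_subset_interior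
    apply interior_subset
    apply closure_pantsS_subset
    apply subset_closure
    have e3 : w.1 - -2 ≤ |w.1 - -2| := le_abs_self _
    have e4 : -(w.1 - 2) ≤ |w.1 - 2| := neg_le_abs _
    refine ⟨?_, ?_, ?_⟩ <;> simp only [dia, h0, abs_zero, sub_zero] <;> linarith
  · rw [interior_prod_eq, interior_Icc, interior_Icc]
    refine ⟨⟨by linarith, by linarith⟩, ?_⟩
    rw [h0]; norm_num

/-- 1. Replace the first `kapT c` by `kap c` (`kapT_sub_kap`, `vanAt_pair_delta_left`,
`flux_delta`; `kapT c'` vanishes off `closure pantsS`).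
2. The pairing is supported over `[-1, 1] × {0}` (`kap_vanAt`, `kapRaw_vanAt`); restrict to the
box `Bx = [-3/2, 3/2] × [-1/2, 1/2]` (`flux_restrict`), where the sheet is the pull-back.
3. Over `Bx`: `kap c ≡ δ σ c`, `kapT c' ≡ δ y`,
`y = σ c' - λ_L (a c' + σ c') - λ_R (b c' + σ c')`, `λ_L = {w₁ < -1}`, `λ_R = {1 < w₁}`, and
`y + a c' - λ ((a - b) c')` vanishes for `|w₁| > 1`; `vanAt_pair_delta_right`, `flux_delta`.
4. `flux_pair_cross`. -/
theorem SheetOK.kapT_form {o : Orient X} {o' : Orient (X × ℝ × ℝ)} (hoo : IsSusp2 o o')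
    {h : V →ₗ[ℝ] V →ₗ[ℝ] ℝ} {g : Sys X V} {A B : (Module.End ℝ V)ˣ} {a b : Module.End ℝ V}
    (hs : SheetOK h g A B a b) {K₀ Θ₀ : Set X} (hA : Adm K₀ Θ₀) (hg : ∀ x ∈ K₀, CocAt g x)
    {c c' : Coch X V} (hc : c ∈ Zc g K₀) (hc' : c' ∈ Zc g K₀) :
    flux o' (K₀ ×ˢ pantsB) (Θ₀ ×ˢ univ) (pair h (kapT g A B a b c) (kapT g A B a b c')) =
      form o (h.compl₂ (a - b)) K₀ Θ₀ c c' := by
  set θ : Set (X × ℝ × ℝ) := Θ₀ ×ˢ univ with hθ
  set lam : Set (X × ℝ × ℝ) := {q | 0 < q.2.1} with hlam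
  set t := wallT A B with ht
  set sh := sheet g t with hsh
  set g' : Sys (X × ℝ × ℝ) V := pullS Prod.fst g with hg'
  set Bx : Set (ℝ × ℝ) := Icc (-3 / 2 : ℝ) (3 / 2) ×ˢ Icc (-1 / 2 : ℝ) (1 / 2) with hBx
  have cBx : IsCompact Bx := isCompact_Icc.prod isCompact_Icc
  have hBx0 : Bx ∈ 𝓝 (0 : ℝ × ℝ) :=
    mem_interior_iff_mem_nhds.1 (SheetForm_seg_mem (w := 0) rfl (by simp)).2
  have hC : IsCompact (K₀ ×ˢ pantsB) := hA.cpt.prod isCompact_pantsB
  have hC' : IsCompact (K₀ ×ˢ Bx) := hA.cpt.prod cBx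
  have hsub : K₀ ×ˢ Bx ⊆ K₀ ×ˢ pantsB := prod_mono Subset.rfl SheetForm_box_sub
  have hcoc : ∀ q ∈ K₀ ×ˢ pantsB, CocAt sh q := fun q hq => hs.cocAt (hg _ hq.1) hq.2
  have hosh : ∀ x y, IsOrth h (sh x y) := hs.orth_sheet
  have hfr : ∀ q ∈ frontier θ, q.1 ∈ K₀ → q.1 ∈ interior K₀ := by
    intro q hq hq1
    refine hA.fr ⟨?_, hq1⟩
    by_contra h'
    exact Triple_fr0 h' hq
  set κ := kap g t (Ioo (-2) 2) c with hκ
  set κT' := kapT g A B a b c' with hκT'
  have hκT'Z : κT' ∈ Zc sh (K₀ ×ˢ pantsB) := hs.kapT_mem_Zc hg hc'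
  -- step 1
  obtain ⟨e, he⟩ := mem_Bd.1 (hs.kapT_sub_kap hc)
  have s1 : flux o' (K₀ ×ˢ pantsB) θ (pair h (kapT g A B a b c) κT') =
      flux o' (K₀ ×ˢ pantsB) θ (pair h κ κT') := by
    have k1 : flux o' (K₀ ×ˢ pantsB) θ (delta 1 (pair h (eps e) κT')) = 0 := by
      apply flux_delta o' hC
      rintro q ⟨⟨hq1, hq2⟩, hqC⟩
      rw [interior_prod_eq]
      refine ⟨hfr q hq1 hqC.1, ?_⟩
      apply pantsM_subset_interior
      apply interior_subset
      apply closure_pantsS_subset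
      by_contra h'
      exact hq2 ((kapT_vanAt g A B a b c' h').pair_right _ _)
    have k2 : flux o' (K₀ ×ˢ pantsB) θ (pair h (kapT g A B a b c) κT') =
        flux o' (K₀ ×ˢ pantsB) θ (pair h κ κT' - delta 1 (pair h (eps e) κT')) := by
      apply flux_congr o' hC.isClosed
      intro q hq
      have e1 := (he q hq).pair_left h κT'
      have e2 := vanAt_pair_delta_left (hcoc q hq) hosh e (hκT'Z q hq)
      convert e1.add e2 using 1
      simp only [map_sub, LinearMap.sub_apply]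
      abel
    rw [k2, map_sub, k1, sub_zero]
  -- step 2
  have s2 : flux o' (K₀ ×ˢ pantsB) θ (pair h κ κT') = flux o' (K₀ ×ˢ Bx) θ (pair h κ κT') := by
    apply flux_restrict o' hC.isClosed hC'.isClosed
    · rw [union_eq_self_of_subset_right hsub]
      exact pair_mem_Zc hcoc hosh (hs.kap_mem_Zc hg hc) hκT'Z
    · rw [union_eq_self_of_subset_right hsub]
      rintro q ⟨⟨hq1, hq2⟩, hqC⟩
      have h0 : q.2.2 = 0 := by
        by_contra h'
        exact hq2 ((hs.kap_vanAt (hc _ hqC.1) (Or.inl h')).pair_left _ _)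
      have h2 : |q.2.1| ≤ 2 := by
        by_contra h'
        exact hq2 ((hs.kap_vanAt (hc _ hqC.1) (Or.inr (not_le.1 h'))).pair_left _ _)
      have h1 : |q.2.1| ≤ 1 := by
        by_contra h'
        apply hq2
        apply VanAt.pair_right
        apply VanAt.cut
        apply hs.kapRaw_vanAt (hc' _ hqC.1) hqC.2
        obtain ⟨h3, h4⟩ := abs_le.1 h2
        rcases lt_abs.1 (not_le.1 h') with h5 | h5
        · right; left
          exact ⟨abs_lt.2 ⟨by linarith, by linarith⟩, by rw [h0]; simp⟩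
        · left
          exact ⟨abs_lt.2 ⟨by linarith, by linarith⟩, by rw [h0]; simp⟩
      rw [interior_prod_eq, interior_prod_eq]
      exact ⟨⟨hfr q hq1 hqC.1, (SheetForm_seg_mem h0 h1).1⟩,
        ⟨hfr q hq1 hqC.1, (SheetForm_seg_mem h0 h1).2⟩⟩
  -- step 3
  have c21 : Continuous (fun q : X × ℝ × ℝ => q.2.1) := by fun_prop
  have c2 : Continuous (fun q : X × ℝ × ℝ => q.2) := by fun_prop
  have hshg : ∀ q ∈ K₀ ×ˢ Bx, ∀ z : Coch (X × ℝ × ℝ) V, VanAt (delta sh z - delta g' z) q := by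
    intro q hq z
    apply vanAt_delta_congr
    apply sheet_eq_pull
    right
    obtain ⟨h1, h2⟩ := hq.2.1
    have h3 : t q.2.1 = 1 := by
      simp only [ht, wallT]
      rw [if_neg (by linarith), if_neg (by linarith)]
    rw [← h3]
    exact wallT_eventually A B (by linarith) (by linarith)
  have hkap : ∀ q ∈ K₀ ×ˢ Bx, ∀ z : Coch X V,
      VanAt (kap g t (Ioo (-2) 2) z - delta g' (cut (upS X) (pull Prod.fst z))) q := by
    intro q hq z
    obtain ⟨h1, h2⟩ := hq.2.1
    refine VanAt.trans_sub (vanAt_cut_sub ?_ _) (hshg q hq _)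
    exact c21.continuousAt.preimage_mem_nhds (Ioo_mem_nhds (by linarith) (by linarith))
  have hcoc' : ∀ q : X × ℝ × ℝ, q.1 ∈ K₀ → CocAt g' q := fun q hq =>
    (hg _ hq).pullS continuous_fst.continuousAt
  have ho' : ∀ x y, IsOrth h (g' x y) := fun x y => hs.orth _ _
  have hdU : ∀ z ∈ Zc g K₀, ∀ q : X × ℝ × ℝ, q.1 ∈ K₀ → VanAt (delta g' (pull Prod.fst z)) q := by
    intro z hz q hq
    rw [hg', delta_pull]
    exact (hz _ hq).pull continuous_fst.continuousAt
  set β := delta g' (cut (upS X) (pull Prod.fst c)) with hβ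
  have haZ : act (fun _ => a) c' ∈ Zc g K₀ :=
    act_mem_Zc (fun x _ => intAt_const (fun x y => (hs.comm_a x y).1) x) hc'
  have hMZ : act (fun _ => a - b) c' ∈ Zc g K₀ := by
    refine act_mem_Zc (fun x _ => intAt_const (fun x y => ?_) x) hc'
    change g x y * (a - b) = (a - b) * g x y
    rw [mul_sub, sub_mul, (hs.comm_a x y).1, (hs.comm_a x y).2]
  set L : Set (X × ℝ × ℝ) := {q | q.2 ∈ sqr (-2)} with hL
  set R : Set (X × ℝ × ℝ) := {q | q.2 ∈ sqr 2} with hR
  set eL := eHole (A : Module.End ℝ V) a c' with heL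
  set eR := eHole (B : Module.End ℝ V) b c' with heR
  set y₃ : Coch (X × ℝ × ℝ) V := cut (upS X) (pull Prod.fst c') - cut L eL - cut R eR +
    pull Prod.fst (act (fun _ => a) c') - cut lam (pull Prod.fst (act (fun _ => a - b) c'))
    with hy₃
  have hy0 : ∀ q ∈ K₀ ×ˢ Bx, 1 < |q.2.1| → VanAt y₃ q := by
    intro q hq h1
    obtain ⟨h2, h3⟩ := hq.2.1
    obtain ⟨h4, h5⟩ := hq.2.2
    rcases lt_abs.1 h1 with h6 | h6
    · have n1 : R ∈ 𝓝 q := ((isOpen_sqr 2).preimage c2).mem_nhds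
        ⟨abs_lt.2 ⟨by linarith, by linarith⟩, abs_lt.2 ⟨by linarith, by linarith⟩⟩
      have n2 : Lᶜ ∈ 𝓝 q := by
        filter_upwards [(isOpen_lt continuous_const c21).mem_nhds h6] with y hy hy'
        have := (abs_lt.1 hy'.1).2
        have : (1 : ℝ) < y.2.1 := hy
        linarith
      have n3 : lam ∈ 𝓝 q := (isOpen_lt continuous_const c21).mem_nhds
        (show (0 : ℝ) < q.2.1 by linarith)
      have e1 := vanAt_cut_sub n1 eR
      have e2 := vanAt_cut_of_compl_mem n2 eL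
      have e3 := vanAt_cut_sub n3 (pull Prod.fst (act (fun _ => a - b) c'))
      have e4 : act (fun _ : X => a - b) c' = act (fun _ => a) c' - act (fun _ => b) c' := by
        funext x l; simp
      convert ((e1.add e2).add e3).neg using 1
      rw [hy₃, heR, SheetForm_eHole hs.hb', e4]
      simp only [map_sub, map_add]
      abel
    · have n1 : L ∈ 𝓝 q := ((isOpen_sqr (-2)).preimage c2).mem_nhds
        ⟨abs_lt.2 ⟨by linarith, by linarith⟩, abs_lt.2 ⟨by linarith, by linarith⟩⟩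
      have n0 : {y : X × ℝ × ℝ | y.2.1 < -1} ∈ 𝓝 q := (isOpen_lt c21 continuous_const).mem_nhds
        (show q.2.1 < (-1 : ℝ) by linarith)
      have n2 : Rᶜ ∈ 𝓝 q := by
        filter_upwards [n0] with y hy hy'
        have := (abs_lt.1 hy'.1).1
        linarith
      have n3 : lamᶜ ∈ 𝓝 q := by
        filter_upwards [n0] with y hy hy'
        have : (0 : ℝ) < y.2.1 := hy'
        linarith
      have e1 := vanAt_cut_sub n1 eL
      have e2 := vanAt_cut_of_compl_mem n2 eR
      have e3 := vanAt_cut_of_compl_mem n3 (pull Prod.fst (act (fun _ => a - b) c'))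
      convert ((e1.add e2).add e3).neg using 1
      rw [hy₃, heL, SheetForm_eHole hs.ha']
      simp only [map_add]
      abel
  have s3 : flux o' (K₀ ×ˢ Bx) θ (pair h κ κT') = flux o' (K₀ ×ˢ Bx) θ
      (pair h β (delta g' (cut lam (pull Prod.fst (act (fun _ => a - b) c'))))) := by
    have k1 : flux o' (K₀ ×ˢ Bx) θ (delta 1 (pair h (eps β) y₃)) = 0 := by
      apply flux_delta o' hC'
      rintro q ⟨⟨hq1, hq2⟩, hqC⟩
      have h0 : q.2.2 = 0 := by
        by_contra h'
        exact hq2 ((vanAt_delta_cut_of_cocycle (Triple_fr2 h') (hdU c hc q hqC.1)).eps.pair_left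
          _ _)
      have h1 : |q.2.1| ≤ 1 := by
        by_contra h'
        exact hq2 ((hy0 q hqC (not_le.1 h')).pair_right _ _)
      rw [interior_prod_eq]
      exact ⟨hfr q hq1 hqC.1, (SheetForm_seg_mem h0 h1).2⟩
    have k2 : flux o' (K₀ ×ˢ Bx) θ (pair h κ κT') = flux o' (K₀ ×ˢ Bx) θ
        (pair h β (delta g' (cut lam (pull Prod.fst (act (fun _ => a - b) c')))) +
          delta 1 (pair h (eps β) y₃)) := by
      apply flux_congr o' hC'.isClosed
      intro q hq
      have e1 := (hkap q hq c).pair_left h κT'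
      have e2 : VanAt (κT' - (delta g' y₃ +
          delta g' (cut lam (pull Prod.fst (act (fun _ => a - b) c'))))) q := by
        have f1 := hs.kapT_sub_raw hc' q (hsub hq)
        have f2 := hkap q hq c'
        have f3 := hshg q hq (cut L eL)
        have f4 := hshg q hq (cut R eR)
        have f5 := hdU _ haZ q hq.1
        have f6 : kapRaw g A B a b c' = kap g t (Ioo (-2) 2) c' - delta sh (cut L eL) -
          delta sh (cut R eR) := rfl
        rw [f6] at f1
        convert (((f1.add f2).sub f3).sub f4).sub f5 using 1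
        rw [hy₃]
        simp only [map_sub, map_add]
        abel
      have e3 := e2.pair_right h β
      have e4 := vanAt_pair_delta_right (hcoc' q hq.1) ho' y₃
        (vanAt_delta_delta (hcoc' q hq.1) (cut (upS X) (pull Prod.fst c)))
      convert (e1.add e3).add e4 using 1
      simp only [map_sub, map_add, LinearMap.sub_apply]
      abel
    rw [k2, map_add, k1, add_zero]
  rw [s1, s2, s3, form_apply, pair_compl₂]
  exact flux_pair_cross hoo hs.orth hA hg cBx hBx0 hc hMZ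

end Crest.Agent.R217
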