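import Crest.Agent.R217.SheetDefs

set_option autoImplicit false
set_option linter.unusedSectionVars false
open Set Filter Topology

namespace Crest.Agent.R217

/-! Basic facts on sheets: planar geometry, gauges, local systems. -/

variable {X V : Type*} [AddCommGroup V] [Module ℝ V]

theorem continuous_dia (s : ℝ) : Continuous (dia s) := by
  unfold dia
  fun_prop

theorem SheetGeom_cpt {S : Set (ℝ × ℝ)} (hS : IsClosed S) (s r : ℝ) (h : ∀ w ∈ S, dia s w ≤ r) :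
    IsCompact S := by
  refine ((isCompact_Icc (a := s - r) (b := s + r)).prod
    (isCompact_Icc (a := -r) (b := r))).of_isClosed_subset hS fun w hw => ?_
  have h1 := h w hw
  unfold dia at h1
  have h2 := abs_nonneg (w.1 - s)
  have h3 := abs_nonneg w.2
  obtain ⟨a1, a2⟩ := abs_le.1 (show |w.1 - s| ≤ r by linarith)
  obtain ⟨a3, a4⟩ := abs_le.1 (show |w.2| ≤ r by linarith)
  exact ⟨⟨by linarith, by linarith⟩, a3, a4⟩

theorem SheetGeom_closed (a b : ℝ) :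
    IsClosed {w : ℝ × ℝ | dia 0 w ≤ a ∧ b ≤ dia (-2) w ∧ b ≤ dia 2 w} :=
  (isClosed_le (continuous_dia _) continuous_const).inter
    ((isClosed_le continuous_const (continuous_dia _)).inter
      (isClosed_le continuous_const (continuous_dia _)))

theorem SheetGeom_open (a b : ℝ) :
    IsOpen {w : ℝ × ℝ | dia 0 w < a ∧ b < dia (-2) w ∧ b < dia 2 w} :=
  (isOpen_lt (continuous_dia _) continuous_const).inter
    ((isOpen_lt continuous_const (continuous_dia _)).inter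
      (isOpen_lt continuous_const (continuous_dia _)))

theorem SheetGeom_int (a b : ℝ) {w : ℝ × ℝ} (h0 : dia 0 w < a) (h1 : b < dia (-2) w)
    (h2 : b < dia 2 w) :
    w ∈ interior {w : ℝ × ℝ | dia 0 w ≤ a ∧ b ≤ dia (-2) w ∧ b ≤ dia 2 w} :=
  interior_maximal (fun _ hw => by exact ⟨hw.1.le, hw.2.1.le, hw.2.2.le⟩) (SheetGeom_open a b)
    ⟨h0, h1, h2⟩

theorem SheetGeom_int_annu {s r₁ r₂ : ℝ} {w : ℝ × ℝ} (h1 : r₁ < dia s w) (h2 : dia s w < r₂) :
    w ∈ interior (annu s r₁ r₂) :=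
  interior_maximal (t := {w | r₁ < dia s w ∧ dia s w < r₂}) (fun _ hw => by exact ⟨hw.1.le, hw.2.le⟩)
    ((isOpen_lt continuous_const (continuous_dia _)).inter
      (isOpen_lt (continuous_dia _) continuous_const)) ⟨h1, h2⟩

theorem SheetGeom_closure {w : ℝ × ℝ} (hw : w ∈ closure pantsS) :
    dia 0 w ≤ 6 ∧ 7 / 8 ≤ dia (-2) w ∧ 7 / 8 ≤ dia 2 w :=
  closure_minimal (fun _ hw => by exact ⟨hw.1.le, hw.2.1.le, hw.2.2.le⟩)
    (SheetGeom_closed 6 (7 / 8)) hw

theorem SheetGeom_tri (s s' : ℝ) (w : ℝ × ℝ) : dia s w ≤ dia s' w + |s' - s| := by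
  unfold dia
  have := abs_sub_le w.1 s' s
  linarith

theorem SheetGeom_tri' (s s' : ℝ) (w : ℝ × ℝ) : |s' - s| ≤ dia s w + dia s' w := by
  unfold dia
  have := abs_sub_le s' w.1 s
  rw [abs_sub_comm s' w.1] at this
  have := abs_nonneg w.2
  linarith

theorem SheetGeom_comb {a b : ℝ} (ha : 0 ≤ a) (hb : 0 ≤ b) (hab : a + b = 1) (s s' y : ℝ)
    (w : ℝ × ℝ) (hy : |a * y + b * w.2| = a * |y| + b * |w.2|) :
    a * (|y| - |s - s'|) + b * dia s' w ≤ dia s' (a • ((s, y) : ℝ × ℝ) + b • w) ∧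
      dia s' (a • ((s, y) : ℝ × ℝ) + b • w) ≤ a * (|y| + |s - s'|) + b * dia s' w := by
  have e : a * s + b * w.1 - s' = a * (s - s') + b * (w.1 - s') := by
    linear_combination s' * hab
  have h1 := abs_add_le (a * (s - s')) (b * (w.1 - s'))
  have h2 := abs_sub (a * (s - s') + b * (w.1 - s')) (a * (s - s'))
  rw [add_sub_cancel_left] at h2
  simp only [abs_mul, abs_of_nonneg ha, abs_of_nonneg hb] at h1 h2
  simp only [dia, Prod.fst_add, Prod.snd_add, Prod.smul_fst, Prod.smul_snd, smul_eq_mul, e, hy]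
  constructor <;> linarith

theorem SheetGeom_up {a b y z : ℝ} (ha : 0 ≤ a) (hb : 0 ≤ b) (hy : 0 ≤ y) (hz : 0 ≤ z) :
    |a * y + b * z| = a * |y| + b * |z| := by
  rw [abs_of_nonneg hy, abs_of_nonneg hz, abs_of_nonneg (by positivity)]

theorem SheetGeom_dn {a b y z : ℝ} (ha : 0 ≤ a) (hb : 0 ≤ b) (hy : y ≤ 0) (hz : z ≤ 0) :
    |a * y + b * z| = a * |y| + b * |z| := by
  rw [abs_of_nonpos hy, abs_of_nonpos hz, abs_of_nonpos (by nlinarith)]
  ring

theorem SheetGeom_annu {a b s r₁ r₂ y : ℝ} (ha : 0 ≤ a) (hb : 0 ≤ b) (hab : a + b = 1)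
    (h₁ : r₁ ≤ |y|) (h₂ : |y| ≤ r₂) {w : ℝ × ℝ} (hw : w ∈ annu s r₁ r₂)
    (hy : |a * y + b * w.2| = a * |y| + b * |w.2|) :
    a • ((s, y) : ℝ × ℝ) + b • w ∈ annu s r₁ r₂ := by
  obtain ⟨k1, k2⟩ := SheetGeom_comb ha hb hab s s y w hy
  rw [sub_self, abs_zero] at k1 k2
  have l1 := mul_le_mul_of_nonneg_left h₁ ha
  have l2 := mul_le_mul_of_nonneg_left h₂ ha
  have l3 := mul_le_mul_of_nonneg_left hw.1 hb
  have l4 := mul_le_mul_of_nonneg_left hw.2 hb
  have l5 : a * r₁ + b * r₁ = r₁ := by rw [← add_mul, hab, one_mul]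
  have l6 : a * r₂ + b * r₂ = r₂ := by rw [← add_mul, hab, one_mul]
  constructor <;> linarith

theorem SheetGeom_pants {a b y : ℝ} (ha : 0 ≤ a) (hb : 0 ≤ b) (hab : a + b = 1)
    (h : |y| = 9) {w : ℝ × ℝ} (hw : w ∈ pantsB)
    (hy : |a * y + b * w.2| = a * |y| + b * |w.2|) :
    a • ((0, y) : ℝ × ℝ) + b • w ∈ pantsB := by
  obtain ⟨-, k1⟩ := SheetGeom_comb ha hb hab 0 0 y w hy
  obtain ⟨k2, -⟩ := SheetGeom_comb ha hb hab 0 (-2) y w hy
  obtain ⟨k3, -⟩ := SheetGeom_comb ha hb hab 0 2 y w hy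
  rw [h] at k1 k2 k3
  norm_num at k1 k2 k3
  have l1 := mul_le_mul_of_nonneg_left hw.1 hb
  have l2 := mul_le_mul_of_nonneg_left hw.2.1 hb
  have l3 := mul_le_mul_of_nonneg_left hw.2.2 hb
  refine ⟨?_, ?_, ?_⟩ <;> simp only [Prod.smul_mk, smul_eq_mul, mul_zero] <;> linarith

theorem isCompact_pantsB : IsCompact pantsB := by
  exact SheetGeom_cpt (SheetGeom_closed 9 (1 / 4)) 0 9 fun _ hw => hw.1

theorem isCompact_pantsM : IsCompact pantsM := by
  exact SheetGeom_cpt (SheetGeom_closed 8 (1 / 2)) 0 8 fun _ hw => hw.1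

theorem isCompact_annu (s r₁ r₂ : ℝ) : IsCompact (annu s r₁ r₂) := by
  exact SheetGeom_cpt ((isClosed_le continuous_const (continuous_dia _)).inter
    (isClosed_le (continuous_dia _) continuous_const)) s r₂ fun _ hw => hw.2

theorem isCompact_ann : IsCompact ann := by
  exact ((isCompact_annu _ _ _).union (isCompact_annu _ _ _)).union (isCompact_annu _ _ _)

theorem isOpen_pantsS : IsOpen pantsS := by
  exact SheetGeom_open 6 (7 / 8)

theorem isOpen_sqr (s : ℝ) : IsOpen (sqr s) := by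
  have h1 : Continuous fun w : ℝ × ℝ => |w.1 - s| := by fun_prop
  have h2 : Continuous fun w : ℝ × ℝ => |w.2| := by fun_prop
  exact (isOpen_lt h1 continuous_const).inter (isOpen_lt h2 continuous_const)

theorem ann_subset_pantsB : ann ⊆ pantsB := by
  intro w hw
  have t1 := SheetGeom_tri 0 (-2) w
  have t2 := SheetGeom_tri 0 2 w
  have t3 := SheetGeom_tri' (-2) 2 w
  norm_num at t1 t2 t3
  rcases hw with (⟨h1, h2⟩ | ⟨h1, h2⟩) | ⟨h1, h2⟩ <;> refine ⟨?_, ?_, ?_⟩ <;> linarith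

theorem pantsM_subset_interior : pantsM ⊆ interior pantsB := by
  rintro w ⟨h1, h2, h3⟩
  exact SheetGeom_int 9 (1 / 4) (by linarith) (by linarith) (by linarith)

theorem closure_pantsS_subset : closure pantsS ⊆ interior pantsM := by
  intro w hw
  obtain ⟨h1, h2, h3⟩ := SheetGeom_closure hw
  exact SheetGeom_int 8 (1 / 2) (by linarith) (by linarith) (by linarith)

theorem disjoint_closure_pantsS_ann : Disjoint (closure pantsS) ann := by
  refine Set.disjoint_left.2 fun w hw hw' => ?_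
  obtain ⟨h1, h2, h3⟩ := SheetGeom_closure hw
  rcases hw' with (⟨k1, k2⟩ | ⟨k1, k2⟩) | ⟨k1, k2⟩ <;> linarith

theorem frontier_pantsM_subset : frontier pantsM ⊆ interior ann := by
  intro w hw
  obtain ⟨h1, h2, h3⟩ : w ∈ pantsM := isCompact_pantsM.isClosed.frontier_subset hw
  rcases h1.eq_or_lt with h1 | h1
  · exact interior_mono subset_union_right (SheetGeom_int_annu (by linarith) (by linarith))
  rcases h2.eq_or_lt with h2 | h2
  · exact interior_mono (subset_union_left.trans subset_union_left)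
      (SheetGeom_int_annu (by linarith) (by linarith))
  rcases h3.eq_or_lt with h3 | h3
  · exact interior_mono (subset_union_right.trans subset_union_left)
      (SheetGeom_int_annu (by linarith) (by linarith))
  exact absurd (SheetGeom_int 8 (1 / 2) h1 h2 h3) hw.2

theorem starConvex_annu_up {s r₁ r₂ y : ℝ} (h₀ : 0 ≤ r₁) (h₁ : r₁ ≤ y) (h₂ : y ≤ r₂) :
    StarConvex ℝ ((s, y) : ℝ × ℝ) (annu s r₁ r₂ ∩ {w | 0 ≤ w.2}) := by
  rintro w ⟨hw, hw'⟩ a b ha hb hab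
  have hy : 0 ≤ y := h₀.trans h₁
  have hw2 : 0 ≤ w.2 := hw'
  refine ⟨SheetGeom_annu ha hb hab (by rwa [abs_of_nonneg hy]) (by rwa [abs_of_nonneg hy]) hw
    (SheetGeom_up ha hb hy hw2), ?_⟩
  change 0 ≤ a * y + b * w.2
  positivity

theorem starConvex_annu_dn {s r₁ r₂ y : ℝ} (h₀ : 0 ≤ r₁) (h₁ : r₁ ≤ y) (h₂ : y ≤ r₂) :
    StarConvex ℝ ((s, -y) : ℝ × ℝ) (annu s r₁ r₂ ∩ {w | w.2 ≤ 0}) := by
  rintro w ⟨hw, hw'⟩ a b ha hb hab
  have hy : 0 ≤ y := h₀.trans h₁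
  have hw2 : w.2 ≤ 0 := hw'
  refine ⟨SheetGeom_annu ha hb hab (by rwa [abs_neg, abs_of_nonneg hy])
    (by rwa [abs_neg, abs_of_nonneg hy]) hw (SheetGeom_dn ha hb (by linarith) hw2), ?_⟩
  change a * -y + b * w.2 ≤ 0
  nlinarith [mul_nonneg ha hy]

theorem starConvex_pantsB_up : StarConvex ℝ ((0, 9) : ℝ × ℝ) (pantsB ∩ {w | 0 ≤ w.2}) := by
  rintro w ⟨hw, hw'⟩ a b ha hb hab
  have hw2 : 0 ≤ w.2 := hw'
  refine ⟨SheetGeom_pants ha hb hab (by norm_num) hw (SheetGeom_up ha hb (by norm_num) hw2), ?_⟩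
  change 0 ≤ a * 9 + b * w.2
  positivity

theorem starConvex_pantsB_dn : StarConvex ℝ ((0, -9) : ℝ × ℝ) (pantsB ∩ {w | w.2 ≤ 0}) := by
  rintro w ⟨hw, hw'⟩ a b ha hb hab
  have hw2 : w.2 ≤ 0 := hw'
  refine ⟨SheetGeom_pants ha hb hab (by norm_num) hw (SheetGeom_dn ha hb (by norm_num) hw2), ?_⟩
  change a * -9 + b * w.2 ≤ 0
  nlinarith

variable [TopologicalSpace X]

end Crest.Agent.R217
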