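import Crest.Agent.R217.MV

set_option autoImplicit false
set_option linter.unusedSectionVars false
open Set Filter Topology

namespace Crest.Agent.R217

/-! Signatures of finite rank forms on submodules. -/

variable {M M' : Type*} [AddCommGroup M] [Module ℝ M] [AddCommGroup M'] [Module ℝ M']

theorem SymOn.mono {b : M →ₗ[ℝ] M →ₗ[ℝ] ℝ} {S S' : Submodule ℝ M} (h : SymOn b S) (hS : S' ≤ S) :
    SymOn b S' := by
  rcases h with h | h
  · exact Or.inl fun x hx y hy => h x (hS hx) y (hS hy)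
  · exact Or.inr fun x hx y hy => h x (hS hx) y (hS hy)

theorem FinRk.mono {b : M →ₗ[ℝ] M →ₗ[ℝ] ℝ} {S S' : Submodule ℝ M} (h : FinRk b S) (hS : S' ≤ S) :
    FinRk b S' := by
  obtain ⟨F, -, hF, h⟩ := h
  let ψ : M →ₗ[ℝ] S' →ₗ[ℝ] ℝ := b.domRestrict₂ S'
  have h1 : S'.map ψ ≤ F.map ψ := by
    rintro _ ⟨x, hx, rfl⟩
    obtain ⟨f, hf, hxf⟩ := h x (hS hx)
    refine ⟨f, hf, LinearMap.ext fun y => ?_⟩
    have := hxf y (hS y.2)
    rw [map_sub, LinearMap.sub_apply, sub_eq_zero] at this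
    exact this.symm
  have h2 : FiniteDimensional ℝ (F.map ψ) := Module.Finite.iff_fg.2 (hF.map ψ)
  have h3 : (S'.map ψ).FG := Module.Finite.iff_fg.1 (Submodule.finiteDimensional_of_le h1)
  obtain ⟨u, hu, hu'⟩ := Submodule.fg_def.1 h3
  obtain ⟨t, ht, htf, htu⟩ := hu.exists_subset_finite_image_eq (f := ψ) (s := (S' : Set M))
    (fun z hz => by
      have : z ∈ S'.map ψ := hu' ▸ Submodule.subset_span hz
      exact this)
  refine ⟨Submodule.span ℝ t, Submodule.span_le.2 ht, Submodule.fg_def.2 ⟨t, htf, rfl⟩,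
    fun x hx => ?_⟩
  have h4 : ψ x ∈ (Submodule.span ℝ t).map ψ := by
    rw [Submodule.map_span, htu, hu']
    exact Submodule.mem_map_of_mem hx
  obtain ⟨f, hf, hfx⟩ := h4
  refine ⟨f, hf, fun y hy => ?_⟩
  rw [map_sub, LinearMap.sub_apply, sub_eq_zero]
  exact (LinearMap.congr_fun hfx ⟨y, hy⟩).symm

theorem Sig0_posIdx_congr {b b' : M →ₗ[ℝ] M →ₗ[ℝ] ℝ} {S : Submodule ℝ M}
    (h : ∀ x ∈ S, 0 < b x x ↔ 0 < b' x x) : posIdx b S = posIdx b' S := by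
  unfold posIdx
  congr 1
  ext k
  exact ⟨fun ⟨P, h1, h2, h3, h4⟩ => ⟨P, h1, h2, h3, fun x hx h0 => (h x (h1 hx)).1 (h4 x hx h0)⟩,
    fun ⟨P, h1, h2, h3, h4⟩ => ⟨P, h1, h2, h3, fun x hx h0 => (h x (h1 hx)).2 (h4 x hx h0)⟩⟩

theorem Sig0_posIdx_eq_zero {b : M →ₗ[ℝ] M →ₗ[ℝ] ℝ} {S : Submodule ℝ M}
    (h : ∀ x ∈ S, x ≠ 0 → ¬ 0 < b x x) : posIdx b S = 0 := by
  unfold posIdx
  refine Nat.le_zero.1 (csSup_le' ?_)
  rintro k ⟨P, h1, -, rfl, h4⟩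
  have : P = ⊥ := (Submodule.eq_bot_iff P).2 fun x hx => by
    by_contra h0
    exact h x (h1 hx) h0 (h4 x hx h0)
  rw [this, finrank_bot]

theorem Sig0_trans {b : M →ₗ[ℝ] M →ₗ[ℝ] ℝ} {b' : M' →ₗ[ℝ] M' →ₗ[ℝ] ℝ} {S' : Submodule ℝ M'}
    {P : Submodule ℝ M} (hP : FiniteDimensional ℝ P) (hpos : ∀ x ∈ P, x ≠ 0 → 0 < b x x)
    (σ : P →ₗ[ℝ] M') (h1 : ∀ y, σ y ∈ S') (h2 : ∀ y, b' (σ y) (σ y) = b y y) :
    ∃ P' : Submodule ℝ M', P' ≤ S' ∧ FiniteDimensional ℝ P' ∧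
      Module.finrank ℝ P' = Module.finrank ℝ P ∧ ∀ x ∈ P', x ≠ 0 → 0 < b' x x := by
  have hinj : Function.Injective σ := by
    rw [injective_iff_map_eq_zero]
    intro y hy
    by_contra h0
    have h3 := hpos y y.2 fun h => h0 (Subtype.ext h)
    rw [← h2, hy] at h3
    simp at h3
  refine ⟨LinearMap.range σ, ?_, inferInstance, LinearMap.finrank_range_of_inj hinj, ?_⟩
  · rintro _ ⟨y, rfl⟩
    exact h1 y
  · rintro _ ⟨y, rfl⟩ h0
    rw [h2]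
    refine hpos y y.2 fun h => h0 ?_
    rw [show y = 0 from Subtype.ext h, map_zero]

theorem Sig0_posIdx_of_map {b : M →ₗ[ℝ] M →ₗ[ℝ] ℝ} {b' : M' →ₗ[ℝ] M' →ₗ[ℝ] ℝ}
    {S : Submodule ℝ M} {S' : Submodule ℝ M'} (φ : M →ₗ[ℝ] M') (hmap : ∀ x ∈ S, φ x ∈ S')
    (hiso : ∀ x ∈ S, ∀ y ∈ S, b' (φ x) (φ y) = b x y)
    (hsurj : ∀ y ∈ S', ∃ x ∈ S, ∀ w ∈ S', b' (φ x - y) w = 0 ∧ b' w (φ x - y) = 0) :
    posIdx b' S' = posIdx b S := by
  unfold posIdx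
  congr 1
  ext k
  constructor
  · rintro ⟨P, h1, h2, rfl, h4⟩
    let G : Submodule ℝ (M × P) :=
      { carrier := {z | z.1 ∈ S ∧ ∀ w ∈ S', b' (φ z.1 - z.2) w = 0 ∧ b' w (φ z.1 - z.2) = 0}
        zero_mem' := ⟨S.zero_mem, fun w _ => by simp⟩
        add_mem' := by
          rintro z z' ⟨hz1, hz2⟩ ⟨hz1', hz2'⟩
          refine ⟨S.add_mem hz1 hz1', fun w hw => ?_⟩
          have e : φ (z + z').1 - ((z + z').2 : M') = (φ z.1 - z.2) + (φ z'.1 - z'.2) := by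
            simp only [Prod.fst_add, Prod.snd_add, map_add, Submodule.coe_add]
            abel
          rw [e, map_add, map_add, LinearMap.add_apply, (hz2 w hw).1, (hz2 w hw).2, (hz2' w hw).1,
            (hz2' w hw).2, add_zero]
          exact ⟨rfl, rfl⟩
        smul_mem' := by
          rintro c z ⟨hz1, hz2⟩
          refine ⟨S.smul_mem c hz1, fun w hw => ?_⟩
          have e : φ (c • z).1 - ((c • z).2 : M') = c • (φ z.1 - z.2) := by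
            simp only [Prod.smul_fst, Prod.smul_snd, map_smul, Submodule.coe_smul, smul_sub]
          rw [e, map_smul, map_smul, LinearMap.smul_apply, (hz2 w hw).1, (hz2 w hw).2, smul_zero]
          exact ⟨rfl, rfl⟩ }
    obtain ⟨s, hs⟩ := ((LinearMap.snd ℝ M P).comp G.subtype).exists_rightInverse_of_surjective
      (LinearMap.range_eq_top.2 fun y => by
        obtain ⟨x, hx, hxy⟩ := hsurj y (h1 y.2)
        exact ⟨⟨(x, y), hx, hxy⟩, rfl⟩)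
    refine Sig0_trans h2 h4 ((LinearMap.fst ℝ M P).comp (G.subtype.comp s))
      (fun y => (s y).2.1) fun y => ?_
    have e1 : (s y).1.2 = y := LinearMap.congr_fun hs y
    obtain ⟨hx, hr⟩ := (s y).2
    rw [e1] at hr
    have r1 := (hr _ (hmap _ hx)).1
    have r2 := (hr _ (h1 y.2)).2
    rw [map_sub, LinearMap.sub_apply, sub_eq_zero] at r1
    rw [map_sub, sub_eq_zero] at r2
    change b (s y).1.1 (s y).1.1 = _
    rw [← hiso _ hx _ hx, r1, r2]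
  · rintro ⟨P, h1, h2, rfl, h4⟩
    exact Sig0_trans h2 h4 (φ.comp P.subtype) (fun y => hmap _ (h1 y.2))
      fun y => hiso _ (h1 y.2) _ (h1 y.2)

theorem sig_congr {b b' : M →ₗ[ℝ] M →ₗ[ℝ] ℝ} {S : Submodule ℝ M}
    (h : ∀ x ∈ S, b x x = b' x x) : sig b S = sig b' S := by
  unfold sig
  rw [Sig0_posIdx_congr (b := b) (b' := b') fun x hx => by rw [h x hx],
    Sig0_posIdx_congr (b := -b) (b' := -b') fun x hx => by simp [h x hx]]

theorem sig_neg (b : M →ₗ[ℝ] M →ₗ[ℝ] ℝ) (S : Submodule ℝ M) : sig (-b) S = - sig b S := by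
  unfold sig
  rw [Sig0_posIdx_congr (b := - -b) (b' := b) fun x _ => by
    simp only [LinearMap.neg_apply, neg_neg], neg_sub]

theorem sig_smul {a : ℝ} (ha : 0 < a) (b : M →ₗ[ℝ] M →ₗ[ℝ] ℝ) (S : Submodule ℝ M) :
    sig (a • b) S = sig b S := by
  unfold sig
  rw [Sig0_posIdx_congr (b := a • b) (b' := b) fun x _ => by simp [ha],
    Sig0_posIdx_congr (b := -(a • b)) (b' := -b) fun x _ => by
      simp only [LinearMap.neg_apply, LinearMap.smul_apply, smul_eq_mul]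
      rw [← mul_neg, mul_pos_iff_of_pos_left ha]]

theorem sig_eq_zero {b : M →ₗ[ℝ] M →ₗ[ℝ] ℝ} {S : Submodule ℝ M} (h : ∀ x ∈ S, b x x = 0) :
    sig b S = 0 := by
  unfold sig
  rw [Sig0_posIdx_eq_zero (b := b) fun x hx _ => by simp [h x hx],
    Sig0_posIdx_eq_zero (b := -b) fun x hx _ => by simp [h x hx]]
  rfl

theorem sig_posDef [FiniteDimensional ℝ M] {b : M →ₗ[ℝ] M →ₗ[ℝ] ℝ}
    (h : ∀ x, x ≠ 0 → 0 < b x x) : sig b ⊤ = Module.finrank ℝ M := by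
  unfold sig
  rw [Sig0_posIdx_eq_zero (b := -b) fun x _ h0 => by simpa using (h x h0).le]
  have : posIdx b ⊤ = Module.finrank ℝ M := by
    refine IsGreatest.csSup_eq ⟨⟨⊤, le_rfl, inferInstance, finrank_top ℝ M, fun x _ => h x⟩, ?_⟩
    rintro k ⟨P, -, -, rfl, -⟩
    exact Submodule.finrank_le P
  simp [this]

/-- L3: an isometry which is onto modulo the (two-sided) radical preserves the signature. -/
theorem sig_of_map {b : M →ₗ[ℝ] M →ₗ[ℝ] ℝ} {b' : M' →ₗ[ℝ] M' →ₗ[ℝ] ℝ} {S : Submodule ℝ M}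
    {S' : Submodule ℝ M'} (φ : M →ₗ[ℝ] M') (hmap : ∀ x ∈ S, φ x ∈ S')
    (hiso : ∀ x ∈ S, ∀ y ∈ S, b' (φ x) (φ y) = b x y)
    (hsurj : ∀ y ∈ S', ∃ x ∈ S, ∀ w ∈ S', b' (φ x - y) w = 0 ∧ b' w (φ x - y) = 0) :
    sig b' S' = sig b S := by
  unfold sig
  rw [Sig0_posIdx_of_map φ hmap hiso hsurj, Sig0_posIdx_of_map (b := -b) (b' := -b') φ hmap
    (fun x hx y hy => by simp [hiso x hx y hy]) fun y hy => by
      obtain ⟨x, hx, h⟩ := hsurj y hy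
      exact ⟨x, hx, fun w hw => by
        simp only [LinearMap.neg_apply, neg_eq_zero]
        exact h w hw⟩]

/-- The orthogonal sum of two forms. -/
def prodForm (b : M →ₗ[ℝ] M →ₗ[ℝ] ℝ) (b' : M' →ₗ[ℝ] M' →ₗ[ℝ] ℝ) :
    (M × M') →ₗ[ℝ] (M × M') →ₗ[ℝ] ℝ :=
  b.compl₁₂ (LinearMap.fst ℝ M M') (LinearMap.fst ℝ M M') +
    b'.compl₁₂ (LinearMap.snd ℝ M M') (LinearMap.snd ℝ M M')

@[simp] theorem prodForm_apply (b : M →ₗ[ℝ] M →ₗ[ℝ] ℝ) (b' : M' →ₗ[ℝ] M' →ₗ[ℝ] ℝ)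
    (x y : M × M') : prodForm b b' x y = b x.1 y.1 + b' x.2 y.2 := rfl

end Crest.Agent.R217
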