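import Crest.Agent.R217.Step0

set_option autoImplicit false
set_option linter.unusedSectionVars false
open Set Filter Topology

namespace Crest.Agent.R217

/-! The signature of the double. -/

variable {X V : Type*} [AddCommGroup V] [Module ℝ V]

section Metric

variable [MetricSpace X] {h : V →ₗ[ℝ] V →ₗ[ℝ] ℝ} {g : Sys X V}
  {A B QL QR Qu Qd : (Module.End ℝ V)ˣ} {a b : Module.End ℝ V} {Θ Q Q' Cp Cm : Set X}

theorem Step2_pair_congr {u u' v v' : Coch (X × ℝ × ℝ) V} {q : X × ℝ × ℝ}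
    (hu : VanAt (u - v) q) (hu' : VanAt (u' - v') q) :
    VanAt (pair h u u' - pair h v v') q := by
  have h1 := (hu.pair_left h u').add (hu'.pair_right h v)
  convert h1 using 1
  simp only [map_sub, LinearMap.sub_apply]
  abel

theorem Step2_stepMap_apply (c : Coch X V × Coch X V) :
    stepMap g Θ A B a b c = cut {q : X × ℝ × ℝ | q.1 ∈ Θ} (kapT g A B a b c.1) +
      cut {q : X × ℝ × ℝ | q.1 ∈ Θ}ᶜ (kapT g A⁻¹ B⁻¹ (-1 - a) (-1 - b) c.2) := rfl

theorem Step2_van_off (c : Coch X V × Coch X V) {q : X × ℝ × ℝ} (hq : q.2 ∉ closure pantsS) :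
    VanAt (stepMap g Θ A B a b c) q := by
  rw [Step2_stepMap_apply]
  exact ((kapT_vanAt g A B a b c.1 hq).cut _).add ((kapT_vanAt g _ _ _ _ c.2 hq).cut _)

theorem Step2_van_top (c : Coch X V × Coch X V) {q : X × ℝ × ℝ} (hq : q.1 ∈ interior Θ) :
    VanAt (stepMap g Θ A B a b c - kapT g A B a b c.1) q := by
  have hT : {q : X × ℝ × ℝ | q.1 ∈ Θ} ∈ 𝓝 q :=
    continuous_fst.continuousAt.preimage_mem_nhds (mem_interior_iff_mem_nhds.1 hq)
  have h1 := (vanAt_cut_sub hT (kapT g A B a b c.1)).add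
    (vanAt_cut_of_compl_mem (S := {q : X × ℝ × ℝ | q.1 ∈ Θ}ᶜ) (by rwa [compl_compl])
      (kapT g A⁻¹ B⁻¹ (-1 - a) (-1 - b) c.2))
  rw [Step2_stepMap_apply]
  convert h1 using 1
  abel

theorem Step2_van_bot (c : Coch X V × Coch X V) {q : X × ℝ × ℝ} (hq : q.1 ∈ interior Θᶜ) :
    VanAt (stepMap g Θ A B a b c - kapT g A⁻¹ B⁻¹ (-1 - a) (-1 - b) c.2) q := by
  have hT : {q : X × ℝ × ℝ | q.1 ∈ Θ}ᶜ ∈ 𝓝 q :=
    continuous_fst.continuousAt.preimage_mem_nhds (mem_interior_iff_mem_nhds.1 hq)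
  have h1 := (vanAt_cut_of_compl_mem hT (kapT g A B a b c.1)).add
    (vanAt_cut_sub hT (kapT g A⁻¹ B⁻¹ (-1 - a) (-1 - b) c.2))
  rw [Step2_stepMap_apply]
  convert h1 using 1
  abel

theorem Step2_move (o' : Orient (X × ℝ × ℝ)) {K : Set X} (hK : IsCompact K) (Q : Set X)
    {w : Coch (X × ℝ × ℝ) ℝ} (hw : ∀ q : X × ℝ × ℝ, q.2 ∉ closure pantsS → VanAt w q) :
    flux o' (K ×ˢ pantsB) (stepΘ Q) w = flux o' (K ×ˢ pantsB) (Qᶜ ×ˢ univ) w := by
  refine flux_move o' (hK.prod isCompact_pantsB) fun q _ _ => ?_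
  by_cases hq : q.2 ∈ closure pantsS
  · apply vanAt_cut_sub_cut
    have h1 : ∀ᶠ y : X × ℝ × ℝ in 𝓝 q, y.2 ∈ pantsM :=
      continuous_snd.continuousAt.preimage_mem_nhds
        (mem_interior_iff_mem_nhds.1 (closure_pantsS_subset hq))
    filter_upwards [h1] with y hy
    simp [stepΘ, hy]
  · exact ((hw q hq).cut _).sub ((hw q hq).cut _)

theorem Step2_frontier {q : X × ℝ × ℝ} (hq : q ∈ frontier (stepΘ Q))
    (hq' : q.2 ∈ interior pantsM) : q.1 ∈ frontier Q := by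
  by_contra hn
  have h1 : ∀ᶠ y : X × ℝ × ℝ in 𝓝 q, y.2 ∈ pantsM :=
    continuous_snd.continuousAt.preimage_mem_nhds (mem_interior_iff_mem_nhds.1 hq')
  rw [stepΘ, frontier_compl] at hq
  rcases mem_nhds_or_compl_mem_nhds hn with h2 | h2
  · have h3 : ∀ᶠ y : X × ℝ × ℝ in 𝓝 q, y.1 ∈ Q :=
      continuous_fst.continuousAt.preimage_mem_nhds h2
    refine hq.2 (mem_interior_iff_mem_nhds.2 ?_)
    filter_upwards [h1, h3] with y hy hy'
    exact ⟨hy', hy⟩
  · have h3 : ∀ᶠ y : X × ℝ × ℝ in 𝓝 q, y.1 ∈ Qᶜ :=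
      continuous_fst.continuousAt.preimage_mem_nhds h2
    have h4 : q ∈ interior (Q ×ˢ pantsM)ᶜ := by
      refine mem_interior_iff_mem_nhds.2 ?_
      filter_upwards [h3] with y hy
      exact fun h5 => hy h5.1
    rw [interior_compl] at h4
    exact h4 hq.1

theorem Step2_form_neg (o : Orient X) (C Θ' : Set X) (a b : Module.End ℝ V) (x y : Coch X V) :
    form o (h.compl₂ (-1 - a - (-1 - b))) C Θ' x y = -form o (h.compl₂ (a - b)) C Θ' x y := by
  have h1 : h.compl₂ (-1 - a - (-1 - b)) = (-1 : ℝ) • h.compl₂ (a - b) := by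
    ext u v
    simp
  rw [h1, form_apply, form_apply, pair_smul_form, map_smul]
  simp

/-- Cross terms vanish near `stepC`; for each side use `flux_restrict` to `Cp × pantsB`,
`flux_congr`, `flux_move` to `Qᶜ × univ`, and `kapT_form`; on the bottom sheet
`(-1 - a) - (-1 - b) = -(a - b)`. -/
theorem StepOK.stepMap_form {o : Orient X} {o' : Orient (X × ℝ × ℝ)} (hoo : IsSusp2 o o')
    (hs : StepOK h g A B QL QR Qu Qd a b) (hl : Slab g Θ Q Q' Cp Cm)
    {c c' : Coch X V × Coch X V} (hc : c ∈ (Zc g Cp).prod (Zc g Cm))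
    (hc' : c' ∈ (Zc g Cp).prod (Zc g Cm)) :
    form o' h (stepC Q' Cp Cm) (stepΘ Q) (stepMap g Θ A B a b c) (stepMap g Θ A B a b c') =
      prodForm (form o (h.compl₂ (a - b)) Cp Qᶜ) (-form o (h.compl₂ (a - b)) Cm Qᶜ) c c' := by
  have hc1 : c.1 ∈ Zc g Cp := hc.1
  have hc2 : c.2 ∈ Zc g Cm := hc.2
  have hc1' : c'.1 ∈ Zc g Cp := hc'.1
  have hc2' : c'.2 ∈ Zc g Cm := hc'.2
  set w := pair h (stepMap g Θ A B a b c) (stepMap g Θ A B a b c') with hwdef
  have hw : w ∈ Zc 1 (stepC Q' Cp Cm) :=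
    pair_mem_Zc (hs.cocAt_dbl hl) (hs.orth_dbl Θ) (hs.stepMap_mem hl hc) (hs.stepMap_mem hl hc')
  have hoff : ∀ q : X × ℝ × ℝ, q.2 ∉ closure pantsS → VanAt w q := fun q hq =>
    (Step2_van_off c hq).pair_left h _
  have hp : IsCompact (Cp ×ˢ pantsB) := hl.cp.prod isCompact_pantsB
  have hm : IsCompact (Cm ×ˢ pantsB) := hl.cm.prod isCompact_pantsB
  have hsub : Cp ×ˢ pantsB ∪ Cm ×ˢ pantsB ⊆ stepC Q' Cp Cm := by
    rintro q (hq | hq)
    · exact Or.inl (Or.inr hq)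
    · exact Or.inr hq
  have hdisj : Disjoint (Cp ×ˢ pantsB) (Cm ×ˢ pantsB) := by
    rw [Set.disjoint_left]
    intro q hq hq'
    exact interior_subset (hl.subm hq'.1).2 (interior_subset (hl.subp hq.1).2)
  have e1 : flux o' (stepC Q' Cp Cm) (stepΘ Q) w =
      flux o' (Cp ×ˢ pantsB ∪ Cm ×ˢ pantsB) (stepΘ Q) w := by
    refine flux_restrict o' hl.adm_step.cpt.isClosed (hp.union hm).isClosed
      (by rwa [union_eq_self_of_subset_right hsub]) ?_
    rw [union_eq_self_of_subset_right hsub]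
    rintro q ⟨⟨hq1, hq2⟩, hq3⟩
    refine ⟨hl.adm_step.fr ⟨hq1, hq3⟩, ?_⟩
    have hq4 : q.2 ∈ closure pantsS := by
      by_contra hn
      exact hq2 (hoff q hn)
    have hq5 := closure_pantsS_subset hq4
    have hq6 : q.2 ∈ interior pantsB := pantsM_subset_interior (interior_subset hq5)
    rcases hl.fr (Step2_frontier hq1 hq5) with h1 | h1
    · refine interior_mono subset_union_left ?_
      rw [interior_prod_eq]
      exact ⟨h1, hq6⟩
    · refine interior_mono subset_union_right ?_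
      rw [interior_prod_eq]
      exact ⟨h1, hq6⟩
  have e2 : flux o' (Cp ×ˢ pantsB) (stepΘ Q) w = form o (h.compl₂ (a - b)) Cp Qᶜ c.1 c'.1 := by
    rw [Step2_move o' hl.cp Q hoff,
      ← hs.sh.kapT_form hoo hl.adm_p (fun x hx => hl.coc x (hl.subp hx).1) hc1 hc1']
    refine flux_congr o' hp.isClosed _ fun q hq => ?_
    exact Step2_pair_congr (Step2_van_top c (hl.subp hq.1).2) (Step2_van_top c' (hl.subp hq.1).2)
  have e3 : flux o' (Cm ×ˢ pantsB) (stepΘ Q) w = -form o (h.compl₂ (a - b)) Cm Qᶜ c.2 c'.2 := by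
    rw [Step2_move o' hl.cm Q hoff, ← Step2_form_neg,
      ← hs.sh.inv.kapT_form hoo hl.adm_m (fun x hx => hl.coc x (hl.subm hx).1) hc2 hc2']
    refine flux_congr o' hm.isClosed _ fun q hq => ?_
    exact Step2_pair_congr (Step2_van_bot c (hl.subm hq.1).2) (Step2_van_bot c' (hl.subm hq.1).2)
  rw [form_apply, ← hwdef, e1, flux_union o' hdisj, e2, e3, prodForm_apply]
  rfl

end Metric

variable [FiniteDimensional ℝ V] [NormedAddCommGroup X] [NormedSpace ℝ X] [FiniteDimensional ℝ X]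

end Crest.Agent.R217
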