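import Crest.Agent.R217.Step1
import Crest.Agent.R217.Step2

set_option autoImplicit false
set_option linter.unusedSectionVars false
open Set Filter Topology

namespace Crest.Agent.R217

/-! The signature of the double. -/

variable {X V : Type*} [AddCommGroup V] [Module ℝ V]

theorem Step_symOn_neg {M : Type*} [AddCommGroup M] [Module ℝ M] {b : M →ₗ[ℝ] M →ₗ[ℝ] ℝ}
    {S : Submodule ℝ M} (h : SymOn b S) : SymOn (-b) S := by
  rcases h with h | h
  · exact Or.inl fun x hx y hy => by simp [h x hx y hy]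
  · exact Or.inr fun x hx y hy => by simp [h x hx y hy]

theorem Step_finRk_neg {M : Type*} [AddCommGroup M] [Module ℝ M] {b : M →ₗ[ℝ] M →ₗ[ℝ] ℝ}
    {S : Submodule ℝ M} (h : FinRk b S) : FinRk (-b) S := by
  obtain ⟨F, h1, h2, h3⟩ := h
  refine ⟨F, h1, h2, fun x hx => ?_⟩
  obtain ⟨f, hf, h4⟩ := h3 x hx
  exact ⟨f, hf, fun y hy => by rw [LinearMap.neg_apply, LinearMap.neg_apply, h4 y hy, neg_zero]⟩

theorem Step_orth {h : V →ₗ[ℝ] V →ₗ[ℝ] ℝ} {g : Sys X V} {A B : (Module.End ℝ V)ˣ}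
    {a b : Module.End ℝ V} (hs : SheetOK h g A B a b) (x y : X) :
    IsOrth (h.compl₂ (a - b)) (g x y) := by
  intro u v
  have h1 : (a - b) * g x y = g x y * (a - b) := by
    rw [sub_mul, mul_sub, (hs.comm_a x y).1, (hs.comm_a x y).2]
  have h2 : (a - b) (g x y v) = g x y ((a - b) v) := by
    rw [← Module.End.mul_apply, h1, Module.End.mul_apply]
  rw [LinearMap.compl₂_apply, LinearMap.compl₂_apply, h2, hs.orth x y]

section Metric

variable [MetricSpace X] {h : V →ₗ[ℝ] V →ₗ[ℝ] ℝ} {g : Sys X V}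
  {A B QL QR Qu Qd : (Module.End ℝ V)ˣ} {a b : Module.End ℝ V} {Θ Q Q' Cp Cm : Set X}

end Metric

variable [FiniteDimensional ℝ V] [NormedAddCommGroup X] [NormedSpace ℝ X] [FiniteDimensional ℝ X]

/-- Choose compact `Q₃, Q, Q'` as in `sig0_slab`, `Cp = (Q' \ int Q₃) ∩ Θ`,
`Cm = (Q' \ int Q₃) \ Θ`; `sig_of_map` with `stepMap`, `sig_prod`, `sig_neg`, `sig0_slab` for the
form `h.compl₂ (a - b)`. -/
theorem step_sig {o : Orient X} {o' : Orient (X × ℝ × ℝ)} (hoo : IsSusp2 o o')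
    {h : V →ₗ[ℝ] V →ₗ[ℝ] ℝ} {g : Sys X V} {A B QL QR Qu Qd : (Module.End ℝ V)ˣ}
    {a b : Module.End ℝ V} (hs : StepOK h g A B QL QR Qu Qd a b)
    (hf : IsForm (h.compl₂ (a - b))) {C Θ : Set X} (hA : Adm C Θ) (hg : ∀ x ∈ C, CocAt g x) :
    ∃ C' Θ' : Set (X × ℝ × ℝ), Adm C' Θ' ∧ (∀ q ∈ C', CocAt (dbl g Θ A B QL QR Qu Qd) q) ∧
      sig0 o' h (dbl g Θ A B QL QR Qu Qd) C' Θ' = 2 * sig0 o (h.compl₂ (a - b)) g C Θ := by
  have hK : IsCompact (frontier Θ ∩ C) := hA.cpt.inter_left isClosed_frontier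
  obtain ⟨Q', c', k', s'⟩ := exists_compact_between hK isOpen_interior hA.fr
  obtain ⟨Q, c, k, s⟩ := exists_compact_between hK isOpen_interior k'
  obtain ⟨Q₃, c₃, s₀, s₃⟩ := exists_compact_between hK isOpen_interior k
  have ho := Step_orth hs.sh
  obtain ⟨ap, am, ep, em⟩ := sig0_slab o hf ho hA hg c₃ c c' s₀ s₃ s s'
  set Cp := (Q' \ interior Q₃) ∩ Θ with hCp
  set Cm := (Q' \ interior Q₃) \ Θ with hCm
  have nf : ∀ x ∈ Q' \ interior Q₃, x ∉ frontier Θ := fun x hx hx' =>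
    hx.2 (s₀ ⟨hx', interior_subset (s' hx.1)⟩)
  have hl : Slab g Θ Q Q' Cp Cm := by
    refine ⟨c, c', ap.cpt, am.cpt, s, fun x hx => ⟨hx.1.1, ?_⟩, fun x hx => ⟨hx.1.1, ?_⟩,
      fun x hx => ?_, fun x hx => hg x (interior_subset (s' hx))⟩
    · rcases mem_nhds_or_compl_mem_nhds (nf x hx.1) with h1 | h1
      · exact mem_interior_iff_mem_nhds.2 h1
      · exact absurd hx.2 (mem_of_mem_nhds h1)
    · rcases mem_nhds_or_compl_mem_nhds (nf x hx.1) with h1 | h1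
      · exact absurd (mem_of_mem_nhds h1) hx.2
      · exact mem_interior_iff_mem_nhds.2 h1
    · have h1 : x ∈ Q' \ interior Q₃ :=
        ⟨interior_subset (s (c.isClosed.frontier_subset hx)),
          fun h2 => hx.2 (s₃ (interior_subset h2))⟩
      have h2 : x ∈ frontier Qᶜ := by rwa [frontier_compl]
      by_cases h3 : x ∈ Θ
      · exact Or.inl (ap.fr ⟨h2, h1, h3⟩)
      · exact Or.inr (am.fr ⟨h2, h1, h3⟩)
  have gp : ∀ x ∈ Cp, CocAt g x := fun x hx => hl.coc x hx.1.1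
  have gm : ∀ x ∈ Cm, CocAt g x := fun x hx => hl.coc x hx.1.1
  refine ⟨stepC Q' Cp Cm, stepΘ Q, hl.adm_step, hs.cocAt_dbl hl, ?_⟩
  have e1 : sig0 o' h (dbl g Θ A B QL QR Qu Qd) (stepC Q' Cp Cm) (stepΘ Q) =
      sig (prodForm (form o (h.compl₂ (a - b)) Cp Qᶜ) (-form o (h.compl₂ (a - b)) Cm Qᶜ))
        ((Zc g Cp).prod (Zc g Cm)) := by
    refine sig_of_map (stepMap g Θ A B a b) (fun c hc => hs.stepMap_mem hl hc)
      (fun c hc c' hc' => hs.stepMap_form hoo hl hc hc') fun z hz => ?_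
    obtain ⟨c, hc, hz'⟩ := hs.stepMap_span hl hz
    exact ⟨c, hc, fun w hw =>
      ⟨form_Bd_left o' hl.adm_step (hs.cocAt_dbl hl) (hs.orth_dbl Θ) hz' hw,
        form_Bd_right o' hl.adm_step (hs.cocAt_dbl hl) (hs.orth_dbl Θ) hw hz'⟩⟩
  rw [e1, sig_prod (form_symOn o hf ap gp ho) (form_finRk o ap gp ho)
    (Step_symOn_neg (form_symOn o hf am gm ho)) (Step_finRk_neg (form_finRk o am gm ho)), sig_neg]
  change sig0 o _ g Cp Qᶜ + -sig0 o _ g Cm Qᶜ = _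
  rw [ep, em]
  ring

end Crest.Agent.R217
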