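import Crest.Agent.R217.SheetForm
import Crest.Agent.R217.Novikov

set_option autoImplicit false
set_option linter.unusedSectionVars false
open Set Filter Topology

namespace Crest.Agent.R217

/-! The signature of the double. -/

variable {X V : Type*} [AddCommGroup V] [Module ℝ V]

/-- The sets used in the step. -/
structure Slab [TopologicalSpace X] (g : Sys X V) (Θ Q Q' Cp Cm : Set X) : Prop where
  cQ : IsCompact Q
  cQ' : IsCompact Q'
  cp : IsCompact Cp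
  cm : IsCompact Cm
  sub : Q ⊆ interior Q'
  subp : Cp ⊆ Q' ∩ interior Θ
  subm : Cm ⊆ Q' ∩ interior Θᶜ
  fr : frontier Q ⊆ interior Cp ∪ interior Cm
  coc : ∀ x ∈ Q', CocAt g x

section Metric

variable [MetricSpace X] {h : V →ₗ[ℝ] V →ₗ[ℝ] ℝ} {g : Sys X V}
  {A B QL QR Qu Qd : (Module.End ℝ V)ˣ} {a b : Module.End ℝ V} {Θ Q Q' Cp Cm : Set X}

theorem Slab.adm_p (hl : Slab g Θ Q Q' Cp Cm) : Adm Cp Qᶜ := by
  refine ⟨hl.cp, fun x hx => ?_⟩
  rw [frontier_compl] at hx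
  rcases hl.fr hx.1 with h1 | h1
  · exact h1
  · exact absurd (interior_subset (hl.subp hx.2).2)
      (interior_subset (hl.subm (interior_subset h1)).2)

theorem Slab.adm_m (hl : Slab g Θ Q Q' Cp Cm) : Adm Cm Qᶜ := by
  refine ⟨hl.cm, fun x hx => ?_⟩
  rw [frontier_compl] at hx
  rcases hl.fr hx.1 with h1 | h1
  · exact absurd (interior_subset (hl.subp (interior_subset h1)).2)
      (interior_subset (hl.subm hx.2).2)
  · exact h1

theorem Slab.adm_step (hl : Slab g Θ Q Q' Cp Cm) : Adm (stepC Q' Cp Cm) (stepΘ Q) := by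
  refine ⟨((hl.cQ'.prod isCompact_ann).union (hl.cp.prod isCompact_pantsB)).union
    (hl.cm.prod isCompact_pantsB), fun q hq => ?_⟩
  have h0 := hq.1
  rw [stepΘ, frontier_compl, (hl.cQ.prod isCompact_pantsM).isClosed.frontier_eq,
    interior_prod_eq] at h0
  obtain ⟨⟨h1, h2⟩, h3⟩ := h0
  by_cases h4 : q.1 ∈ interior Q
  · have h5 : q.2 ∈ frontier pantsM := by
      rw [isCompact_pantsM.isClosed.frontier_eq]
      exact ⟨h2, fun h5 => h3 ⟨h4, h5⟩⟩
    refine interior_mono (subset_union_left.trans subset_union_left) ?_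
    rw [interior_prod_eq]
    exact ⟨hl.sub h1, frontier_pantsM_subset h5⟩
  · have h5 : q.1 ∈ frontier Q := by
      rw [hl.cQ.isClosed.frontier_eq]
      exact ⟨h1, h4⟩
    rcases hl.fr h5 with h6 | h6
    · refine interior_mono (subset_union_right.trans subset_union_left) ?_
      rw [interior_prod_eq]
      exact ⟨h6, pantsM_subset_interior h2⟩
    · refine interior_mono subset_union_right ?_
      rw [interior_prod_eq]
      exact ⟨h6, pantsM_subset_interior h2⟩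

theorem Step0_cocAt_congr {Y : Type*} [TopologicalSpace Y] {g g' : Sys Y V} {y : Y}
    (he : ∃ N ∈ 𝓝 y, ∀ u ∈ N, ∀ v ∈ N, g u v = g' u v) (hg : CocAt g' y) : CocAt g y := by
  obtain ⟨N, hN, he⟩ := he
  obtain ⟨N', hN', h1, h2⟩ := hg
  refine ⟨N ∩ N', inter_mem hN hN', fun u hu => ?_, fun u hu v hv w hw => ?_⟩
  · rw [he u hu.1 u hu.1, h1 u hu.2]
  · rw [he u hu.1 v hv.1, he v hv.1 w hw.1, he u hu.1 w hw.1, h2 u hu.2 v hv.2 w hw.2]

theorem StepOK.cocAt_dbl (hs : StepOK h g A B QL QR Qu Qd a b) (hl : Slab g Θ Q Q' Cp Cm) :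
    ∀ q ∈ stepC Q' Cp Cm, CocAt (dbl g Θ A B QL QR Qu Qd) q := by
  rintro q ((hq | hq) | hq)
  · exact CocAt.of_gauge (hs.intAt_dblG Θ hq.2)
      (hs.sh.cocAt (hl.coc _ hq.1) (ann_subset_pantsB hq.2))
  · exact Step0_cocAt_congr (dbl_eq_top g A B QL QR Qu Qd (hl.subp hq.1).2)
      (hs.sh.cocAt (hl.coc _ (hl.subp hq.1).1) hq.2)
  · exact Step0_cocAt_congr (dbl_eq_bot g A B QL QR Qu Qd (hl.subm hq.1).2)
      (hs.sh.inv.cocAt (hl.coc _ (hl.subm hq.1).1) hq.2)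

theorem StepOK.stepMap_mem (hs : StepOK h g A B QL QR Qu Qd a b) (hl : Slab g Θ Q Q' Cp Cm)
    {c : Coch X V × Coch X V} (hc : c ∈ (Zc g Cp).prod (Zc g Cm)) :
    stepMap g Θ A B a b c ∈ Zc (dbl g Θ A B QL QR Qu Qd) (stepC Q' Cp Cm) := by
  have e : stepMap g Θ A B a b c = cut {q : X × ℝ × ℝ | q.1 ∈ Θ} (kapT g A B a b c.1) +
      cut {q : X × ℝ × ℝ | q.1 ∈ Θ}ᶜ (kapT g A⁻¹ B⁻¹ (-1 - a) (-1 - b) c.2) := rfl
  rw [mem_Zc, e]
  rintro q ((hq | hq) | hq)
  · have h1 : q.2 ∉ closure pantsS := fun h1 =>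
      disjoint_left.1 disjoint_closure_pantsS_ann h1 hq.2
    exact (((kapT_vanAt g A B a b c.1 h1).cut _).add
      ((kapT_vanAt g A⁻¹ B⁻¹ (-1 - a) (-1 - b) c.2 h1).cut _)).delta _
  · have hi := (hl.subp hq.1).2
    have n1 : {q : X × ℝ × ℝ | q.1 ∈ Θ} ∈ 𝓝 q :=
      continuous_fst.continuousAt.preimage_mem_nhds (mem_interior_iff_mem_nhds.1 hi)
    have e1 := (vanAt_cut_sub n1 (kapT g A B a b c.1)).add
      (vanAt_cut_of_compl_mem (S := {q : X × ℝ × ℝ | q.1 ∈ Θ}ᶜ) (by rwa [compl_compl])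
        (kapT g A⁻¹ B⁻¹ (-1 - a) (-1 - b) c.2))
    have e2 := vanAt_delta_congr (dbl_eq_top g A B QL QR Qu Qd hi) (kapT g A B a b c.1)
    have e3 := hs.sh.kapT_mem_Zc (fun x hx => hl.coc x (hl.subp hx).1) hc.1 q hq
    convert ((e1.delta (dbl g Θ A B QL QR Qu Qd)).add e2).add e3 using 1
    simp only [map_add, map_sub]
    abel
  · have hi := (hl.subm hq.1).2
    have n1 : {q : X × ℝ × ℝ | q.1 ∈ Θ}ᶜ ∈ 𝓝 q :=
      continuous_fst.continuousAt.preimage_mem_nhds (mem_interior_iff_mem_nhds.1 hi)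
    have e1 := (vanAt_cut_sub n1 (kapT g A⁻¹ B⁻¹ (-1 - a) (-1 - b) c.2)).add
      (vanAt_cut_of_compl_mem n1 (kapT g A B a b c.1))
    have e2 := vanAt_delta_congr (dbl_eq_bot g A B QL QR Qu Qd hi)
      (kapT g A⁻¹ B⁻¹ (-1 - a) (-1 - b) c.2)
    have e3 := hs.sh.inv.kapT_mem_Zc (fun x hx => hl.coc x (hl.subm hx).1) hc.2 q hq
    convert ((e1.delta (dbl g Θ A B QL QR Qu Qd)).add e2).add e3 using 1
    simp only [map_add, map_sub]
    abel

end Metric

variable [FiniteDimensional ℝ V] [NormedAddCommGroup X] [NormedSpace ℝ X] [FiniteDimensional ℝ X]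

end Crest.Agent.R217
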