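import Crest.Agent.R217.Step0

set_option autoImplicit false
set_option linter.unusedSectionVars false
open Set Filter Topology

namespace Crest.Agent.R217

/-! The signature of the double. -/

variable {X V : Type*} [AddCommGroup V] [Module ℝ V]

section Metric

variable [MetricSpace X] {h : V →ₗ[ℝ] V →ₗ[ℝ] ℝ} {g : Sys X V}
  {A B QL QR Qu Qd : (Module.End ℝ V)ˣ} {a b : Module.End ℝ V} {Θ Q Q' Cp Cm : Set X}

theorem Step1_acyc (hs : StepOK h g A B QL QR Qu Qd a b) (Θ : Set X) {K₀ : Set X}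
    (hK : IsCompact K₀) (hg : ∀ x ∈ K₀, CocAt g x) :
    Zc (dbl g Θ A B QL QR Qu Qd) (K₀ ×ˢ ann) ≤ Bd (dbl g Θ A B QL QR Qu Qd) (K₀ ×ˢ ann) := by
  intro z hz
  have h1 := hs.sh.ann_acyclic hK hg
    (act_mem_Zc (fun q (hq : q ∈ K₀ ×ˢ ann) => hs.intAt_dblG Θ hq.2) hz)
  have h2 := act_mem_Bd (fun q (hq : q ∈ K₀ ×ˢ ann) => (hs.intAt_dblG Θ hq.2).inv_units) h1
  convert h2 using 1
  funext x l
  simp only [act_apply]
  rw [← Module.End.mul_apply, Units.inv_mul, Module.End.one_apply]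

theorem Step1_side {G : Sys (X × ℝ × ℝ) V} {P P' : Set X} {S : Set (X × ℝ × ℝ)}
    (hQ' : IsCompact Q') (hP : IsCompact P) (hP' : IsCompact P') (hPQ : P ⊆ Q')
    (hG : ∀ q ∈ P ×ˢ pantsB, CocAt G q) (hac : Zc G (P ×ˢ ann) ≤ Bd G (P ×ˢ ann))
    (hS : ∀ q : X × ℝ × ℝ, q.1 ∈ P → S ∈ 𝓝 q) (hS' : ∀ q : X × ℝ × ℝ, q.1 ∈ P' → Sᶜ ∈ 𝓝 q)
    {w : Coch (X × ℝ × ℝ) V} (hw : w ∈ Bd G (P ×ˢ pantsB)) (hw' : w ∈ Van V (Q' ×ˢ ann)) :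
    cut S w ∈ Bd G (P ×ˢ pantsB ∪ (Q' ×ˢ ann ∪ P' ×ˢ pantsB)) := by
  have e : P ×ˢ pantsB ∩ (Q' ×ˢ ann ∪ P' ×ˢ pantsB) = P ×ˢ ann := by
    ext q
    constructor
    · rintro ⟨h1, h2 | h2⟩
      · exact ⟨h1.1, h2.2⟩
      · exact absurd (mem_of_mem_nhds (hS q h1.1)) (mem_of_mem_nhds (hS' q h2.1))
    · exact fun h1 => ⟨⟨h1.1, ann_subset_pantsB h1.2⟩, Or.inl ⟨hPQ h1.1, h1.2⟩⟩
  refine excise (hP.prod isCompact_pantsB).isClosed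
    ((hQ'.prod isCompact_ann).union (hP'.prod isCompact_pantsB)).isClosed hG (e ▸ hac) ?_ ?_
  · have h1 : cut S w - w ∈ Van V (P ×ˢ pantsB) := fun q hq => vanAt_cut_sub (hS q hq.1) w
    simpa using add_mem (Van_le_Bd G _ h1) hw
  · rintro q (hq | hq)
    · exact (hw' q hq).cut S
    · exact vanAt_cut_of_compl_mem (hS' q hq.1) w

/-- 1. `z ≡ δ e₀` near `Q' × ann` (gauge `intAt_dblG`, `ann_acyclic`); `z₁ = z - δ e₀`.
2. `z₊ = cut (Θ × univ) z₁`, `z₋ = z₁ - z₊`; `kapT_span` on `Cp` (with `dbl_eq_top`, `Zc_congr`)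
and on `Cm` (with `SheetOK.inv`, `dbl_eq_bot`).
3. `excise` with `A = Cp × pantsB`, `B = Q' × ann ∪ Cm × pantsB`, `A ∩ B = Cp × ann`, and
symmetrically. -/
theorem StepOK.stepMap_span (hs : StepOK h g A B QL QR Qu Qd a b) (hl : Slab g Θ Q Q' Cp Cm)
    {z : Coch (X × ℝ × ℝ) V} (hz : z ∈ Zc (dbl g Θ A B QL QR Qu Qd) (stepC Q' Cp Cm)) :
    ∃ c ∈ (Zc g Cp).prod (Zc g Cm),
      stepMap g Θ A B a b c - z ∈ Bd (dbl g Θ A B QL QR Qu Qd) (stepC Q' Cp Cm) := by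
  set G := dbl g Θ A B QL QR Qu Qd with hG
  have hcoc := hs.cocAt_dbl hl
  have s0 : Q' ×ˢ ann ⊆ stepC Q' Cp Cm := fun q hq => Or.inl (Or.inl hq)
  have sp : Cp ×ˢ pantsB ⊆ stepC Q' Cp Cm := fun q hq => Or.inl (Or.inr hq)
  have sm : Cm ×ˢ pantsB ⊆ stepC Q' Cp Cm := fun q hq => Or.inr hq
  have gp : ∀ x ∈ Cp, CocAt g x := fun x hx => hl.coc x (hl.subp hx).1
  have gm : ∀ x ∈ Cm, CocAt g x := fun x hx => hl.coc x (hl.subm hx).1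
  obtain ⟨e₀, he₀⟩ := mem_Bd.1 (Step1_acyc hs Θ hl.cQ' hl.coc (Zc_mono _ s0 hz))
  have hz₁ : z - delta G e₀ ∈ Zc G (stepC Q' Cp Cm) :=
    sub_mem hz (Bd_le_Zc hcoc (delta_mem_Bd _ _ _))
  have tp : ∀ q ∈ Cp ×ˢ pantsB, ∃ N ∈ 𝓝 q, ∀ y ∈ N, ∀ z ∈ N, G y z = sheet g (wallT A B) y z :=
    fun q hq => dbl_eq_top g A B QL QR Qu Qd (hl.subp hq.1).2
  have tm : ∀ q ∈ Cm ×ˢ pantsB, ∃ N ∈ 𝓝 q, ∀ y ∈ N, ∀ z ∈ N,
      G y z = sheet g (wallT A⁻¹ B⁻¹) y z :=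
    fun q hq => dbl_eq_bot g A B QL QR Qu Qd (hl.subm hq.1).2
  obtain ⟨cp, hcp, kp⟩ := hs.sh.kapT_span hl.cp gp (Zc_congr tp ▸ Zc_mono _ sp hz₁)
  obtain ⟨cm, hcm, km⟩ := hs.sh.inv.kapT_span hl.cm gm (Zc_congr tm ▸ Zc_mono _ sm hz₁)
  rw [← Bd_congr tp] at kp
  rw [← Bd_congr tm] at km
  have np : ∀ q : X × ℝ × ℝ, q.1 ∈ Cp → {q : X × ℝ × ℝ | q.1 ∈ Θ} ∈ 𝓝 q := fun q hq =>
    continuous_fst.continuousAt.preimage_mem_nhds (mem_interior_iff_mem_nhds.1 (hl.subp hq).2)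
  have nm : ∀ q : X × ℝ × ℝ, q.1 ∈ Cm → {q : X × ℝ × ℝ | q.1 ∈ Θ}ᶜ ∈ 𝓝 q := fun q hq =>
    continuous_fst.continuousAt.preimage_mem_nhds (mem_interior_iff_mem_nhds.1 (hl.subm hq).2)
  have va : ∀ q ∈ Q' ×ˢ ann, q.2 ∉ closure pantsS := fun q hq h1 =>
    disjoint_left.1 disjoint_closure_pantsS_ann h1 hq.2
  have y1 := Step1_side hl.cQ' hl.cp hl.cm (fun x hx => (hl.subp hx).1)
    (fun q hq => hcoc q (sp hq)) (Step1_acyc hs Θ hl.cp gp) np nm kp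
    fun q hq => (he₀ q hq).sub (kapT_vanAt _ _ _ _ _ _ (va q hq))
  have y2 := Step1_side hl.cQ' hl.cm hl.cp (fun x hx => (hl.subm hx).1)
    (fun q hq => hcoc q (sm hq)) (Step1_acyc hs Θ hl.cm gm) nm
    (fun q hq => by rw [compl_compl]; exact np q hq) km
    fun q hq => (he₀ q hq).sub (kapT_vanAt _ _ _ _ _ _ (va q hq))
  have y1' := Bd_mono G (A := stepC Q' Cp Cm) (by
    rintro q ((hq | hq) | hq)
    exacts [Or.inr (Or.inl hq), Or.inl hq, Or.inr (Or.inr hq)]) y1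
  have y2' := Bd_mono G (A := stepC Q' Cp Cm) (by
    rintro q ((hq | hq) | hq)
    exacts [Or.inr (Or.inl hq), Or.inr (Or.inr hq), Or.inl hq]) y2
  refine ⟨(cp, cm), ⟨hcp, hcm⟩, ?_⟩
  convert neg_mem (add_mem (add_mem y1' y2') (delta_mem_Bd G _ e₀)) using 1
  simp only [stepMap, LinearMap.add_apply, LinearMap.comp_apply, LinearMap.fst_apply,
    LinearMap.snd_apply, map_sub, cut_compl]
  abel

end Metric

variable [FiniteDimensional ℝ V] [NormedAddCommGroup X] [NormedSpace ℝ X] [FiniteDimensional ℝ X]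

end Crest.Agent.R217
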