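import Crest.Agent.R217.Leibniz

set_option autoImplicit false
set_option linter.unusedSectionVars false
open Set Filter Topology

namespace Crest.Agent.R217

/-! Calculus of local vanishing. -/

variable {X Y V V' : Type*} [AddCommGroup V] [Module ℝ V] [AddCommGroup V'] [Module ℝ V']
  [TopologicalSpace X] [TopologicalSpace Y]

theorem vanAt_zero (x : X) : VanAt (0 : Coch X V) x := by
  exact ⟨univ, univ_mem, fun _ _ _ _ => rfl⟩

theorem VanAt.add {c c' : Coch X V} {x : X} (h : VanAt c x) (h' : VanAt c' x) :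
    VanAt (c + c') x := by
  obtain ⟨N, hN, h⟩ := h
  obtain ⟨N', hN', h'⟩ := h'
  refine ⟨N ∩ N', inter_mem hN hN', fun y hy l hl => ?_⟩
  simp [h y hy.1 l fun z hz => (hl z hz).1, h' y hy.2 l fun z hz => (hl z hz).2]

theorem VanAt.neg {c : Coch X V} {x : X} (h : VanAt c x) : VanAt (-c) x := by
  obtain ⟨N, hN, h⟩ := h
  exact ⟨N, hN, fun y hy l hl => by simp [h y hy l hl]⟩

theorem VanAt.sub {c c' : Coch X V} {x : X} (h : VanAt c x) (h' : VanAt c' x) :
    VanAt (c - c') x := by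
  rw [sub_eq_add_neg]
  exact h.add h'.neg

theorem VanAt.smul {c : Coch X V} {x : X} (h : VanAt c x) (a : ℝ) : VanAt (a • c) x := by
  obtain ⟨N, hN, h⟩ := h
  exact ⟨N, hN, fun y hy l hl => by simp [h y hy l hl]⟩

/-- Transfer along a local equality. -/
theorem VanAt.of_sub {c c' : Coch X V} {x : X} (h : VanAt (c - c') x) (h' : VanAt c' x) :
    VanAt c x := by
  have := h.add h'
  rwa [sub_add_cancel] at this

theorem VanAt.symm_sub {c c' : Coch X V} {x : X} (h : VanAt (c - c') x) : VanAt (c' - c) x := by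
  have := h.neg
  rwa [neg_sub] at this

theorem VanAt.trans_sub {c c' c'' : Coch X V} {x : X} (h : VanAt (c - c') x)
    (h' : VanAt (c' - c'') x) : VanAt (c - c'') x := by
  have := h.add h'
  rwa [sub_add_sub_cancel] at this

theorem VanAt.delta {c : Coch X V} {x : X} (h : VanAt c x) (g : Sys X V) : VanAt (delta g c) x := by
  obtain ⟨N, hN, h⟩ := h
  exact ⟨N, hN, h.delta g⟩

theorem VanAt.eps {c : Coch X V} {x : X} (h : VanAt c x) : VanAt (eps c) x := by
  obtain ⟨N, hN, h⟩ := h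
  exact ⟨N, hN, fun y hy l hl => by rw [eps_apply, h y hy l hl, smul_zero]⟩

theorem VanAt.proj {c : Coch X V} {x : X} (h : VanAt c x) (k : ℕ) : VanAt (proj k c) x := by
  obtain ⟨N, hN, h⟩ := h
  exact ⟨N, hN, fun y hy l hl => by rw [proj_apply, h y hy l hl, ite_self]⟩

theorem VanAt.act {c : Coch X V} {x : X} (h : VanAt c x) (γ : X → V →ₗ[ℝ] V') :
    VanAt (act γ c) x := by
  obtain ⟨N, hN, h⟩ := h
  exact ⟨N, hN, fun y hy l hl => by rw [act_apply, h y hy l hl, map_zero]⟩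

theorem VanAt.cut {c : Coch X V} {x : X} (h : VanAt c x) (S : Set X) : VanAt (cut S c) x := by
  obtain ⟨N, hN, h⟩ := h
  refine ⟨N, hN, fun y hy l hl => ?_⟩
  by_cases hS : y ∈ S
  · rw [cut_of_mem hS, h y hy l hl]
  · rw [cut_of_notMem hS]

theorem VanAt.rev {c : Coch X V} {x : X} (h : VanAt c x) : VanAt (rev c) x := by
  obtain ⟨N, hN, h⟩ := h
  exact ⟨N, hN, h.rev⟩

theorem VanAt.pair_left {c : Coch X V} {x : X} (hc : VanAt c x) (h : V →ₗ[ℝ] V →ₗ[ℝ] ℝ)
    (c' : Coch X V) : VanAt (pair h c c') x := by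
  obtain ⟨N, hN, hc⟩ := hc
  exact ⟨N, hN, hc.pair_left h c'⟩

theorem VanAt.pair_right {c' : Coch X V} {x : X} (hc : VanAt c' x) (h : V →ₗ[ℝ] V →ₗ[ℝ] ℝ)
    (c : Coch X V) : VanAt (pair h c c') x := by
  obtain ⟨N, hN, hc⟩ := hc
  exact ⟨N, hN, hc.pair_right h c⟩

theorem VanAt.pull {c : Coch X V} {φ : Y → X} {y : Y} (hc : VanAt c (φ y))
    (hφ : ContinuousAt φ y) : VanAt (pull φ c) y := by
  obtain ⟨N, hN, hc⟩ := hc
  exact ⟨φ ⁻¹' N, hφ.preimage_mem_nhds hN, hc.pull (mapsTo_preimage φ N)⟩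

theorem VanAt.eventually {c : Coch X V} {x : X} (h : VanAt c x) : ∀ᶠ y in 𝓝 x, VanAt c y := by
  obtain ⟨N, hN, h⟩ := h
  filter_upwards [eventually_mem_nhds_iff.2 hN] with y hy
  exact ⟨N, hy, h⟩

theorem CocAt.eventually {g : Sys X V} {x : X} (h : CocAt g x) : ∀ᶠ y in 𝓝 x, CocAt g y := by
  obtain ⟨N, hN, h⟩ := h
  filter_upwards [eventually_mem_nhds_iff.2 hN] with y hy
  exact ⟨N, hy, h⟩

theorem IntAt.eventually {γ : X → V →ₗ[ℝ] V'} {g : Sys X V} {g' : Sys X V'} {x : X}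
    (h : IntAt γ g g' x) : ∀ᶠ y in 𝓝 x, IntAt γ g g' y := by
  obtain ⟨N, hN, h⟩ := h
  filter_upwards [eventually_mem_nhds_iff.2 hN] with y hy
  exact ⟨N, hy, h⟩

theorem CocAt.pullS {g : Sys X V} {φ : Y → X} {y : Y} (hg : CocAt g (φ y))
    (hφ : ContinuousAt φ y) : CocAt (pullS φ g) y := by
  obtain ⟨N, hN, hg⟩ := hg
  exact ⟨φ ⁻¹' N, hφ.preimage_mem_nhds hN, fun x hx => hg.1 _ hx,
    fun x hx y hy z hz => hg.2 _ hx _ hy _ hz⟩

theorem cocAt_one (x : X) : CocAt (1 : Sys X V) x := by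
  exact ⟨univ, univ_mem, cocOn_one _⟩

theorem isOpen_setOf_vanAt (c : Coch X V) : IsOpen {x | VanAt c x} := by
  exact isOpen_iff_mem_nhds.2 fun _ hx => VanAt.eventually hx

theorem isOpen_setOf_cocAt (g : Sys X V) : IsOpen {x | CocAt g x} := by
  exact isOpen_iff_mem_nhds.2 fun _ hx => CocAt.eventually hx

theorem isClosed_supp (c : Coch X V) : IsClosed (supp c) := by
  exact (isOpen_setOf_vanAt c).isClosed_compl

theorem notMem_supp {c : Coch X V} {x : X} : x ∉ supp c ↔ VanAt c x := by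
  exact not_not

theorem supp_subset_iff {c : Coch X V} {S : Set X} : supp c ⊆ S ↔ ∀ x, x ∉ S → VanAt c x := by
  constructor
  · intro h x hx
    exact notMem_supp.1 fun hc => hx (h hc)
  · intro h x hx
    by_contra hS
    exact hx (h x hS)

theorem mem_Van_compl {c : Coch X V} {S : Set X} : c ∈ Van V Sᶜ ↔ supp c ⊆ S := by
  rw [supp_subset_iff]
  rfl

theorem isCompact_supp_of_subset {c : Coch X V} {S : Set X} (hS : IsCompact S)
    (h : ∀ x, x ∉ S → VanAt c x) : IsCompact (supp c) := by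
  exact hS.of_isClosed_subset (isClosed_supp c) (supp_subset_iff.2 h)

theorem mem_nhds_or_compl_mem_nhds {S : Set X} {x : X} (hx : x ∉ frontier S) :
    S ∈ 𝓝 x ∨ Sᶜ ∈ 𝓝 x := by
  by_cases h : x ∈ interior S
  · exact Or.inl (mem_interior_iff_mem_nhds.1 h)
  · right
    have h' : x ∉ closure S := fun hc => hx ⟨hc, h⟩
    rw [← mem_interior_iff_mem_nhds, interior_compl]
    exact h'

theorem vanAt_cut_of_compl_mem {S : Set X} {x : X} (hS : Sᶜ ∈ 𝓝 x) (c : Coch X V) :
    VanAt (cut S c) x := by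
  exact ⟨Sᶜ, hS, fun y hy l _ => cut_of_notMem hy c l⟩

theorem vanAt_cut_sub {S : Set X} {x : X} (hS : S ∈ 𝓝 x) (c : Coch X V) :
    VanAt (cut S c - c) x := by
  refine ⟨S, hS, fun y hy l _ => ?_⟩
  rw [Pi.sub_apply, Pi.sub_apply, cut_of_mem hy, sub_self]

theorem vanAt_cut_sub_cut {S S' : Set X} {x : X} (hS : ∀ᶠ y in 𝓝 x, (y ∈ S ↔ y ∈ S'))
    (c : Coch X V) : VanAt (cut S c - cut S' c) x := by
  refine ⟨_, hS, fun y hy l _ => ?_⟩
  have hy' : y ∈ S ↔ y ∈ S' := hy
  rw [Pi.sub_apply, Pi.sub_apply]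
  by_cases h : y ∈ S
  · rw [cut_of_mem h, cut_of_mem (hy'.1 h), sub_self]
  · rw [cut_of_notMem h, cut_of_notMem (fun h' => h (hy'.2 h')), sub_self]

theorem vanAt_act_sub_act {γ γ' : X → V →ₗ[ℝ] V'} {x : X} (hγ : ∀ᶠ y in 𝓝 x, γ y = γ' y)
    (c : Coch X V) : VanAt (act γ c - act γ' c) x := by
  refine ⟨_, hγ, fun y hy l _ => ?_⟩
  have hy' : γ y = γ' y := hy
  rw [Pi.sub_apply, Pi.sub_apply, act_apply, act_apply, hy', sub_self]

theorem vanAt_act_sub {γ : X → V →ₗ[ℝ] V} {x : X}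
    (hγ : ∀ᶠ y in 𝓝 x, γ y = (1 : Module.End ℝ V)) (c : Coch X V) :
    VanAt (act γ c - c) x := by
  refine ⟨_, hγ, fun y hy l _ => ?_⟩
  have hy' : γ y = (1 : Module.End ℝ V) := hy
  rw [Pi.sub_apply, Pi.sub_apply, act_apply, hy', Module.End.one_apply, sub_self]

theorem vanAt_pull_sub_pull {φ φ' : Y → X} {y : Y} (hφ : φ =ᶠ[𝓝 y] φ') (c : Coch X V) :
    VanAt (pull φ c - pull φ' c) y := by
  refine ⟨_, hφ, fun z hz l hl => ?_⟩
  have hz' : φ z = φ' z := hz
  have hl' : l.map φ = l.map φ' := List.map_congr_left fun w hw => hl w hw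
  rw [Pi.sub_apply, Pi.sub_apply, pull_apply, pull_apply, hz', hl', sub_self]

theorem vanAt_delta_delta {g : Sys X V} {x : X} (hg : CocAt g x) (c : Coch X V) :
    VanAt (delta g (delta g c)) x := by
  obtain ⟨N, hN, hg⟩ := hg
  exact ⟨N, hN, vanOn_delta_delta hg c⟩

theorem vanAt_delta_act {γ : X → V →ₗ[ℝ] V'} {g : Sys X V} {g' : Sys X V'} {x : X}
    (hγ : IntAt γ g g' x) (c : Coch X V) :
    VanAt (delta g' (act γ c) - act γ (delta g c)) x := by
  obtain ⟨N, hN, hγ⟩ := hγ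
  exact ⟨N, hN, vanOn_delta_act hγ c⟩

theorem vanAt_delta_congr {g g' : Sys X V} {x : X}
    (hg : ∃ N ∈ 𝓝 x, ∀ y ∈ N, ∀ z ∈ N, g y z = g' y z) (c : Coch X V) :
    VanAt (delta g c - delta g' c) x := by
  obtain ⟨N, hN, hg⟩ := hg
  exact ⟨N, hN, vanOn_delta_congr hg c⟩

theorem vanAt_delta_cut {S : Set X} {x : X} (hx : x ∉ frontier S) (g : Sys X V) (c : Coch X V) :
    VanAt (delta g (cut S c) - cut S (delta g c)) x := by
  rcases mem_nhds_or_compl_mem_nhds hx with h | h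
  · have h1 := ((vanAt_cut_sub h c).delta g).sub (vanAt_cut_sub h (delta g c))
    rwa [map_sub, sub_sub_sub_cancel_right] at h1
  · exact ((vanAt_cut_of_compl_mem h c).delta g).sub (vanAt_cut_of_compl_mem h _)

/-- `δ (1_S c)` vanishes off the frontier of `S` where `c` is a cocycle. -/
theorem vanAt_delta_cut_of_cocycle {S : Set X} {x : X} (hx : x ∉ frontier S) {g : Sys X V}
    {c : Coch X V} (hc : VanAt (delta g c) x) : VanAt (delta g (cut S c)) x := by
  exact (vanAt_delta_cut hx g c).of_sub (hc.cut S)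

theorem vanAt_leibniz {h : V →ₗ[ℝ] V →ₗ[ℝ] ℝ} {g : Sys X V} {x : X} (hg : CocAt g x)
    (ho : ∀ x y, IsOrth h (g x y)) (c c' : Coch X V) :
    VanAt (delta 1 (pair h c c') - pair h (eps (delta g c)) c' - pair h (eps c) (delta g c'))
      x := by
  obtain ⟨N, hN, hg⟩ := hg
  exact ⟨N, hN, vanOn_leibniz hg ho c c'⟩

theorem vanAt_pair_cut_left {S : Set X} {x : X} (hx : x ∉ frontier S) (h : V →ₗ[ℝ] V →ₗ[ℝ] ℝ)
    (c c' : Coch X V) : VanAt (pair h (cut S c) c' - cut S (pair h c c')) x := by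
  rcases mem_nhds_or_compl_mem_nhds hx with hS | hS
  · have h1 := ((vanAt_cut_sub hS c).pair_left h c').sub (vanAt_cut_sub hS (pair h c c'))
    rwa [map_sub, LinearMap.sub_apply, sub_sub_sub_cancel_right] at h1
  · exact ((vanAt_cut_of_compl_mem hS c).pair_left h c').sub (vanAt_cut_of_compl_mem hS _)

theorem vanAt_pair_cut_right {S : Set X} {x : X} (hx : x ∉ frontier S) (h : V →ₗ[ℝ] V →ₗ[ℝ] ℝ)
    (c c' : Coch X V) : VanAt (pair h c (cut S c') - cut S (pair h c c')) x := by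
  rcases mem_nhds_or_compl_mem_nhds hx with hS | hS
  · have h1 := ((vanAt_cut_sub hS c').pair_right h c).sub (vanAt_cut_sub hS (pair h c c'))
    rwa [map_sub, sub_sub_sub_cancel_right] at h1
  · exact ((vanAt_cut_of_compl_mem hS c').pair_right h c).sub (vanAt_cut_of_compl_mem hS _)

theorem vanAt_rev_cut {S : Set X} {x : X} (hx : x ∉ frontier S) (c : Coch X V) :
    VanAt (rev (cut S c) - cut S (rev c)) x := by
  rcases mem_nhds_or_compl_mem_nhds hx with hS | hS
  · have h1 := (vanAt_cut_sub hS c).rev.sub (vanAt_cut_sub hS (rev c))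
    rwa [map_sub, sub_sub_sub_cancel_right] at h1
  · exact (vanAt_cut_of_compl_mem hS c).rev.sub (vanAt_cut_of_compl_mem hS _)

theorem Supp_anticomm {S S' : Set X} {x : X} (hx : x ∉ frontier S) {g : Sys X V}
    {w : Coch X V} (hw : VanAt (delta g w) x) :
    VanAt (cut S (delta g (cut S' w)) + cut S' (delta g (cut S w)) - delta g (cut (S ∩ S') w))
      x := by
  rcases mem_nhds_or_compl_mem_nhds hx with hS | hS
  · have h1 := vanAt_cut_sub hS (delta g (cut S' w))
    have h2 := (vanAt_delta_cut_of_cocycle hx hw).cut S'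
    have h3 := (vanAt_cut_sub hS (cut S' w)).delta g
    rw [cut_cut, map_sub] at h3
    convert (h1.add h2).sub h3 using 1
    abel
  · have h1 := vanAt_cut_of_compl_mem hS (delta g (cut S' w))
    have h2 := ((vanAt_cut_of_compl_mem hS w).delta g).cut S'
    have h3 := (vanAt_cut_of_compl_mem hS (cut S' w)).delta g
    rw [cut_cut] at h3
    exact (h1.add h2).sub h3

/-- Anticommutation of connecting maps: the displayed cochain lives on the intersection of the two
frontiers. -/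
theorem vanAt_anticomm {S S' : Set X} {x : X} (hx : x ∉ frontier S ∨ x ∉ frontier S') {g : Sys X V}
    {w : Coch X V} (hw : VanAt (delta g w) x) :
    VanAt (cut S (delta g (cut S' w)) + cut S' (delta g (cut S w)) - delta g (cut (S ∩ S') w))
      x := by
  rcases hx with hx | hx
  · exact Supp_anticomm hx hw
  · have := Supp_anticomm (S' := S) hx hw
    rwa [add_comm, inter_comm] at this

end Crest.Agent.R217
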