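import Crest.Agent.R217.Homotopy

set_option autoImplicit false
set_option linter.unusedSectionVars false
open Set Filter Topology

namespace Crest.Agent.R217

/-! Orientations: point, transport, suspension. -/

variable {X Y : Type*}

theorem orient_point (X : Type*) [TopologicalSpace X] [Unique X] :
    ∃ o : Orient X, IsZc (sec (fun _ : X => (1 : ℝ))) ∧ o.J (sec (fun _ => 1)) = 1 := by
  have hu : IsZc (sec (fun _ : X => (1 : ℝ))) :=
    ⟨(toFinite _).isCompact, fun x _ => ⟨univ, univ_mem, vanOn_delta_sec fun _ _ _ _ => rfl⟩⟩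
  refine ⟨{ n := 0
            J := { toFun := fun c => c default []
                   map_add' := fun _ _ => rfl
                   map_smul' := fun _ _ => rfl }
            J_proj := fun c => rfl
            J_van := fun c hc => ?_
            J_delta := fun c _ => rfl
            exists_gen := ⟨_, hu, rfl⟩
            exact := fun z hz h0 => ⟨fun x l => z default (x :: l), (toFinite _).isCompact, ?_⟩ }, hu, rfl⟩
  · obtain ⟨N, hN, h⟩ := hc default trivial
    exact h default (mem_of_mem_nhds hN) [] (by simp)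
  · obtain ⟨N, hN, h⟩ := hz.2 default trivial
    have hN' : ∀ y, y ∈ N := fun y => Subsingleton.elim default y ▸ mem_of_mem_nhds hN
    have h0' : z default [] = 0 := h0
    refine fun x _ => ⟨univ, univ_mem, fun y _ l _ => ?_⟩
    have e := congrFun (congrFun (cone_identity default z) y) l
    rw [Pi.sub_apply, Pi.sub_apply, e, h0']
    simp only [Pi.add_apply, h default (hN' _) (y :: l) fun w _ => hN' w]
    cases l <;> simp

theorem Susp0_cpt [TopologicalSpace X] [TopologicalSpace Y] (e : Y ≃ₜ X) {c : Coch X ℝ}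
    (hc : IsCompact (supp c)) : IsCompact (supp (pull e c)) :=
  isCompact_supp_of_subset (e.isCompact_preimage.2 hc) fun _ hy =>
    (notMem_supp.1 hy).pull e.continuous.continuousAt

theorem Susp0_van [TopologicalSpace X] [TopologicalSpace Y] {φ : Y → X} (hφ : Continuous φ)
    {c : Coch X ℝ} (hc : c ∈ Van ℝ univ) : pull φ c ∈ Van ℝ univ :=
  pull_mem_Van (fun _ _ => hφ.continuousAt) (mapsTo_univ _ _) hc

theorem Susp0_isZc [TopologicalSpace X] [TopologicalSpace Y] (e : Y ≃ₜ X) {c : Coch X ℝ}
    (hc : IsZc c) : IsZc (pull e c) :=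
  ⟨Susp0_cpt e hc.1, by rw [delta_one_pull]; exact Susp0_van e.continuous hc.2⟩

theorem Orient.exists_map [TopologicalSpace X] [TopologicalSpace Y] (o : Orient X) (e : Y ≃ₜ X) :
    ∃ o' : Orient Y, ∀ c : Coch X ℝ, o'.J (pull e c) = o.J c := by
  have h1 : ∀ c : Coch X ℝ, pull e.symm (pull e c) = c := fun c => by
    rw [pull_pull, e.self_comp_symm, pull_id]
  have h2 : ∀ c : Coch Y ℝ, pull e (pull e.symm c) = c := fun c => by
    rw [pull_pull, e.symm_comp_self, pull_id]
  refine ⟨{ n := o.n
            J := o.J ∘ₗ pull e.symm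
            J_proj := fun c => ?_
            J_van := fun c hc => o.J_van _ (Susp0_van e.symm.continuous hc)
            J_delta := fun c hc => ?_
            exists_gen := ?_
            exact := fun z hz h0 => ?_ }, fun c => congrArg o.J (h1 c)⟩
  · rw [LinearMap.comp_apply, LinearMap.comp_apply, ← proj_pull, o.J_proj]
  · rw [LinearMap.comp_apply, ← delta_one_pull]
    exact o.J_delta _ (Susp0_cpt e.symm hc)
  · obtain ⟨u, hu, hu'⟩ := o.exists_gen
    exact ⟨pull e u, Susp0_isZc e hu, by rw [LinearMap.comp_apply, h1, hu']⟩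
  · obtain ⟨f, hf, hf'⟩ := o.exact _ (Susp0_isZc e.symm hz) h0
    refine ⟨pull e f, Susp0_cpt e hf, ?_⟩
    have := Susp0_van e.continuous hf'
    rwa [map_sub, h2, ← delta_one_pull] at this

/-- The suspension at level `a`. -/
noncomputable def suspAt (a : ℝ) : Coch X ℝ →ₗ[ℝ] Coch (X × ℝ) ℝ :=
  delta 1 ∘ₗ cut {q : X × ℝ | a < q.2} ∘ₗ pull Prod.fst

theorem suspAt_apply (a : ℝ) (z : Coch X ℝ) :
    suspAt a z = delta 1 (cut {q : X × ℝ | a < q.2} (pull Prod.fst z)) := rfl

variable [MetricSpace X] [ProperSpace X]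

theorem Susp0_fr {a : ℝ} {q : X × ℝ} (h : q.2 ≠ a) : q ∉ frontier {q : X × ℝ | a < q.2} :=
  fun hq => h (frontier_lt_subset_eq continuous_const continuous_snd hq).symm

theorem Susp0_pr {z : Coch X ℝ} {q : X × ℝ} (h : q.1 ∉ supp z) :
    VanAt (pull (Prod.fst : X × ℝ → X) z) q :=
  (notMem_supp.1 h).pull continuous_fst.continuousAt

theorem isZc_suspAt (a : ℝ) {z : Coch X ℝ} (hz : IsZc z) : IsZc (suspAt a z) := by
  refine ⟨isCompact_supp_of_subset (hz.1.prod (isCompact_singleton (x := a))) fun q hq => ?_, ?_⟩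
  · rw [suspAt_apply]
    by_cases h : q.1 ∈ supp z
    · refine vanAt_delta_cut_of_cocycle (Susp0_fr fun e => hq ⟨h, e⟩) ?_
      rw [delta_one_pull]
      exact Susp0_van continuous_fst hz.2 q trivial
    · exact ((Susp0_pr h).cut _).delta _
  · rw [suspAt_apply, delta_one_delta_one]
    exact zero_mem _

theorem suspAt_mem_Van (a : ℝ) {z : Coch X ℝ} (hz : z ∈ Van ℝ univ) :
    suspAt a z ∈ Van ℝ univ := by
  exact fun q _ => ((Susp0_van continuous_fst hz q trivial).cut _).delta _

/-- Hint: `cut θ (δ pr e) - δ (cut θ pr e)` lives on `supp e × {a}`. -/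
theorem suspAt_delta (a : ℝ) {e : Coch X ℝ} (he : IsCompact (supp e)) :
    ∃ e' : Coch (X × ℝ) ℝ, IsCompact (supp e') ∧
      suspAt a (delta 1 e) - delta 1 e' ∈ Van ℝ univ := by
  refine ⟨cut {q : X × ℝ | a < q.2} (delta 1 (pull Prod.fst e)) -
    delta 1 (cut {q : X × ℝ | a < q.2} (pull Prod.fst e)),
    isCompact_supp_of_subset (he.prod (isCompact_singleton (x := a))) fun q hq => ?_, ?_⟩
  · by_cases h : q.1 ∈ supp e
    · exact (vanAt_delta_cut (Susp0_fr fun e => hq ⟨h, e⟩) _ _).symm_sub
    · exact (((Susp0_pr h).delta _).cut _).sub (((Susp0_pr h).cut _).delta _)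
  · rw [map_sub, delta_one_delta_one, sub_zero, suspAt_apply, delta_one_pull, sub_self]
    exact zero_mem _

theorem suspAt_level (a b : ℝ) {z : Coch X ℝ} (hz : IsCompact (supp z)) :
    ∃ e' : Coch (X × ℝ) ℝ, IsCompact (supp e') ∧ suspAt a z - suspAt b z = delta 1 e' := by
  refine ⟨cut {q : X × ℝ | a < q.2} (pull Prod.fst z) - cut {q : X × ℝ | b < q.2} (pull Prod.fst z),
    isCompact_supp_of_subset (hz.prod (isCompact_uIcc (a := a) (b := b))) fun q hq => ?_,
    by rw [map_sub]; rfl⟩
  by_cases h : q.1 ∈ supp z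
  · refine vanAt_cut_sub_cut ?_ _
    have h1 : ∀ᶠ y : X × ℝ in 𝓝 q, y.2 ∉ uIcc a b :=
      continuous_snd.continuousAt.eventually
        (isClosed_Icc.isOpen_compl.mem_nhds fun e => hq ⟨h, e⟩)
    filter_upwards [h1] with y hy
    simp only [mem_uIcc, not_or, not_and, not_le] at hy
    constructor
    · intro h2
      by_contra h3
      exact absurd (hy.1 (le_of_lt h2)) h3
    · intro h2
      by_contra h3
      exact absurd (hy.2 (le_of_lt h2)) h3
  · exact ((Susp0_pr h).cut _).sub ((Susp0_pr h).cut _)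

end Crest.Agent.R217
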