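import Crest.Agent.R217.Susp0

set_option autoImplicit false
set_option linter.unusedSectionVars false
open Set Filter Topology

namespace Crest.Agent.R217

/-! Orientations: point, transport, suspension. -/

variable {X Y : Type*}

variable [MetricSpace X] [ProperSpace X]

theorem Susp1_side {B : Set X} (hB : IsCompact B) {a : Coch (X × ℝ) ℝ} {lo hi s : ℝ}
    (hs : s ∈ Icc lo hi) (h1 : ∀ q ∈ B ×ˢ Icc lo hi, VanAt (delta 1 a) q)
    (h2 : ∀ q ∈ (B \ interior B) ×ˢ Icc lo hi, VanAt a q) :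
    ∃ (z : Coch X ℝ) (e : Coch (X × ℝ) ℝ), IsZc z ∧ (∀ x, x ∉ interior B → VanAt z x) ∧
      (∀ q ∈ (B \ interior B) ×ˢ Icc lo hi, VanAt e q) ∧
      ∀ q ∈ B ×ˢ Icc lo hi, VanAt (a - pull Prod.fst z - delta 1 e) q := by
  obtain ⟨e, he, h⟩ := star_fibre (g := (1 : Sys X ℝ)) hB (hB.diff isOpen_interior) sdiff_subset
    isCompact_Icc hs ((convex_Icc lo hi).starConvex hs) (fun x _ => cocAt_one x) (z := a) h1 h2
  set z := pull (fun x : X => (x, s)) a with hz
  have hc : ∀ x : X, ContinuousAt (fun x : X => (x, s)) x := fun x => by fun_prop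
  have z0 : ∀ x ∈ B, x ∉ interior B → VanAt z x := fun x hx hx' =>
    (h2 (x, s) ⟨⟨hx, hx'⟩, hs⟩).pull (φ := fun x : X => (x, s)) (hc x)
  have z1 : ∀ x ∈ B, VanAt (delta 1 z) x := fun x hx => by
    rw [hz, delta_one_pull]
    exact (h1 (x, s) ⟨hx, hs⟩).pull (φ := fun x : X => (x, s)) (hc x)
  have z2 : ∀ x, x ∉ B → VanAt (cut B z) x := fun x hx =>
    vanAt_cut_of_compl_mem (hB.isClosed.isOpen_compl.mem_nhds hx) z
  have z3 : ∀ x ∈ B, VanAt (cut B z - z) x := fun x hx => by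
    by_cases hx' : x ∈ interior B
    · exact vanAt_cut_sub (mem_interior_iff_mem_nhds.1 hx') z
    · exact ((z0 x hx hx').cut B).sub (z0 x hx hx')
  refine ⟨cut B z, e, IsZc.of_subset hB z2 fun x hx => ?_, fun x hx => ?_, he, fun q hq => ?_⟩
  · have := ((z3 x hx).delta 1).add (z1 x hx)
    rwa [map_sub, sub_add_cancel] at this
  · by_cases hx' : x ∈ B
    exacts [(z0 x hx' hx).cut B, z2 x hx']
  · have := (h q hq).sub ((z3 q.1 hq.1).pull (φ := Prod.fst) continuousAt_fst)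
    convert this using 1
    rw [map_sub, pullS_one]
    abel

theorem Susp1_susp {z : Coch X ℝ} (hz : IsZc z) {c : ℝ} {q : X × ℝ}
    (h : VanAt z q.1 ∨ c ≠ q.2) : VanAt (suspAt c z) q := by
  rw [suspAt_apply]
  rcases h with h | h
  · exact ((h.pull (φ := Prod.fst) continuousAt_fst).cut _).delta 1
  · refine vanAt_delta_cut_of_cocycle
      (fun hq => h (frontier_lt_subset_eq continuous_const continuous_snd hq)) ?_
    rw [delta_one_pull]
    exact (hz.2 q.1 trivial).pull (φ := Prod.fst) continuousAt_fst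

/-- Surjectivity.  Hint: `supp w ⊆ ball × (-R, R)`, `B = closedBall` slightly larger,
`A₀ = B \ ball`.  `star_fibre` on `B × [-R-2, R+2]` relative `A₀` with `s₀ = R + 1`, where the
restriction of `w` vanishes: `w ≡ δ a`, `a ∈ Van (A₀ × I)`.  On `B × [R, R+2]` and on
`B × [-R-2, -R]` the cochain `a` is a cocycle, so `star_fibre` gives `a ≡ pr z₊ + δ e₊`,
`a ≡ pr z₋ + δ e₋`.  With `θ₊ = {R+1 < t}`, `θ₋ = {t < -R-1}`, the cochain
`a - θ₊ (pr z₊ + δ e₊) - θ₋ (pr z₋ + δ e₋)` cut to `B × I` is compactly supported in the interior;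
use `δ (θ δ e) ≡ δ (θ δ e - δ (θ e))`, `suspAt_level` and `δ (θ₋ pr z) ≡ - δ ((1 - θ₋) pr z)`.
The answer is `cut B (z₊ - z₋)`. -/
theorem suspAt_surj {w : Coch (X × ℝ) ℝ} (hw : IsZc w) :
    ∃ z : Coch X ℝ, IsZc z ∧ ∃ e : Coch (X × ℝ) ℝ, IsCompact (supp e) ∧
      w - suspAt 0 z - delta 1 e ∈ Van ℝ univ := by
  obtain ⟨B, hB, hKB⟩ := exists_compact_superset (hw.1.image continuous_fst)
  obtain ⟨R, hR0, hR⟩ : ∃ R : ℝ, 0 < R ∧ ∀ q ∈ supp w, |q.2| < R := by
    obtain ⟨R, hR0, hR⟩ := (hw.1.image continuous_snd).isBounded.exists_pos_norm_lt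
    exact ⟨R, hR0, fun q hq => hR _ (mem_image_of_mem _ hq)⟩
  have w1 : ∀ q : X × ℝ, q.1 ∉ interior B → VanAt w q := fun q hq =>
    notMem_supp.1 fun h => hq (hKB (mem_image_of_mem _ h))
  have w2 : ∀ q : X × ℝ, (R ≤ q.2 ∨ q.2 ≤ -R) → VanAt w q := fun q hq =>
    notMem_supp.1 fun h => by
      have := abs_lt.1 (hR q h)
      rcases hq with hq | hq <;> linarith [this.1, this.2]
  have hs : R + 1 ∈ Icc (-R - 2) (R + 2) := ⟨by linarith, by linarith⟩
  obtain ⟨a, ha0, ha⟩ := star_fibre (g := (1 : Sys X ℝ)) hB (hB.diff isOpen_interior) sdiff_subset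
    isCompact_Icc hs ((convex_Icc _ _).starConvex hs) (fun x _ => cocAt_one x) (z := w)
    (fun q _ => hw.2 q trivial) fun q hq => w1 q hq.1.2
  have ha1 : ∀ q ∈ B ×ˢ Icc (-R - 2) (R + 2), VanAt (w - delta 1 a) q := fun q hq => by
    have h1 : VanAt (pull (fun x : X => (x, R + 1)) w) q.1 :=
      (w2 (q.1, R + 1) (Or.inl (by linarith))).pull (φ := fun x : X => (x, R + 1)) (by fun_prop)
    have := (ha q hq).add (h1.pull (φ := Prod.fst) continuousAt_fst)
    convert this using 1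
    rw [pullS_one]
    abel
  have ha2 : ∀ q ∈ B ×ˢ Icc (-R - 2) (R + 2), (R ≤ q.2 ∨ q.2 ≤ -R) → VanAt (delta 1 a) q :=
    fun q hq h => by
      have := (w2 q h).sub (ha1 q hq)
      rwa [sub_sub_cancel] at this
  obtain ⟨zp, ep, hzp, zp0, ep0, hp⟩ := Susp1_side hB (a := a) (lo := R) (hi := R + 2) (s := R)
    ⟨le_rfl, by linarith⟩
    (fun q hq => ha2 q ⟨hq.1, by linarith [hq.2.1], hq.2.2⟩ (Or.inl hq.2.1))
    fun q hq => ha0 q ⟨hq.1, by linarith [hq.2.1], hq.2.2⟩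
  obtain ⟨zm, em, hzm, zm0, em0, hm⟩ := Susp1_side hB (a := a) (lo := -R - 2) (hi := -R) (s := -R)
    ⟨by linarith, le_rfl⟩
    (fun q hq => ha2 q ⟨hq.1, hq.2.1, by linarith [hq.2.2]⟩ (Or.inr hq.2.2))
    fun q hq => ha0 q ⟨hq.1, hq.2.1, by linarith [hq.2.2]⟩
  obtain ⟨e₁, he₁, h₁⟩ := suspAt_level 0 (R + 1) hzp.1
  obtain ⟨e₂, he₂, h₂⟩ := suspAt_level 0 (-R - 1) hzm.1
  set P : Set (X × ℝ) := {q | R + 1 < q.2} with hP
  set M : Set (X × ℝ) := {q | -R - 1 < q.2} with hM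
  have P1 : ∀ q : X × ℝ, R + 1 < q.2 → P ∈ 𝓝 q := fun q hq =>
    (isOpen_lt continuous_const continuous_snd).mem_nhds hq
  have P2 : ∀ q : X × ℝ, q.2 < R + 1 → Pᶜ ∈ 𝓝 q := fun q hq =>
    mem_of_superset ((isOpen_lt continuous_snd continuous_const).mem_nhds hq)
      fun y (hy : y.2 < R + 1) (h : R + 1 < y.2) => lt_asymm hy h
  have M1 : ∀ q : X × ℝ, -R - 1 < q.2 → Mᶜᶜ ∈ 𝓝 q := fun q hq => by
    rw [compl_compl]
    exact (isOpen_lt continuous_const continuous_snd).mem_nhds hq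
  have M2 : ∀ q : X × ℝ, q.2 < -R - 1 → Mᶜ ∈ 𝓝 q := fun q hq =>
    mem_of_superset ((isOpen_lt continuous_snd continuous_const).mem_nhds hq)
      fun y (hy : y.2 < -R - 1) (h : -R - 1 < y.2) => lt_asymm hy h
  set b : Coch (X × ℝ) ℝ := a - delta 1 (cut P ep) - delta 1 (cut Mᶜ em) -
    cut P (pull Prod.fst zp) - cut Mᶜ (pull Prod.fst zm) with hb
  have hBI : IsCompact (B ×ˢ Icc (-R - 2) (R + 2)) := hB.prod isCompact_Icc
  have b0 : ∀ q, q ∉ B ×ˢ Icc (-R - 2) (R + 2) → VanAt (cut (B ×ˢ Icc (-R - 2) (R + 2)) b) q :=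
    fun q hq => vanAt_cut_of_compl_mem (hBI.isClosed.isOpen_compl.mem_nhds hq) b
  have b1 : ∀ q ∈ B ×ˢ Icc (-R - 2) (R + 2), q.1 ∉ interior B → VanAt b q := fun q hq h => by
    refine ((((ha0 q ⟨⟨hq.1, h⟩, hq.2⟩).sub (VanAt.delta ?_ 1)).sub (VanAt.delta ?_ 1)).sub
      (((zp0 _ h).pull (φ := Prod.fst) continuousAt_fst).cut _)).sub
      (((zm0 _ h).pull (φ := Prod.fst) continuousAt_fst).cut _)
    · rcases le_or_gt R q.2 with h' | h'
      · exact (ep0 q ⟨⟨hq.1, h⟩, h', hq.2.2⟩).cut _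
      · exact vanAt_cut_of_compl_mem (P2 q (by linarith)) _
    · rcases le_or_gt q.2 (-R) with h' | h'
      · exact (em0 q ⟨⟨hq.1, h⟩, hq.2.1, h'⟩).cut _
      · exact vanAt_cut_of_compl_mem (M1 q (by linarith)) _
  have b2 : ∀ q ∈ B ×ˢ Icc (-R - 2) (R + 2), R + 1 < q.2 → VanAt b q := fun q hq h => by
    have := ((((hp q ⟨hq.1, by linarith, hq.2.2⟩).sub ((vanAt_cut_sub (P1 q h) ep).delta 1)).sub
      ((vanAt_cut_of_compl_mem (M1 q (by linarith)) em).delta 1)).sub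
      (vanAt_cut_sub (P1 q h) (pull Prod.fst zp))).sub
      (vanAt_cut_of_compl_mem (M1 q (by linarith)) (pull Prod.fst zm))
    convert this using 1
    rw [hb, map_sub]
    abel
  have b3 : ∀ q ∈ B ×ˢ Icc (-R - 2) (R + 2), q.2 < -R - 1 → VanAt b q := fun q hq h => by
    have := ((((hm q ⟨hq.1, hq.2.1, by linarith⟩).sub ((vanAt_cut_sub (M2 q h) em).delta 1)).sub
      ((vanAt_cut_of_compl_mem (P2 q (by linarith)) ep).delta 1)).sub
      (vanAt_cut_sub (M2 q h) (pull Prod.fst zm))).sub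
      (vanAt_cut_of_compl_mem (P2 q (by linarith)) (pull Prod.fst zp))
    convert this using 1
    rw [hb, map_sub]
    abel
  have key : ∀ q, VanAt (w - suspAt (R + 1) zp + suspAt (-R - 1) zm -
      delta 1 (cut (B ×ˢ Icc (-R - 2) (R + 2)) b)) q := fun q => by
    by_cases hq : q.1 ∈ interior B ∧ -R - 2 < q.2 ∧ q.2 < R + 2
    · have hn : B ×ˢ Icc (-R - 2) (R + 2) ∈ 𝓝 q :=
        prod_mem_nhds (mem_interior_iff_mem_nhds.1 hq.1) (Icc_mem_nhds hq.2.1 hq.2.2)
      have h3 : VanAt (delta 1 (pull Prod.fst zm)) q := by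
        rw [delta_one_pull]
        exact (hzm.2 q.1 trivial).pull (φ := Prod.fst) continuousAt_fst
      have := ((ha1 q (mem_of_mem_nhds hn)).add h3).sub ((vanAt_cut_sub hn b).delta 1)
      convert this using 1
      rw [map_sub (delta 1) _ b, suspAt_apply, suspAt_apply, ← hP, ← hM]
      have e : delta 1 b = delta 1 a - delta 1 (cut P (pull Prod.fst zp)) -
          (delta 1 (pull Prod.fst zm) - delta 1 (cut M (pull Prod.fst zm))) := by
        rw [hb, cut_compl M (pull Prod.fst zm)]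
        simp only [map_sub, delta_one_delta_one, sub_zero]
      rw [e]
      abel
    · have hq' : q.1 ∉ interior B ∨ q.2 ≤ -R - 2 ∨ R + 2 ≤ q.2 := by
        by_contra hn
        push Not at hn
        exact hq hn
      refine ((VanAt.sub ?_ (Susp1_susp hzp ?_)).add (Susp1_susp hzm ?_)).sub (VanAt.delta ?_ 1)
      · rcases hq' with h | h | h
        exacts [w1 q h, w2 q (Or.inr (by linarith)), w2 q (Or.inl (by linarith))]
      · rcases hq' with h | h | h
        exacts [Or.inl (zp0 _ h), Or.inr (by linarith), Or.inr (by linarith)]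
      · rcases hq' with h | h | h
        exacts [Or.inl (zm0 _ h), Or.inr (by linarith), Or.inr (by linarith)]
      · by_cases hin : q ∈ B ×ˢ Icc (-R - 2) (R + 2)
        · rcases hq' with h | h | h
          exacts [(b1 q hin h).cut _, (b3 q hin (by linarith)).cut _, (b2 q hin (by linarith)).cut _]
        · exact b0 q hin
  refine ⟨zp - zm, hzp.sub hzm, cut (B ×ˢ Icc (-R - 2) (R + 2)) b - e₁ + e₂,
    isCompact_supp_of_subset ((hBI.union he₁).union he₂) fun q hq => ?_, fun q _ => ?_⟩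
  · simp only [mem_union, not_or] at hq
    exact ((b0 q hq.1.1).sub (notMem_supp.1 hq.1.2)).add (notMem_supp.1 hq.2)
  · convert key q using 1
    rw [map_add, map_sub, map_sub, ← h₁, ← h₂]
    abel

end Crest.Agent.R217
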