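import Crest.Agent.R217.Tau0

set_option autoImplicit false
set_option linter.unusedSectionVars false
open Set Filter Topology

namespace Crest.Agent.R217

/-! The twisted action on cochains. -/

variable {X V : Type*} [AddCommGroup V] [Module ℝ V] [MetricSpace X] {o : Orient X} {p : ℕ}
  {D : Dyn o p} {h : V →ₗ[ℝ] V →ₗ[ℝ] ℝ} {ζ : AddChar (ZMod p) (Module.End ℝ V)} {g : Sys X V}
  {j : X → ZMod p}

/-- Hint: `pair h (τ x) (τ y) = pull T (pair h x y)`; `D.jinv` for `z = cut C (δ (cut Θ w))`. -/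
theorem form_tau (ht : Tw D h ζ g j) {C Θ : Set X} (hH : Hyp D ζ g j C Θ) {x y : Coch X V}
    (hx : x ∈ Zc g C) (hy : y ∈ Zc g C) :
    form o h C Θ (tau D ζ j x) (tau D ζ j y) = form o h C Θ x y := by
  have hc : ∀ x ∈ C, CocAt g x := fun x hx => (hH.good x hx).2.1
  have hW : C ⊆ D.W := fun x hx => (hH.good x hx).1
  have hcl : IsClosed C := hH.adm.cpt.isClosed
  have hw := pair_mem_Zc hc ht.orth hx hy
  have hw' := pair_mem_Zc hc ht.orth (tau_mem_Zc hH.good hH.invC hx) (tau_mem_Zc hH.good hH.invC hy)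
  have e : pair h (tau D ζ j x) (tau D ζ j y) = pull D.T (pair h x y) := by
    rw [pull_pair]
    exact pair_act_act (fun x u v => ht.ζorth _ u v) _ _
  have hfr : ∀ w : Coch X ℝ, frontier Θ ∩ supp w ∩ C ⊆ interior C := fun w z hz =>
    hH.adm.fr ⟨hz.1.1, hz.2⟩
  rw [form_apply, form_apply, flux_apply, flux_apply]
  refine D.jinv _ _ (isZc_flux hH.adm.cpt hw (hfr _))
    ((supp_cut_delta_cut hcl hw).trans (inter_subset_right.trans hW))
    (isZc_flux hH.adm.cpt hw' (hfr _))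
    ((supp_cut_delta_cut hcl hw').trans (inter_subset_right.trans hW)) fun z hz => ?_
  rw [pull_cut, ← delta_one_pull, pull_cut, e]
  set w := pull D.T (pair h x y)
  have h1 : VanAt (cut C (delta 1 (cut Θ w)) - cut (D.T ⁻¹' C) (delta 1 (cut Θ w))) z :=
    vanAt_cut_sub_cut (by
      filter_upwards [D.isOpen_W.mem_nhds hz] with u hu using (hH.invC u hu).symm) _
  have h2 : VanAt (cut Θ w - cut (D.T ⁻¹' Θ) w) z :=
    vanAt_cut_sub_cut (by
      filter_upwards [D.isOpen_W.mem_nhds hz] with u hu using (hH.invΘ u hu).symm) _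
  have h3 := h1.add ((h2.delta 1).cut (D.T ⁻¹' C))
  convert h3 using 1
  simp only [map_sub]
  abel

theorem Tau_pow_apply (ht : Tw D h ζ g j) (x : Coch X V) (q : ℕ) : ∀ y ∈ D.W, ∀ l : List X,
    ((tau D ζ j : Module.End ℝ (Coch X V)) ^ q) x y l =
      ζ (-((q : ZMod p) * j y)) (x (D.T^[q] y) (l.map D.T^[q])) := by
  induction q with
  | zero => intro y _ l; simp
  | succ q ih =>
    intro y hy l
    rw [pow_succ', Module.End.mul_apply]
    change ζ (-j y) (((tau D ζ j : Module.End ℝ (Coch X V)) ^ q) x (D.T y) (l.map D.T)) = _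
    rw [ih _ (D.mapsTo hy), ht.jinv y hy, ← Module.End.mul_apply, ← AddChar.map_add_eq_mul,
      List.map_map, Function.iterate_succ]
    congr 2
    push_cast
    ring

/-- Recurrence.  Hint: near `C`, `(τ ^ q) x = act (ζ (-(q • j))) (pull T^[q] x)`, and
`(q : ZMod p) = 0` for `q = p ^ (k + 1)`.  Apply `D.recur` on a compact neighbourhood of `C` in
`W` with a Lebesgue number, then `contiguity` with `φ₀ = id`, `φ₁ = T^[q]`. -/
theorem exists_tau_pow [ProperSpace X] [NeZero p] (ht : Tw D h ζ g j) {C : Set X}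
    (hC : IsCompact C) (hg : ∀ x ∈ C, GoodAt D ζ g j x) {x : Coch X V} (hx : x ∈ Zc g C) :
    ∃ q : ℕ, 0 < q ∧ ((tau D ζ j : Module.End ℝ (Coch X V)) ^ q) x - x ∈ Bd g C := by
  have hW : C ⊆ D.W := fun x hx => (hg x hx).1
  obtain ⟨C', hC', h1, h2⟩ := exists_compact_between hC D.isOpen_W hW
  have hN : ∀ c : C, ∃ N : Set X, IsOpen N ∧ (c : X) ∈ N ∧ CocOn g N ∧ VanOn (delta g x) N := by
    intro c
    obtain ⟨N₁, hN₁, h₁⟩ := (hg c c.2).2.1
    obtain ⟨N₂, hN₂, h₂⟩ := hx c c.2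
    exact ⟨interior (N₁ ∩ N₂), isOpen_interior, mem_interior_iff_mem_nhds.2 (inter_mem hN₁ hN₂),
      h₁.mono (interior_subset.trans inter_subset_left),
      h₂.mono (interior_subset.trans inter_subset_right)⟩
  choose N hNo hNm hNc hNv using hN
  obtain ⟨η, hη, hL⟩ := lebesgue_number_lemma_of_metric hC hNo
    (fun c hc => mem_iUnion.2 ⟨⟨c, hc⟩, hNm _⟩)
  obtain ⟨k, hk⟩ := D.recur C' hC' h2 (η / 2) (half_pos hη)
  set q := p ^ (k + 1) with hq
  have hq0 : (q : ZMod p) = 0 := by simp [hq]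
  refine ⟨q, pow_pos (Nat.pos_of_ne_zero (NeZero.ne p)) _,
    mem_Bd.2 ⟨prism id D.T^[q] x, fun c hc => ?_⟩⟩
  obtain ⟨i, hi⟩ := hL c hc
  have hN' : C' ∩ Metric.ball c (η / 2) ∈ 𝓝 c :=
    inter_mem (mem_interior_iff_mem_nhds.1 (h1 hc)) (Metric.ball_mem_nhds c (half_pos hη))
  have k1 := contiguity (φ₀ := id) (φ₁ := D.T^[q]) hN' (hNc i) (hNv i)
    (fun y hy => hi (Metric.ball_subset_ball (half_le_self hη.le) hy.2))
    (fun y hy => hi (by
      have a1 := hk y hy.1
      have a2 : dist y c < η / 2 := hy.2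
      have a3 := dist_triangle (D.T^[q] y) y c
      exact Metric.mem_ball.2 (by linarith)))
  obtain ⟨N₃, hN₃, -, h₃⟩ := (hg c hc).2.2
  have k2 : VanAt (act (fun y => g (id y) (D.T^[q] y)) (pull D.T^[q] x) - pull D.T^[q] x) c :=
    vanAt_act_sub (by filter_upwards [hN₃] with y hy using h₃ y hy q) _
  have k3 : VanAt (((tau D ζ j : Module.End ℝ (Coch X V)) ^ q) x - pull D.T^[q] x) c := by
    refine ⟨D.W, D.isOpen_W.mem_nhds (hW hc), fun y hy l _ => ?_⟩
    rw [Pi.sub_apply, Pi.sub_apply, Tau_pow_apply ht x q y hy, hq0]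
    simp
  have k4 := (k1.sub k2).add k3
  rw [pull_id, show pullS id g = g from rfl] at k4
  convert k4 using 1
  abel

theorem Tau_pow_mem_Zc {C : Set X} (hg : ∀ x ∈ C, GoodAt D ζ g j x) (hC : InvS D.W D.T C)
    {x : Coch X V} (hx : x ∈ Zc g C) (i : ℕ) :
    ((tau D ζ j : Module.End ℝ (Coch X V)) ^ i) x ∈ Zc g C := by
  induction i with
  | zero => simpa using hx
  | succ i ih =>
    rw [pow_succ', Module.End.mul_apply]
    exact tau_mem_Zc hg hC ih

/-- The average over `q` iterates. -/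
noncomputable def avg (D : Dyn o p) (ζ : AddChar (ZMod p) (Module.End ℝ V)) (j : X → ZMod p)
    (q : ℕ) (x : Coch X V) : Coch X V :=
  (q : ℝ)⁻¹ • ∑ i ∈ Finset.range q, ((tau D ζ j : Module.End ℝ (Coch X V)) ^ i) x

theorem avg_mem_Zt {C : Set X} (hg : ∀ x ∈ C, GoodAt D ζ g j x) (hC : InvS D.W D.T C)
    {x : Coch X V} (hx : x ∈ Zc g C) {q : ℕ}
    (hq : ((tau D ζ j : Module.End ℝ (Coch X V)) ^ q) x - x ∈ Bd g C) :
    avg D ζ j q x ∈ Zt D ζ g j C := by
  refine ⟨Submodule.smul_mem _ _ (Submodule.sum_mem _ fun i _ => Tau_pow_mem_Zc hg hC hx i), ?_⟩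
  change (tau D ζ j - LinearMap.id : Coch X V →ₗ[ℝ] Coch X V) (avg D ζ j q x) ∈ Bd g C
  have e : (tau D ζ j - LinearMap.id : Coch X V →ₗ[ℝ] Coch X V) (avg D ζ j q x) =
      (q : ℝ)⁻¹ • (((tau D ζ j : Module.End ℝ (Coch X V)) ^ q) x - x) := by
    rw [avg, map_smul, map_sum]
    congr 1
    have := Finset.sum_range_sub (fun i => ((tau D ζ j : Module.End ℝ (Coch X V)) ^ i) x) q
    simp only [pow_zero, Module.End.one_apply] at this
    rw [← this]
    refine Finset.sum_congr rfl fun i _ => ?_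
    rw [pow_succ', Module.End.mul_apply, LinearMap.sub_apply, LinearMap.id_apply]
  rw [e]
  exact Submodule.smul_mem _ _ hq

theorem form_avg (ht : Tw D h ζ g j) {C Θ : Set X} (hH : Hyp D ζ g j C Θ) {x y : Coch X V}
    (hx : x ∈ Zc g C) (hy : y ∈ Zt D ζ g j C) {q : ℕ} (hq : 0 < q) :
    form o h C Θ (avg D ζ j q x) y = form o h C Θ x y := by
  have hc : ∀ x ∈ C, CocAt g x := fun x hx => (hH.good x hx).2.1
  have hy2 : tau D ζ j y - y ∈ Bd g C := hy.2
  have key : ∀ i : ℕ, form o h C Θ (((tau D ζ j : Module.End ℝ (Coch X V)) ^ i) x) y =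
      form o h C Θ x y := by
    intro i
    induction i with
    | zero => simp
    | succ i ih =>
      have hz := Tau_pow_mem_Zc hH.good hH.invC hx i
      have h1 := form_Bd_right o hH.adm hc ht.orth (tau_mem_Zc hH.good hH.invC hz) hy2
      rw [map_sub, form_tau ht hH hz hy.1, ih] at h1
      rw [pow_succ', Module.End.mul_apply]
      linarith
  have hq' : (q : ℝ) ≠ 0 := by exact_mod_cast hq.ne'
  rw [avg, map_smul, map_sum, LinearMap.smul_apply, LinearMap.sum_apply]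
  simp only [key, Finset.sum_const, Finset.card_range, nsmul_eq_mul, smul_eq_mul]
  field_simp

end Crest.Agent.R217
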