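import Crest.Agent.R217.Flux
import Crest.Agent.R217.Homotopy

set_option autoImplicit false
set_option linter.unusedSectionVars false
open Set Filter Topology

namespace Crest.Agent.R217

/-! The twisted action on cochains. -/

variable {X V : Type*} [AddCommGroup V] [Module ℝ V] [MetricSpace X] {o : Orient X} {p : ℕ}
  {D : Dyn o p} {h : V →ₗ[ℝ] V →ₗ[ℝ] ℝ} {ζ : AddChar (ZMod p) (Module.End ℝ V)} {g : Sys X V}
  {j : X → ZMod p}

theorem isOpen_setOf_goodAt (D : Dyn o p) (ζ : AddChar (ZMod p) (Module.End ℝ V)) (g : Sys X V)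
    (j : X → ZMod p) : IsOpen {x | GoodAt D ζ g j x} := by
  refine isOpen_iff_mem_nhds.2 fun x hx => ?_
  obtain ⟨hW, hc, N, hN, h⟩ := hx
  filter_upwards [D.isOpen_W.mem_nhds hW, hc.eventually, eventually_mem_nhds_iff.2 hN]
    with y h1 h2 h3
  exact ⟨h1, h2, N, h3, h⟩

theorem Tw.shift (ht : Tw D h ζ g j) (a : ZMod p) : Tw D h ζ g (fun x => j x + a) := by
  exact ⟨ht.form, ht.orth, ht.ζorth, ht.comm, fun x hx => by simp only [ht.jinv x hx]⟩

theorem GoodAt.shift (ht : Tw D h ζ g j) {x : X} (hx : GoodAt D ζ g j x) (a : ZMod p) :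
    GoodAt D ζ g (fun x => j x + a) x := by
  obtain ⟨hW, hc, N, hN, h1, h2⟩ := hx
  refine ⟨hW, hc, N, hN, fun y hy z hz => ?_, h2⟩
  simp only [AddChar.map_add_eq_mul]
  rw [← mul_assoc, h1 y hy z hz, mul_assoc, ht.comm, mul_assoc]

theorem Hyp.shift (ht : Tw D h ζ g j) {C Θ : Set X} (hx : Hyp D ζ g j C Θ) (a : ZMod p) :
    Hyp D ζ g (fun x => j x + a) C Θ := by
  exact ⟨hx.adm, fun x h => (hx.good x h).shift ht a, hx.invC, hx.invΘ⟩

theorem InvS.compl {W S : Set X} {T : X → X} (hS : InvS W T S) : InvS W T Sᶜ := by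
  exact fun x hx => not_congr (hS x hx)

theorem InvS.inter {W S S' : Set X} {T : X → X} (hS : InvS W T S) (hS' : InvS W T S') :
    InvS W T (S ∩ S') := by
  exact fun x hx => and_congr (hS x hx) (hS' x hx)

theorem InvS.union {W S S' : Set X} {T : X → X} (hS : InvS W T S) (hS' : InvS W T S') :
    InvS W T (S ∪ S') := by
  exact fun x hx => or_congr (hS x hx) (hS' x hx)

theorem InvS.diff {W S S' : Set X} {T : X → X} (hS : InvS W T S) (hS' : InvS W T S') :
    InvS W T (S \ S') := by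
  exact fun x hx => and_congr (hS x hx) (not_congr (hS' x hx))

theorem InvS.interior {S : Set X} (hS : InvS D.W D.T S) : InvS D.W D.T (interior S) := by
  intro x hx
  simp only [mem_interior_iff_mem_nhds]
  constructor
  · intro h
    filter_upwards [D.isOpen_W.mem_nhds hx, D.cont.continuousAt (D.isOpen_W.mem_nhds hx) h]
      with y h1 h2
    exact (hS y h1).1 h2
  · intro h
    have hT := D.isOpen_W.mem_nhds (D.mapsTo hx)
    rw [← D.left_inv x hx] at h
    filter_upwards [hT, D.cont_inv.continuousAt hT h] with y h1 h2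
    rw [← D.right_inv y h1]
    exact (hS _ (D.mapsTo_inv h1)).2 h2

theorem InvS.closure {S : Set X} (hS : InvS D.W D.T S) : InvS D.W D.T (closure S) := by
  rw [closure_eq_compl_interior_compl]
  exact hS.compl.interior.compl

theorem InvS.frontier {S : Set X} (hS : InvS D.W D.T S) : InvS D.W D.T (frontier S) := by
  exact hS.closure.diff hS.interior

theorem vanAt_tau {c : Coch X V} {x : X} (hx : x ∈ D.W) (hc : VanAt c (D.T x)) :
    VanAt (tau D ζ j c) x := by
  exact (hc.pull (D.cont.continuousAt (D.isOpen_W.mem_nhds hx))).act _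

theorem vanAt_delta_tau {x : X} (hx : GoodAt D ζ g j x) (c : Coch X V) :
    VanAt (delta g (tau D ζ j c) - tau D ζ j (delta g c)) x := by
  obtain ⟨-, -, N, hN, h1, -⟩ := hx
  have hI : IntAt (fun x => ζ (-j x)) (pullS D.T g) g x := by
    refine ⟨N, hN, fun y hy z hz => ?_⟩
    have e : ∀ a, ζ (-a) * ζ a = 1 := fun a => by
      rw [← AddChar.map_add_eq_mul, neg_add_cancel, AddChar.map_zero_eq_one]
    have e' : ∀ a, ζ a * ζ (-a) = 1 := fun a => by
      rw [← AddChar.map_add_eq_mul, add_neg_cancel, AddChar.map_zero_eq_one]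
    change g y z * ζ (-j z) = ζ (-j y) * g (D.T y) (D.T z)
    calc g y z * ζ (-j z) = ζ (-j y) * (ζ (j y) * g y z) * ζ (-j z) := by
          rw [← mul_assoc, e, one_mul]
      _ = ζ (-j y) * g (D.T y) (D.T z) := by
          rw [← h1 y hy z hz, mul_assoc, mul_assoc, e', mul_one]
  have := vanAt_delta_act hI (pull D.T c)
  rwa [delta_pull] at this

theorem tau_mem_Van {C : Set X} (hW : C ⊆ D.W) (hC : InvS D.W D.T C) {c : Coch X V}
    (hc : c ∈ Van V C) : tau D ζ j c ∈ Van V C := by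
  exact fun x hx => vanAt_tau (hW hx) (hc _ ((hC x (hW hx)).2 hx))

theorem tau_mem_Zc {C : Set X} (hg : ∀ x ∈ C, GoodAt D ζ g j x) (hC : InvS D.W D.T C)
    {c : Coch X V} (hc : c ∈ Zc g C) : tau D ζ j c ∈ Zc g C := by
  exact fun x hx => (vanAt_delta_tau (hg x hx) c).of_sub
    (tau_mem_Van (fun y hy => (hg y hy).1) hC hc x hx)

theorem tau_mem_Bd {C : Set X} (hg : ∀ x ∈ C, GoodAt D ζ g j x) (hC : InvS D.W D.T C)
    {c : Coch X V} (hc : c ∈ Bd g C) : tau D ζ j c ∈ Bd g C := by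
  obtain ⟨e, he⟩ := mem_Bd.1 hc
  refine mem_Bd.2 ⟨tau D ζ j e, fun x hx => ?_⟩
  have h1 := (tau_mem_Van (ζ := ζ) (j := j) (fun y hy => (hg y hy).1) hC he x hx).sub
    (vanAt_delta_tau (hg x hx) e)
  convert h1 using 1
  rw [map_sub]
  abel

theorem Zt_mono (D : Dyn o p) (ζ : AddChar (ZMod p) (Module.End ℝ V)) (g : Sys X V)
    (j : X → ZMod p) {C C' : Set X} (hC : C ⊆ C') : Zt D ζ g j C' ≤ Zt D ζ g j C := by
  exact inf_le_inf (Zc_mono g hC) (Submodule.comap_mono (Bd_mono g hC))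

/-- The trivial dynamics. -/
def Dyn.trivial [ProperSpace X] (o : Orient X) (p : ℕ) (W : Set X) (hW : IsOpen W) : Dyn o p where
  W := W
  T := id
  Tinv := id
  isOpen_W := hW
  mapsTo := fun _ hx => hx
  mapsTo_inv := fun _ hx => hx
  cont := continuousOn_id
  cont_inv := continuousOn_id
  left_inv := fun _ _ => rfl
  right_inv := fun _ _ => rfl
  recur := fun _ _ _ η hη => ⟨0, fun x _ => by simpa using hη⟩
  nbhd := fun Y U hY hYW _ hU hYU => by
    obtain ⟨Q, hQ, h1, h2⟩ := exists_compact_between hY (hU.inter hW) (subset_inter hYU hYW)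
    exact ⟨Q, hQ, fun _ _ => Iff.rfl, h1, h2⟩
  triv := fun _ _ hx => absurd rfl hx
  jinv := fun z z' _ hz _ hz' hd => o.J_congr fun x => by
    by_cases hx : x ∈ W
    · simpa [pull_id] using hd x hx
    · exact (supp_subset_iff.1 hz' x hx).sub (supp_subset_iff.1 hz x hx)

theorem sigT_trivial [ProperSpace X] (o : Orient X) (W : Set X) (hW : IsOpen W)
    (h : V →ₗ[ℝ] V →ₗ[ℝ] ℝ) (ζ : AddChar (ZMod p) (Module.End ℝ V)) (g : Sys X V) (C Θ : Set X) :
    sigT (Dyn.trivial o p W hW) h ζ g (fun _ => 0) C Θ = sig0 o h g C Θ := by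
  have e : tau (Dyn.trivial o p W hW) ζ (fun _ => 0) = LinearMap.id := by
    ext c x l
    simp [tau, Dyn.trivial]
  rw [sigT, sig0, Zt, e, sub_self, Submodule.comap_zero, inf_top_eq]

theorem tw_trivial [ProperSpace X] (o : Orient X) (p : ℕ) (W : Set X) (hW : IsOpen W)
    (hf : IsForm h) (ho : ∀ x y, IsOrth h (g x y)) :
    Tw (Dyn.trivial o p W hW) h 1 g (fun _ => 0) := by
  exact ⟨hf, ho, fun a u v => by simp, fun x y a => by simp, fun _ _ => rfl⟩

theorem hyp_trivial [ProperSpace X] (o : Orient X) (p : ℕ) (W : Set X) (hW : IsOpen W)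
    {C Θ : Set X} (hA : Adm C Θ) (hCW : C ⊆ W) (hg : ∀ x ∈ C, CocAt g x) :
    Hyp (Dyn.trivial o p W hW) 1 g (fun _ => 0) C Θ := by
  refine ⟨hA, fun x hx => ?_, fun _ _ => Iff.rfl, fun _ _ => Iff.rfl⟩
  obtain ⟨N, hN, h1⟩ := hg x hx
  refine ⟨hCW hx, ⟨N, hN, h1⟩, N, hN, fun y _ z _ => by simp [Dyn.trivial], fun y hy i => ?_⟩
  simpa [Dyn.trivial] using h1.1 y hy

end Crest.Agent.R217
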