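import Crest.Agent.R217.Sheet

set_option autoImplicit false
set_option linter.unusedSectionVars false
open Set Filter Topology

namespace Crest.Agent.R217

/-! The intersection form of one sheet. -/

variable {X V : Type*} [AddCommGroup V] [Module ℝ V] [MetricSpace X]

/-- `o'` is the double suspension of `o`. -/
def IsSusp2 (o : Orient X) (o' : Orient (X × ℝ × ℝ)) : Prop :=
  ∀ z, IsZc z → o'.J (delta 1 (cut {q : X × ℝ × ℝ | 0 < q.2.1}
    (delta 1 (cut {q : X × ℝ × ℝ | 0 < q.2.2} (pull Prod.fst z))))) = o.J z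

theorem Triple_fr1 {q : X × ℝ × ℝ} {r : ℝ} (hq : q.2.1 ≠ r) :
    q ∉ frontier {q : X × ℝ × ℝ | r < q.2.1} := fun h =>
  hq (frontier_lt_subset_eq continuous_const (by fun_prop) h).symm

theorem Triple_fr1' {q : X × ℝ × ℝ} {r : ℝ} (hq : q.2.1 ≠ r) :
    q ∉ frontier {q : X × ℝ × ℝ | q.2.1 < r} := fun h =>
  hq (frontier_lt_subset_eq (f := fun q : X × ℝ × ℝ => q.2.1) (g := fun _ => r) (by fun_prop)
    continuous_const h)

theorem Triple_fr2 {q : X × ℝ × ℝ} (hq : q.2.2 ≠ 0) :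
    q ∉ frontier {q : X × ℝ × ℝ | 0 < q.2.2} := fun h =>
  hq (frontier_lt_subset_eq continuous_const (by fun_prop) h).symm

theorem Triple_fr0 {Θ₀ : Set X} {q : X × ℝ × ℝ} (hq : q.1 ∉ frontier Θ₀) :
    q ∉ frontier (Θ₀ ×ˢ (univ : Set (ℝ × ℝ))) := by
  rw [frontier_prod_univ_eq]
  exact fun h => hq h.1

theorem Triple_ne {w : ℝ × ℝ} (hw : w ≠ 0) : w.1 ≠ 0 ∨ w.2 ≠ 0 := by
  by_contra h
  push Not at h
  exact hw (Prod.ext h.1 h.2)

/-- Cochains living over `(frontier Θ₀ ∩ K₀) × {0}` have no flux. -/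
theorem Triple_J (o' : Orient (X × ℝ × ℝ)) {K₀ Θ₀ : Set X} (hA : Adm K₀ Θ₀) {S : Set (ℝ × ℝ)}
    (hS : IsCompact S) (hS0 : S ∈ 𝓝 (0 : ℝ × ℝ)) {a : Coch (X × ℝ × ℝ) ℝ}
    (ha : ∀ q : X × ℝ × ℝ, q.1 ∈ K₀ → (q.1 ∉ frontier Θ₀ ∨ q.2.1 ≠ 0 ∨ q.2.2 ≠ 0) → VanAt a q) :
    o'.J (cut (K₀ ×ˢ S) (delta 1 a)) = 0 := by
  apply J_cut_delta o' (hA.cpt.prod hS)
  rintro q ⟨hq, hqC⟩
  rw [interior_prod_eq]
  by_contra hn
  apply hq
  apply ha q hqC.1
  by_cases h1 : q.1 ∈ frontier Θ₀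
  · right
    apply Triple_ne
    intro h0
    exact hn ⟨hA.fr ⟨h1, hqC.1⟩, by rw [h0]; exact mem_interior_iff_mem_nhds.2 hS0⟩
  · exact Or.inl h1

/-- Write `θ, λ, σ` for the three cuts, `U = pull fst u`, `w₂ = δ σ U`.  `vanAt_anticomm` and
`J_cut_delta` give `J (cut δ θ δ λ w₂) = - J (cut δ λ δ θ w₂)`.  With
`η = θ δ σ U + σ δ θ U - δ (θ σ U)`, `δ θ w₂ ≡ δ η - δ σ δ θ U` and
`δ λ δ η ≡ δ (λ δ η - δ (λ η))` contributes zero.  Finally compare with `z = cut K₀ (δ θ u)`. -/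
theorem flux_triple {o : Orient X} {o' : Orient (X × ℝ × ℝ)} (hoo : IsSusp2 o o') {K₀ Θ₀ : Set X}
    (hA : Adm K₀ Θ₀) {S : Set (ℝ × ℝ)} (hS : IsCompact S) (hS0 : S ∈ 𝓝 (0 : ℝ × ℝ))
    {u : Coch X ℝ} (hu : u ∈ Zc 1 K₀) :
    flux o' (K₀ ×ˢ S) (Θ₀ ×ˢ univ) (delta 1 (cut {q : X × ℝ × ℝ | 0 < q.2.1}
      (delta 1 (cut {q : X × ℝ × ℝ | 0 < q.2.2} (pull Prod.fst u))))) = flux o K₀ Θ₀ u := by
  set θ : Set (X × ℝ × ℝ) := Θ₀ ×ˢ univ with hθ
  set lam : Set (X × ℝ × ℝ) := {q | 0 < q.2.1} with hlam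
  set sg : Set (X × ℝ × ℝ) := {q | 0 < q.2.2} with hsg
  set U : Coch (X × ℝ × ℝ) ℝ := pull Prod.fst u with hU
  have hdU : ∀ q : X × ℝ × ℝ, q.1 ∈ K₀ → VanAt (delta 1 U) q := by
    intro q hq
    rw [hU, delta_one_pull]
    exact (hu _ hq).pull continuous_fst.continuousAt
  set w₂ := delta 1 (cut sg U) with hw₂
  have hdw : delta 1 w₂ = 0 := delta_one_delta_one _
  have h1 := Triple_J o' hA hS hS0
    (a := cut θ (delta 1 (cut lam w₂)) + cut lam (delta 1 (cut θ w₂)) - delta 1 (cut (θ ∩ lam) w₂))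
    (by
      intro q hq h
      rcases h with h | h | h
      · exact vanAt_anticomm (Or.inl (Triple_fr0 h)) (by rw [hdw]; exact vanAt_zero _)
      · exact vanAt_anticomm (Or.inr (Triple_fr1 h)) (by rw [hdw]; exact vanAt_zero _)
      · have hw : VanAt w₂ q := vanAt_delta_cut_of_cocycle (Triple_fr2 h) (hdU q hq)
        exact ((((hw.cut _).delta _).cut _).add (((hw.cut _).delta _).cut _)).sub
          ((hw.cut _).delta _))
  set η := cut θ (delta 1 (cut sg U)) + cut sg (delta 1 (cut θ U)) - delta 1 (cut (θ ∩ sg) U)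
    with hη
  have h2 := Triple_J o' hA hS hS0 (a := delta 1 (cut lam η) - cut lam (delta 1 η))
    (by
      intro q hq h
      rcases h with h | h | h
      · have hv : VanAt η q := vanAt_anticomm (Or.inl (Triple_fr0 h)) (hdU q hq)
        exact ((hv.cut _).delta _).sub ((hv.delta _).cut _)
      · exact vanAt_delta_cut (Triple_fr1 h) _ _
      · have hv : VanAt η q := vanAt_anticomm (Or.inr (Triple_fr2 h)) (hdU q hq)
        exact ((hv.cut _).delta _).sub ((hv.delta _).cut _))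
  set P := delta 1 (cut θ U) with hP
  have hdP : delta 1 P = 0 := delta_one_delta_one _
  have h3 : delta 1 η = delta 1 (cut θ w₂) + delta 1 (cut sg P) := by
    rw [hη, map_sub, map_add, delta_one_delta_one, sub_zero]
  have hz : IsZc (cut K₀ (delta 1 (cut Θ₀ u))) :=
    isZc_flux hA.cpt hu (fun x hx => hA.fr ⟨hx.1.1, hx.2⟩)
  have h4 := hoo _ hz
  have h5 : (pull Prod.fst (cut K₀ (delta 1 (cut Θ₀ u))) : Coch (X × ℝ × ℝ) ℝ) =
      cut (Prod.fst ⁻¹' K₀) P := by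
    rw [pull_cut, ← delta_one_pull, pull_cut, hP, hθ, prod_univ]
  rw [h5] at h4
  have h6 : o'.J (cut (K₀ ×ˢ S) (delta 1 (cut lam (delta 1 (cut sg P))))) =
      o'.J (delta 1 (cut lam (delta 1 (cut sg (cut (Prod.fst ⁻¹' K₀) P))))) := by
    apply o'.J_congr
    intro q
    by_cases hq : q.1 ∈ K₀
    · by_cases hf : q.1 ∈ frontier Θ₀
      · have hn : (Prod.fst ⁻¹' K₀ : Set (X × ℝ × ℝ)) ∈ 𝓝 q :=
          continuous_fst.continuousAt.preimage_mem_nhds
            (mem_interior_iff_mem_nhds.1 (hA.fr ⟨hf, hq⟩))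
        have e1 := ((((vanAt_cut_sub hn P).cut sg).delta 1).cut lam).delta 1
        simp only [map_sub] at e1
        refine VanAt.trans_sub ?_ e1.symm_sub
        by_cases h0 : q.2 = 0
        · apply vanAt_cut_sub
          have : S ∈ 𝓝 q.2 := by rw [h0]; exact hS0
          exact prod_mem_nhds (mem_interior_iff_mem_nhds.1 (hA.fr ⟨hf, hq⟩)) this
        · have hv : VanAt (delta 1 (cut lam (delta 1 (cut sg P)))) q := by
            rcases Triple_ne h0 with h | h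
            · exact vanAt_delta_cut_of_cocycle (Triple_fr1 h)
                (by rw [delta_one_delta_one]; exact vanAt_zero _)
            · exact ((vanAt_delta_cut_of_cocycle (Triple_fr2 h)
                (by rw [hdP]; exact vanAt_zero _)).cut _).delta _
          exact (hv.cut _).sub hv
      · have hv : VanAt P q := vanAt_delta_cut_of_cocycle (Triple_fr0 hf) (hdU q hq)
        exact (((((hv.cut _).delta _).cut _).delta _).cut _).sub
          (((((hv.cut _).cut _).delta _).cut _).delta _)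
    · have hn : (Prod.fst ⁻¹' K₀ : Set (X × ℝ × ℝ))ᶜ ∈ 𝓝 q :=
        (hA.cpt.isClosed.preimage continuous_fst).isOpen_compl.mem_nhds hq
      have hn' : (K₀ ×ˢ S)ᶜ ∈ 𝓝 q :=
        (hA.cpt.prod hS).isClosed.isOpen_compl.mem_nhds fun h => hq h.1
      exact (vanAt_cut_of_compl_mem hn' _).sub
        (((((vanAt_cut_of_compl_mem hn _).cut _).delta _).cut _).delta _)
  rw [flux_apply, flux_apply, ← h4, ← h6]
  simp only [map_add, map_sub, delta_one_delta_one, h3, map_neg, sub_zero, zero_sub] at h1 h2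
  linarith

end Crest.Agent.R217
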