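import Crest.Agent.R217.Supp

set_option autoImplicit false
set_option linter.unusedSectionVars false
open Set Filter Topology

namespace Crest.Agent.R217

/-! The submodules `Van`, `Zc`, `Bd`: monotonicity, Mayer-Vietoris splitting, excision, gauge. -/

variable {X Y V V' : Type*} [AddCommGroup V] [Module ℝ V] [AddCommGroup V'] [Module ℝ V']
  [TopologicalSpace X] [TopologicalSpace Y]

theorem VanMV_sep [NormalSpace X] {A B : Set X} (hA : IsClosed A) (hB : IsClosed B)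
    (hd : Disjoint A B) : ∃ N : Set X, (∀ x ∈ A, N ∈ 𝓝 x) ∧ ∀ x ∈ B, Nᶜ ∈ 𝓝 x := by
  obtain ⟨U, W, hU, hW, hAU, hBW, hUW⟩ := normal_separation hA hB hd
  exact ⟨U, fun x hx => hU.mem_nhds (hAU hx), fun x hx =>
    mem_of_superset (hW.mem_nhds (hBW hx)) hUW.symm.subset_compl_right⟩

theorem Van_mono {A B : Set X} (h : A ⊆ B) : Van V B ≤ Van V A := by
  exact fun _ hc x hx => hc x (h hx)

theorem Van_empty : Van V (∅ : Set X) = ⊤ := by
  exact eq_top_iff.2 fun _ _ _ hx => hx.elim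

theorem Van_union (A B : Set X) : Van V (A ∪ B) = Van V A ⊓ Van V B := by
  ext c
  exact ⟨fun h => ⟨fun x hx => h x (Or.inl hx), fun x hx => h x (Or.inr hx)⟩,
    fun h x hx => hx.elim (h.1 x) (h.2 x)⟩

/-- Hint: `supp c ∩ A` and `supp c ∩ B` are disjoint closed sets; cut along a separating set. -/
theorem Van_inter [NormalSpace X] {A B : Set X} (hA : IsClosed A) (hB : IsClosed B) :
    Van V (A ∩ B) = Van V A ⊔ Van V B := by
  refine le_antisymm (fun c hc => ?_)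
    (sup_le (Van_mono inter_subset_left) (Van_mono inter_subset_right))
  obtain ⟨N, h1, h2⟩ := VanMV_sep ((isClosed_supp c).inter hA) ((isClosed_supp c).inter hB)
    (Set.disjoint_left.2 fun x hx hx' => hx.1 (hc x ⟨hx.2, hx'.2⟩))
  refine Submodule.mem_sup.2 ⟨cut Nᶜ c, fun x hx => ?_, cut N c, fun x hx => ?_, ?_⟩
  · by_cases h : VanAt c x
    · exact h.cut _
    · exact vanAt_cut_of_compl_mem (by rw [compl_compl]; exact h1 x ⟨h, hx⟩) c
  · by_cases h : VanAt c x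
    · exact h.cut _
    · exact vanAt_cut_of_compl_mem (h2 x ⟨h, hx⟩) c
  · rw [cut_compl]; abel

theorem Zc_mono (g : Sys X V) {A B : Set X} (h : A ⊆ B) : Zc g B ≤ Zc g A := by
  exact Submodule.comap_mono (Van_mono h)

theorem Bd_mono (g : Sys X V) {A B : Set X} (h : A ⊆ B) : Bd g B ≤ Bd g A := by
  exact sup_le_sup_left (Van_mono h) _

theorem Van_le_Bd (g : Sys X V) (A : Set X) : Van V A ≤ Bd g A := by
  exact le_sup_right

theorem Van_le_Zc (g : Sys X V) (A : Set X) : Van V A ≤ Zc g A := by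
  exact fun _ hc x hx => (hc x hx).delta g

theorem delta_mem_Bd (g : Sys X V) (A : Set X) (c : Coch X V) : delta g c ∈ Bd g A := by
  exact Submodule.mem_sup_left ⟨c, rfl⟩

theorem Bd_le_Zc {g : Sys X V} {A : Set X} (hg : ∀ x ∈ A, CocAt g x) : Bd g A ≤ Zc g A := by
  refine sup_le ?_ (Van_le_Zc g A)
  rintro _ ⟨e, rfl⟩ x hx
  exact vanAt_delta_delta (hg x hx) e

theorem eps_mem_Zc {g : Sys X V} {A : Set X} {c : Coch X V} (hc : c ∈ Zc g A) :
    eps c ∈ Zc g A := by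
  intro x hx
  rw [delta_eps]
  exact (hc x hx).eps.neg

theorem act_mem_Zc {γ : X → V →ₗ[ℝ] V'} {g : Sys X V} {g' : Sys X V'} {A : Set X}
    (hγ : ∀ x ∈ A, IntAt γ g g' x) {c : Coch X V} (hc : c ∈ Zc g A) : act γ c ∈ Zc g' A := by
  exact fun x hx => (vanAt_delta_act (hγ x hx) c).of_sub ((hc x hx).act γ)

theorem act_mem_Bd {γ : X → V →ₗ[ℝ] V'} {g : Sys X V} {g' : Sys X V'} {A : Set X}
    (hγ : ∀ x ∈ A, IntAt γ g g' x) {c : Coch X V} (hc : c ∈ Bd g A) : act γ c ∈ Bd g' A := by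
  obtain ⟨e, he⟩ := mem_Bd.1 hc
  refine mem_Bd.2 ⟨act γ e, fun x hx => ?_⟩
  have h1 := (he x hx).act γ
  rw [map_sub] at h1
  exact h1.trans_sub (vanAt_delta_act (hγ x hx) e).symm_sub

theorem intAt_const {g : Sys X V} {g' : Sys X V'} {a : V →ₗ[ℝ] V'}
    (ha : ∀ x y, g' x y ∘ₗ a = a ∘ₗ g x y) (x : X) : IntAt (fun _ => a) g g' x := by
  exact ⟨univ, univ_mem, fun x _ y _ => ha x y⟩

theorem pull_mem_Van {φ : Y → X} {A : Set X} {B : Set Y} (hφ : ∀ y ∈ B, ContinuousAt φ y)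
    (hB : MapsTo φ B A) {c : Coch X V} (hc : c ∈ Van V A) : pull φ c ∈ Van V B := by
  exact fun y hy => (hc _ (hB hy)).pull (hφ y hy)

theorem pull_mem_Zc {g : Sys X V} {φ : Y → X} {A : Set X} {B : Set Y}
    (hφ : ∀ y ∈ B, ContinuousAt φ y) (hB : MapsTo φ B A) {c : Coch X V} (hc : c ∈ Zc g A) :
    pull φ c ∈ Zc (pullS φ g) B := by
  rw [mem_Zc, delta_pull]
  exact pull_mem_Van hφ hB hc

theorem pull_mem_Bd {g : Sys X V} {φ : Y → X} {A : Set X} {B : Set Y}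
    (hφ : ∀ y ∈ B, ContinuousAt φ y) (hB : MapsTo φ B A) {c : Coch X V} (hc : c ∈ Bd g A) :
    pull φ c ∈ Bd (pullS φ g) B := by
  obtain ⟨e, he⟩ := mem_Bd.1 hc
  refine mem_Bd.2 ⟨pull φ e, ?_⟩
  rw [delta_pull, ← map_sub]
  exact pull_mem_Van hφ hB he

theorem Zc_congr {g g' : Sys X V} {A : Set X}
    (hg : ∀ x ∈ A, ∃ N ∈ 𝓝 x, ∀ y ∈ N, ∀ z ∈ N, g y z = g' y z) : Zc g A = Zc g' A := by
  ext c
  exact ⟨fun h x hx => (vanAt_delta_congr (hg x hx) c).symm_sub.of_sub (h x hx),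
    fun h x hx => (vanAt_delta_congr (hg x hx) c).of_sub (h x hx)⟩

theorem Bd_congr {g g' : Sys X V} {A : Set X}
    (hg : ∀ x ∈ A, ∃ N ∈ 𝓝 x, ∀ y ∈ N, ∀ z ∈ N, g y z = g' y z) : Bd g A = Bd g' A := by
  ext c
  rw [mem_Bd, mem_Bd]
  exact exists_congr fun e =>
    ⟨fun h x hx => (h x hx).trans_sub (vanAt_delta_congr (hg x hx) e),
      fun h x hx => (h x hx).trans_sub (vanAt_delta_congr (hg x hx) e).symm_sub⟩

theorem exists_separating [NormalSpace X] {A B : Set X} (hA : IsClosed A) (hB : IsClosed B)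
    (hd : Disjoint A B) : ∃ N : Set X, (∀ x ∈ A, N ∈ 𝓝 x) ∧ ∀ x ∈ B, Nᶜ ∈ 𝓝 x := by
  exact VanMV_sep hA hB hd

theorem Bd_union_of_disjoint [NormalSpace X] (g : Sys X V) {A B : Set X} (hA : IsClosed A)
    (hB : IsClosed B) (hd : Disjoint A B) : Bd g (A ∪ B) = Bd g A ⊓ Bd g B := by
  refine le_antisymm (le_inf (Bd_mono g subset_union_left) (Bd_mono g subset_union_right)) ?_
  rintro c ⟨hcA, hcB⟩
  obtain ⟨e, he⟩ := mem_Bd.1 hcA
  obtain ⟨e', he'⟩ := mem_Bd.1 hcB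
  obtain ⟨N, h1, h2⟩ := exists_separating hA hB hd
  refine mem_Bd.2 ⟨cut N e + cut Nᶜ e', fun x hx => ?_⟩
  rcases hx with hx | hx
  · have h3 := ((vanAt_cut_sub (h1 x hx) e).add
      (vanAt_cut_of_compl_mem (S := Nᶜ) (by rw [compl_compl]; exact h1 x hx) e')).delta g
    convert (he x hx).sub h3 using 1
    simp only [map_add, map_sub]; abel
  · have h3 := ((vanAt_cut_sub (h2 x hx) e').add (vanAt_cut_of_compl_mem (h2 x hx) e)).delta g
    convert (he' x hx).sub h3 using 1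
    simp only [map_add, map_sub]; abel

/-- Excision over an acyclic intersection.  Hint: `y ≡ δ e` near `A`; `e` is a cocycle near
`A ∩ B`, so `e ≡ δ e'` there; split `e - δ e' ∈ Van (A ∩ B) = Van A ⊔ Van B`. -/
theorem excise [NormalSpace X] {g : Sys X V} {A B : Set X} (hA : IsClosed A) (hB : IsClosed B)
    (hg : ∀ x ∈ A, CocAt g x) (hac : Zc g (A ∩ B) ≤ Bd g (A ∩ B)) {y : Coch X V}
    (hyA : y ∈ Bd g A) (hyB : y ∈ Van V B) : y ∈ Bd g (A ∪ B) := by
  obtain ⟨e, he⟩ := mem_Bd.1 hyA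
  have h1 : e ∈ Zc g (A ∩ B) := fun x hx => (he x hx.1).symm_sub.of_sub (hyB x hx.2)
  obtain ⟨e', he'⟩ := mem_Bd.1 (hac h1)
  rw [Van_inter hA hB] at he'
  obtain ⟨a, ha, b, hb, hab⟩ := Submodule.mem_sup.1 he'
  refine mem_Bd.2 ⟨b, fun x hx => ?_⟩
  rcases hx with hx | hx
  · have hb' : b = e - delta g e' - a := by rw [← hab]; abel
    convert ((he x hx).add (vanAt_delta_delta (hg x hx) e')).add ((ha x hx).delta g) using 1
    rw [hb']
    simp only [map_sub]; abel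
  · exact (hyB x hx).sub ((hb x hx).delta g)

theorem IsZc.of_subset {z : Coch X ℝ} {S : Set X} (hS : IsCompact S) (h : ∀ x, x ∉ S → VanAt z x)
    (hz : ∀ x ∈ S, VanAt (delta 1 z) x) : IsZc z := by
  refine ⟨isCompact_supp_of_subset hS h, fun x _ => ?_⟩
  by_cases hx : x ∈ S
  exacts [hz x hx, (h x hx).delta 1]

theorem IsZc.add {z z' : Coch X ℝ} (hz : IsZc z) (hz' : IsZc z') : IsZc (z + z') := by
  refine ⟨isCompact_supp_of_subset (hz.1.union hz'.1) fun x hx => ?_, ?_⟩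
  · exact (notMem_supp.1 fun h => hx (Or.inl h)).add (notMem_supp.1 fun h => hx (Or.inr h))
  · rw [map_add]; exact Submodule.add_mem _ hz.2 hz'.2

theorem IsZc.smul {z : Coch X ℝ} (hz : IsZc z) (a : ℝ) : IsZc (a • z) := by
  refine ⟨isCompact_supp_of_subset hz.1 fun x hx => (notMem_supp.1 hx).smul a, ?_⟩
  rw [map_smul]; exact Submodule.smul_mem _ _ hz.2

theorem IsZc.sub {z z' : Coch X ℝ} (hz : IsZc z) (hz' : IsZc z') : IsZc (z - z') := by
  have := hz.add (hz'.smul (-1))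
  rwa [neg_one_smul, ← sub_eq_add_neg] at this

theorem Orient.J_congr (o : Orient X) {c c' : Coch X ℝ} (h : ∀ x, VanAt (c - c') x) :
    o.J c = o.J c' := by
  have := o.J_van (c - c') fun x _ => h x
  rwa [map_sub, sub_eq_zero] at this

end Crest.Agent.R217
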